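import Vale.Agent.P031.Asm.BoundaryLists
import Vale.Agent.P031.Crude

/-!
# Boundary: the values at the boundary are covered by two layers
-/

open Finset Filter Topology
open scoped Classical

namespace Vale.Agent.P031.Boundary

lemma tendsto_LL : Tendsto LL atTop atTop :=
  tendsto_nat_floor_atTop.comp (Real.tendsto_log_atTop.comp
    (Real.tendsto_log_atTop.comp (tendsto_atTop_add_const_right _ 1 tendsto_id)))

lemma eventually_scale : ∀ᶠ Z : ℝ in atTop, Scale Z := by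
  have hlam : ∀ᶠ L : ℕ in atTop, (10 : ℝ) ^ 4 ≤ Real.log L :=
    (Real.tendsto_log_atTop.comp tendsto_natCast_atTop_atTop).eventually_ge_atTop _
  have hpoly : ∀ᶠ L : ℕ in atTop, (10 : ℝ) ^ 4 * Real.log L ^ 210 ≤ (L : ℝ) ^ ((1 : ℝ) / 1000) := by
    have h := (isLittleO_log_rpow_rpow_atTop (210 : ℝ) (show (0 : ℝ) < 1 / 1000 by norm_num)).bound
      (show (0 : ℝ) < 1 / 10 ^ 4 by norm_num)
    filter_upwards [tendsto_natCast_atTop_atTop.eventually h, hlam] with L hL hl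
    rw [show Real.log (L : ℝ) ^ (210 : ℝ) = Real.log (L : ℝ) ^ 210 from by norm_cast, Real.norm_eq_abs,
      Real.norm_eq_abs, abs_of_nonneg (Real.rpow_nonneg (Nat.cast_nonneg L) _),
      abs_of_nonneg (pow_nonneg (le_trans (by norm_num) hl) _)] at hL
    rw [one_div_mul_eq_div, le_div_iff₀' (by norm_num)] at hL
    exact hL
  filter_upwards [eventually_ge_atTop 1, tendsto_LL.eventually hlam, tendsto_LL.eventually hpoly]
    with Z hZ hl hp
  change (10 : ℝ) ^ 4 ≤ lamZ Z at hl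
  change (10 : ℝ) ^ 4 * lamZ Z ^ 210 ≤ (LL Z : ℝ) ^ ((1 : ℝ) / 1000) at hp
  have h1 : (1 : ℝ) ≤ lamZ Z := le_trans (by norm_num) hl
  have hL : (1 : ℝ) ≤ (LL Z : ℝ) := by
    rcases Nat.eq_zero_or_pos (LL Z) with h | h
    · exfalso
      simp [lamZ, h] at hl
      linarith
    · exact_mod_cast h
  have hLp : (0 : ℝ) < (LL Z : ℝ) := by linarith
  have hmono : ∀ {a b : ℝ}, a ≤ b → (LL Z : ℝ) ^ a ≤ (LL Z : ℝ) ^ b := fun h =>
    Real.rpow_le_rpow_of_exponent_le hL h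
  have hbig : (10 : ℝ) ^ 4 ≤ (LL Z : ℝ) ^ ((1 : ℝ) / 1000) := by
    refine le_trans ?_ hp
    exact le_mul_of_one_le_right (by norm_num) (one_le_pow₀ h1)
  have hmul : ∀ {a b : ℝ}, a + 1 / 1000 ≤ b → (10 : ℝ) ^ 4 * (LL Z : ℝ) ^ a ≤ (LL Z : ℝ) ^ b :=
    fun {a b} h => by
      refine le_trans ?_ (hmono h)
      rw [Real.rpow_add hLp, mul_comm]
      exact mul_le_mul_of_nonneg_left hbig (Real.rpow_nonneg hLp.le _)
  have hT : (pT Z : ℝ) ≤ lamZ Z ^ 50 := Nat.floor_le (pow_nonneg (by linarith) _)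
  have hH2 : (pH2 Z : ℝ) ≤ lamZ Z ^ 200 := Nat.floor_le (pow_nonneg (by linarith) _)
  have hK : ((pK Z : ℝ) + 1) ^ 2 ≤ 441 * lamZ Z ^ 2 := by
    have : (pK Z : ℝ) ≤ 20 * lamZ Z := Nat.floor_le (by linarith)
    rw [show 441 * lamZ Z ^ 2 = (21 * lamZ Z) ^ 2 by ring]
    exact pow_le_pow_left₀ (add_nonneg (Nat.cast_nonneg _) zero_le_one) (by linarith) 2
  have hm : ∀ {m : ℕ}, m ≤ 210 → lamZ Z ^ m ≤ lamZ Z ^ 210 := fun h => pow_le_pow_right₀ h1 h
  have hTK : (pT Z : ℝ) * ((pK Z : ℝ) + 1) ^ 2 ≤ 441 * lamZ Z ^ 52 := by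
    refine (mul_le_mul hT hK (sq_nonneg _) (pow_nonneg (by linarith) _)).trans_eq ?_
    rw [mul_left_comm, ← pow_add]
  have hHK : (pH2 Z : ℝ) * ((pK Z : ℝ) + 1) ^ 2 ≤ 441 * lamZ Z ^ 202 := by
    refine (mul_le_mul hH2 hK (sq_nonneg _) (pow_nonneg (by linarith) _)).trans_eq ?_
    rw [mul_left_comm, ← pow_add]
  refine ⟨hZ, le_trans (by norm_num) hl, ?_, ?_, ?_, hL, ?_, ⟨?_, ?_⟩, fun x hx => ?_⟩
  · have h0 : (LL Z : ℝ) ^ ((1 : ℝ) / 1000) ≤ (LL Z : ℝ) ^ ((4 : ℝ) / 5) := hmono (by norm_num)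
    have a1 : lamZ Z ^ 52 ≤ lamZ Z ^ 210 := hm (by norm_num)
    have a2 : lamZ Z ^ 202 ≤ lamZ Z ^ 210 := hm (by norm_num)
    have a3 : lamZ Z ^ 1 ≤ lamZ Z ^ 210 := hm (by norm_num)
    have a4 : (0 : ℝ) ≤ lamZ Z ^ 210 := pow_nonneg (by linarith) _
    rw [pow_one] at a3
    linarith
  · have b1 := hmul (show (9 : ℝ) / 10 + 1 / 1000 ≤ 1 by norm_num)
    have b2 := hmul (show (4 : ℝ) / 5 + 1 / 1000 ≤ 1 by norm_num)
    have b3 := hmul (show (0 : ℝ) + 1 / 1000 ≤ 1 by norm_num)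
    rw [Real.rpow_one] at b1 b2 b3
    rw [Real.rpow_zero] at b3
    linarith
  · have b1 := hmul (show (9 : ℝ) / 10 + 1 / 1000 ≤ 181 / 200 by norm_num)
    have : 0 ≤ (LL Z : ℝ) ^ ((9 : ℝ) / 10) := Real.rpow_nonneg hLp.le _
    linarith
  · have b2 := hmul (show (4 : ℝ) / 5 + 1 / 1000 ≤ 1 by norm_num)
    rw [Real.rpow_one] at b2
    have : 0 ≤ (LL Z : ℝ) ^ ((4 : ℝ) / 5) := Real.rpow_nonneg hLp.le _
    linarith
  · exact_mod_cast Nat.floor_mono (pow_le_pow_right₀ h1 (show 100 ≤ 200 by norm_num))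
  · exact Nat.floor_mono (pow_le_pow_right₀ h1 (show 50 ≤ 200 by norm_num))
  · have hx' : lamZ Z ^ 200 ≤ (x : ℝ) := by
      have h2 := Nat.lt_floor_add_one (lamZ Z ^ 200)
      have h3 : ((pH2 Z : ℕ) : ℝ) + 1 ≤ x := by exact_mod_cast hx
      simp only [pH2] at h3
      linarith
    have hx0 : (0 : ℝ) < x := lt_of_lt_of_le (pow_pos (by linarith) _) hx'
    set y := (x : ℝ) ^ ((1 : ℝ) / 20)
    have hy : lamZ Z ^ 10 ≤ y := by
      simp only [y]
      refine le_trans (le_of_eq ?_) (Real.rpow_le_rpow (pow_nonneg (by linarith) _) hx' (by norm_num))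
      rw [← Real.rpow_natCast _ 200, ← Real.rpow_mul (by linarith), ← Real.rpow_natCast]
      norm_num
    have hy1 : (1 : ℝ) ≤ y := le_trans (one_le_pow₀ h1) hy
    have hlam2 : 442 * lamZ Z ^ 52 ≤ (x : ℝ) ^ ((18 : ℝ) / 20) := by
      have : (x : ℝ) ^ ((18 : ℝ) / 20) = y ^ 18 := by
        simp only [y]; rw [← Real.rpow_natCast _ 18, ← Real.rpow_mul hx0.le]; norm_num
      rw [this]
      refine le_trans ?_ (pow_le_pow_left₀ (pow_nonneg (by linarith) _) hy 18)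
      rw [← pow_mul, show (10 * 18 : ℕ) = 128 + 52 from rfl, pow_add]
      refine mul_le_mul_of_nonneg_right ?_ (pow_nonneg (by linarith) _)
      exact le_trans (le_trans (by norm_num) hl) (le_self_pow₀ h1 (by norm_num))
    have e : (x : ℝ) ^ ((19 : ℝ) / 20) = (x : ℝ) ^ ((18 : ℝ) / 20) * y := by
      simp only [y]; rw [← Real.rpow_add hx0]; norm_num
    have e9 : (x : ℝ) ^ ((9 : ℝ) / 10) = (x : ℝ) ^ ((18 : ℝ) / 20) := by norm_num
    rw [e, e9]
    have h18 : 0 ≤ (x : ℝ) ^ ((18 : ℝ) / 20) := Real.rpow_nonneg hx0.le _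
    have h2y : (2 : ℝ) ≤ y :=
      le_trans (le_trans (le_trans (by norm_num) hl) (le_self_pow₀ h1 (by norm_num))) hy
    have := mul_le_mul_of_nonneg_left h2y h18
    have : 0 ≤ lamZ Z ^ 52 := pow_nonneg (by linarith) _
    linarith

/-- All lists of primes with prescribed levels. -/
noncomputable def tup : List ℕ → Finset (List ℕ)
  | [] => {[]}
  | k :: l => (cell k ×ˢ tup l).image fun x => x.1 :: x.2

lemma mem_tup : ∀ ts : List ℕ, (∀ q ∈ ts, q.Prime) → ts ∈ tup (ts.map kap) := by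
  intro ts
  induction ts with
  | nil => intro _; simp [tup]
  | cons q ts ih =>
    intro h
    simp only [List.map_cons, tup, mem_image]
    exact ⟨(q, ts), mem_product.2 ⟨mem_cell.2 ⟨h q (List.mem_cons_self ..), rfl⟩,
      ih fun r hr => h r (List.mem_cons_of_mem _ hr)⟩, rfl⟩

lemma tup_prime : ∀ l : List ℕ, ∀ ts ∈ tup l, ∀ q ∈ ts, q.Prime := by
  intro l
  induction l with
  | nil => intro ts h q hq; simp [tup] at h; simp [h] at hq
  | cons k l ih =>
    intro ts h q hq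
    simp only [tup, mem_image, mem_product] at h
    obtain ⟨⟨a, b⟩, ⟨ha, hb⟩, rfl⟩ := h
    rcases List.mem_cons.1 hq with rfl | hq
    · exact (mem_cell.1 ha).1
    · exact ih b hb q hq

lemma tup_sum {E : ℝ} : ∀ l : List ℕ,
    (∀ k ∈ l, ∑ q ∈ cell k, 1 / ((q - 1 : ℕ) : ℝ) ≤ E) →
      ∑ ts ∈ tup l, 1 / (((ts.map (· - 1)).prod : ℕ) : ℝ) ≤ E ^ l.length := by
  intro l
  induction l with
  | nil => intro _; simp [tup]
  | cons k l ih =>
    intro h
    have hk := h k (List.mem_cons_self ..)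
    have hl := ih fun j hj => h j (List.mem_cons_of_mem _ hj)
    have hE : 0 ≤ E := le_trans (sum_nonneg fun q _ => by positivity) hk
    rw [tup, sum_image (fun a _ b _ hab => by simpa [Prod.ext_iff] using hab), sum_product,
      List.length_cons, pow_succ']
    simp only [List.map_cons, List.prod_cons, Nat.cast_mul, ← one_div_mul_one_div, ← mul_sum, ← sum_mul]
    exact mul_le_mul hk hl (sum_nonneg fun _ _ => by positivity) hE

lemma cell_sum {C : ℝ} (hC : ∀ k : ℕ, |(∑ p ∈ cell k, (1 : ℝ) / p) - 1| ≤ C * Real.exp (-(k : ℝ)))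
    {k : ℕ} (hk : 1 ≤ k) :
    ∑ q ∈ cell k, 1 / ((q - 1 : ℕ) : ℝ) ≤ Real.exp ((|C| + 2) * Real.exp (-(k : ℝ))) := by
  set δ := Real.exp (-(k : ℝ))
  have hδ : 0 < δ := Real.exp_pos _
  have h1 : ∀ q ∈ cell k, 1 / ((q - 1 : ℕ) : ℝ) ≤ 1 / (q : ℝ) * (1 + 2 * δ) := fun q hq => by
    obtain ⟨hqp, hqk⟩ := mem_cell.1 hq
    have hlow : Real.exp (k : ℝ) ≤ q := by
      refine le_trans (Real.exp_le_exp.2 ?_) (exp_exp_le hk hqk.ge)
      linarith [Real.add_one_le_exp (k : ℝ)]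
    have hq2 : (2 : ℝ) ≤ q := by exact_mod_cast hqp.two_le
    have hd : 1 ≤ (q : ℝ) * δ := by
      have : δ = (Real.exp (k : ℝ))⁻¹ := Real.exp_neg _
      rw [this, ← div_eq_mul_inv, le_div_iff₀ (Real.exp_pos _), one_mul]
      exact hlow
    rw [Nat.cast_sub hqp.one_le, Nat.cast_one, one_div_mul_eq_div, div_le_div_iff₀ (by linarith) (by linarith)]
    nlinarith
  refine (sum_le_sum h1).trans ?_
  rw [← sum_mul]
  have h2 := (abs_le.1 (hC k)).2
  have h3 : C * δ ≤ |C| * δ := mul_le_mul_of_nonneg_right (le_abs_self C) hδ.le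
  have h4 : (∑ p ∈ cell k, (1 : ℝ) / p) ≤ 1 + |C| * δ := by linarith
  refine (mul_le_mul_of_nonneg_right h4 (by linarith)).trans ?_
  rw [add_mul |C|, Real.exp_add]
  exact mul_le_mul (by linarith [Real.add_one_le_exp (|C| * δ)]) (by linarith [Real.add_one_le_exp (2 * δ)])
    (by linarith) (Real.exp_pos _).le

/-- Splitting off primes that divide exactly once. -/
lemma split_set {n : ℕ} (S : Finset ℕ) (hn : 0 < n) (hS : S ⊆ n.primeFactors)
    (hsq : ∀ q ∈ S, ¬ q * q ∣ n) :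
    ∃ n', 0 < n' ∧ n.totient = (∏ q ∈ S, (q - 1)) * n'.totient ∧ (∏ q ∈ S, q) * n' = n ∧
      n'.primeFactors ⊆ n.primeFactors \ S := by
  induction S using Finset.induction with
  | empty => exact ⟨n, hn, by simp, by simp, by simp⟩
  | @insert q S hq ih =>
    obtain ⟨n', hn', he, hd, hsub⟩ := ih (fun r hr => hS (mem_insert_of_mem hr))
      (fun r hr => hsq r (mem_insert_of_mem hr))
    obtain ⟨hqp, hqn, -⟩ := Nat.mem_primeFactors.1 (hS (mem_insert_self q S))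
    have hqS : ¬ q ∣ ∏ r ∈ S, r := fun h => by
      obtain ⟨r, hr, hdr⟩ := (hqp.prime.dvd_finsetProd_iff _).1 h
      exact hq (((Nat.prime_dvd_prime_iff_eq hqp
        (Nat.mem_primeFactors.1 (hS (mem_insert_of_mem hr))).1).1 hdr) ▸ hr)
    have hqn' : q ∣ n' := (hqp.dvd_mul.1 (hd ▸ hqn)).resolve_left hqS
    have hdvd : n' ∣ n := hd ▸ dvd_mul_left _ _
    have hno : ¬ q ∣ n' / q := fun h => hsq q (mem_insert_self q S)
      ((Nat.mul_dvd_mul_left q h).trans (by rw [Nat.mul_div_cancel' hqn']; exact hdvd))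
    refine ⟨n' / q, Nat.div_pos (Nat.le_of_dvd hn' hqn') hqp.pos, ?_, ?_, ?_⟩
    · have h2 : n'.totient = (q - 1) * (n' / q).totient := by
        conv_lhs => rw [← Nat.mul_div_cancel' hqn']
        rw [Nat.totient_mul (hqp.coprime_iff_not_dvd.2 hno), Nat.totient_prime hqp]
      rw [he, h2, prod_insert hq]
      ring
    · rw [prod_insert hq, mul_comm q, mul_assoc, Nat.mul_div_cancel' hqn', hd]
    · intro r hr
      obtain ⟨hrp, hrd, -⟩ := Nat.mem_primeFactors.1 hr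
      have hr' : r ∈ n'.primeFactors :=
        Nat.mem_primeFactors.2 ⟨hrp, hrd.trans (Nat.div_dvd_of_dvd hqn'), hn'.ne'⟩
      obtain ⟨h1, h2⟩ := mem_sdiff.1 (hsub hr')
      refine mem_sdiff.2 ⟨h1, fun h => ?_⟩
      rcases mem_insert.1 h with rfl | h
      · exact hno hrd
      · exact h2 h

/-- Primes `p` with `(p - 1) D ≤ Z` and a lower bound on `log p`. -/
noncomputable def pSet (Z : ℝ) (D : ℕ) : Finset ℕ :=
  (range (⌊Z⌋₊ + 2)).filter fun p => p.Prime ∧ (((p - 1) * D : ℕ) : ℝ) ≤ Z ∧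
    Real.log Z / (4 * ((pK Z : ℝ) + 1)) ≤ Real.log p

lemma pSet_card :
    ∀ᶠ Z : ℝ in atTop, ∀ D : ℕ, 0 < D →
      ((pSet Z D).card : ℝ) ≤ 24 * ((pK Z : ℝ) + 1) * (Z / Real.log Z) * (1 / (D : ℝ)) := by
  obtain ⟨y₀, hy₀⟩ := eventually_atTop.1 (Chebyshev.eventually_primeCounting_le one_pos)
  have hbig : ∀ᶠ Z : ℝ in atTop, Real.log (max y₀ 2) * (4 * (20 * lamZ Z + 1)) < Real.log Z := by
    have h1 : Tendsto (fun L : ℕ => Real.exp (L : ℝ) / (L : ℝ) ^ 2) atTop atTop :=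
      (Real.tendsto_exp_div_pow_atTop 2).comp tendsto_natCast_atTop_atTop
    filter_upwards [tendsto_LL.eventually ((h1.eventually_gt_atTop (84 * Real.log (max y₀ 2) + 1)).and
      (eventually_ge_atTop 2)), eventually_ge_atTop 2] with Z hL hZ
    obtain ⟨hL, hL2⟩ := hL
    have hL2' : (2 : ℝ) ≤ (LL Z : ℝ) := by exact_mod_cast hL2
    rw [lt_div_iff₀ (by positivity)] at hL
    have hlam : lamZ Z ≤ (LL Z : ℝ) := by
      have := Real.log_le_sub_one_of_pos (show (0 : ℝ) < (LL Z : ℝ) by linarith)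
      simp only [lamZ]; linarith
    have hY : 0 ≤ Real.log (max y₀ 2) := Real.log_nonneg (le_trans one_le_two (le_max_right _ _))
    have hfl : (LL Z : ℝ) ≤ Real.log (Real.log (Z + 1)) := Nat.floor_le (by
      by_contra h
      push Not at h
      have : LL Z = 0 := Nat.floor_eq_zero.2 (by linarith)
      omega)
    have hl0 : 0 < Real.log (Z + 1) := Real.log_pos (by linarith)
    have h2 : Real.exp (LL Z : ℝ) ≤ Real.log (Z + 1) := by
      rw [← Real.exp_log hl0]; exact Real.exp_le_exp.2 hfl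
    have h3 : Real.log (Z + 1) ≤ Real.log Z + 1 := by
      have h4 : Real.log (Z + 1) - Real.log Z = Real.log ((Z + 1) / Z) :=
        (Real.log_div (by linarith) (by linarith)).symm
      have h5 := Real.log_le_sub_one_of_pos (show 0 < (Z + 1) / Z by positivity)
      have h6 : (Z + 1) / Z - 1 ≤ 1 := by
        rw [sub_le_iff_le_add, div_le_iff₀ (by linarith)]; linarith
      linarith
    have h7 : 20 * lamZ Z + 1 ≤ 21 * (LL Z : ℝ) := by linarith
    have h8 := mul_le_mul_of_nonneg_left h7 (show 0 ≤ 4 * Real.log (max y₀ 2) by linarith)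
    have h9 : (LL Z : ℝ) ≤ (LL Z : ℝ) ^ 2 := le_self_pow₀ (by linarith) two_ne_zero
    nlinarith
  filter_upwards [hbig, eventually_ge_atTop 2] with Z hZy hZ2 D hD
  have hlogZ : 0 < Real.log Z := Real.log_pos (by linarith)
  rcases (pSet Z D).eq_empty_or_nonempty with he | ⟨p, hp⟩
  · rw [he, card_empty, Nat.cast_zero]; positivity
  have hD' : (0 : ℝ) < D := by exact_mod_cast hD
  set y := Z / D + 1
  obtain ⟨-, hpp, hpD, hplog⟩ := mem_filter.1 hp
  have hK : (pK Z : ℝ) ≤ 20 * lamZ Z := by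
    rcases le_or_gt 0 (20 * lamZ Z) with h | h
    · exact Nat.floor_le h
    · exfalso
      have : lamZ Z < 0 := by linarith
      linarith [Real.log_natCast_nonneg (LL Z), show lamZ Z = Real.log (LL Z) from rfl]
  have hK0 : (0 : ℝ) < 4 * ((pK Z : ℝ) + 1) := by positivity
  have hsub : ∀ q ∈ pSet Z D, (q : ℝ) ≤ y := fun q hq => by
    obtain ⟨-, hqp, hqD, -⟩ := mem_filter.1 hq
    push_cast [Nat.cast_sub hqp.one_le] at hqD
    simp only [y]
    have : ((q : ℝ) - 1) ≤ Z / D := by rw [le_div_iff₀ hD']; linarith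
    linarith
  have hpy := hsub p hp
  have hp2 : (2 : ℝ) ≤ p := by exact_mod_cast hpp.two_le
  have hy2 : y ≤ 2 * (Z / D) := by simp only [y] at hpy ⊢; linarith
  have hylog : Real.log Z / (4 * ((pK Z : ℝ) + 1)) ≤ Real.log y :=
    hplog.trans (Real.log_le_log (by linarith) hpy)
  have hy0 : y₀ ≤ y := by
    refine le_trans (le_max_left y₀ 2) ((Real.log_le_log_iff (lt_of_lt_of_le two_pos (le_max_right _ _))
      (by linarith)).1 ?_)
    refine le_trans ?_ hylog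
    rw [le_div_iff₀ hK0]
    have hY : 0 ≤ Real.log (max y₀ 2) := Real.log_nonneg (le_trans one_le_two (le_max_right _ _))
    nlinarith
  have hcard : ((pSet Z D).card : ℝ) ≤ (Nat.primeCounting ⌊y⌋₊ : ℝ) := by
    rw [Nat.primeCounting, Nat.primeCounting', Nat.count_eq_card_filter_range]
    exact_mod_cast card_le_card fun q hq => mem_filter.2
      ⟨mem_range.2 (Nat.lt_succ_of_le (Nat.le_floor (hsub q hq))), (mem_filter.1 hq).2.1⟩
  have hly : 0 < Real.log y := Real.log_pos (by linarith)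
  have h4 : Real.log 4 + 1 ≤ 3 := by
    have h := Real.log_two_lt_d9
    rw [show (4 : ℝ) = 2 ^ 2 by norm_num, Real.log_pow]
    push_cast
    norm_num at h ⊢
    linarith
  refine hcard.trans ((hy₀ y hy0).trans ?_)
  calc (Real.log 4 + 1) * y / Real.log y ≤ 3 * (2 * (Z / D)) / (Real.log Z / (4 * ((pK Z : ℝ) + 1))) :=
        div_le_div₀ (by positivity) (mul_le_mul h4 hy2 (by linarith) (by norm_num)) (by positivity) hylog
    _ = _ := by field_simp; ring

/-- Module `Boundary`. -/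
theorem boundary : MertensStmt → CrudeStmt → BoundaryStmt := by
  intro hM hC
  obtain ⟨CM, hCM⟩ := hM
  obtain ⟨CC, hCC⟩ := hC
  refine ⟨|CC| * 201 ^ 2 + 1, ?_⟩
  have hlarge : ∀ᶠ Z : ℝ in atTop, 20 * (|CM| + 2) * lamZ Z ≤ (LL Z : ℝ) ∧ 100 ≤ Real.log (lamZ Z) := by
    refine tendsto_LL.eventually (Eventually.and
      (p := fun L : ℕ => 20 * (|CM| + 2) * Real.log L ≤ (L : ℝ))
      (q := fun L : ℕ => 100 ≤ Real.log (Real.log L)) ?_
      ((Real.tendsto_log_atTop.comp (Real.tendsto_log_atTop.comp tendsto_natCast_atTop_atTop)).eventually_ge_atTop _))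
    have hc : (0 : ℝ) < 20 * (|CM| + 2) := by positivity
    filter_upwards [tendsto_natCast_atTop_atTop.eventually
      (Real.isLittleO_log_id_atTop.bound (show (0 : ℝ) < 1 / (20 * (|CM| + 2)) by positivity))] with L hL
    rw [Real.norm_eq_abs, Real.norm_eq_abs, id, Nat.abs_cast, one_div_mul_eq_div, le_div_iff₀ hc] at hL
    linarith [mul_le_mul_of_nonneg_left (le_abs_self (Real.log (L : ℝ))) hc.le]
  filter_upwards [eventually_scale, pSet_card, hlarge, eventually_ge_atTop 2]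
    with Z hS hP ⟨hKL, hll⟩ hZ
  let rep : ℕ → ℕ := fun v =>
    if h : ∃ n, n.totient = v ∧ Regular Z n ∧ ¬ GoodN Z n then h.choose else 0
  have hrep : ∀ v ∈ boundarySet Z, (rep v).totient = v ∧ Regular Z (rep v) ∧
      (CaseA Z (rep v) ∨ CaseB Z (rep v)) := fun v hv => by
    have h := (mem_filter.1 hv).2
    simp only [rep, dif_pos h]
    obtain ⟨h1, h2, h3⟩ := h.choose_spec
    refine ⟨h1, h2, ?_⟩
    by_contra hc
    simp only [CaseA, CaseB, not_or, not_lt, gt_iff_lt] at hc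
    exact h3 ⟨h2, hc.1, hc.2⟩
  set A₁ := ((boundarySet Z).filter fun v => CaseA Z (rep v)).image fun v => lev Z (rep v)
  set A₂ := ((boundarySet Z).filter fun v => CaseB Z (rep v)).image fun v => lev Z (rep v)
  refine ⟨A₁, A₂, ⟨fun l hl => ?_, fun l hl l' hl' h => ?_⟩, ⟨fun l hl => ?_, fun l hl l' hl' h => ?_⟩, ?_⟩
  · obtain ⟨v, hv, rfl⟩ := mem_image.1 hl
    obtain ⟨hv, hc⟩ := mem_filter.1 hv
    exact lev_mem hS (hrep v hv).2.1 (Or.inl hc)
  · obtain ⟨v, hv, rfl⟩ := mem_image.1 hl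
    obtain ⟨u, hu, rfl⟩ := mem_image.1 hl'
    obtain ⟨hv, hcv⟩ := mem_filter.1 hv
    obtain ⟨hu, hcu⟩ := mem_filter.1 hu
    exact window hS (hrep v hv).2.1 (hrep u hu).2.1 (Or.inl ⟨hcv, hcu⟩) h
  · obtain ⟨v, hv, rfl⟩ := mem_image.1 hl
    obtain ⟨hv, hc⟩ := mem_filter.1 hv
    exact lev_mem hS (hrep v hv).2.1 (Or.inr hc)
  · obtain ⟨v, hv, rfl⟩ := mem_image.1 hl
    obtain ⟨u, hu, rfl⟩ := mem_image.1 hl'
    obtain ⟨hv, hcv⟩ := mem_filter.1 hv
    obtain ⟨hu, hcu⟩ := mem_filter.1 hu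
    exact window hS (hrep v hv).2.1 (hrep u hu).2.1 (Or.inr ⟨hcv, hcu⟩) h
  set Tset := (Icc 1 ⌊Z⌋₊).filter fun t => IsTotUpTo (pH2 Z) t
  have hcov : boundarySet Z ⊆ (A₁ ∪ A₂).biUnion fun l => (tup l).biUnion fun ts =>
      Tset.biUnion fun t => (pSet Z ((ts.map (· - 1)).prod * t)).image
        fun p => (p - 1) * ((ts.map (· - 1)).prod * t) := by
    intro v hv
    obtain ⟨hve, hreg, hcase⟩ := hrep v hv
    set n := rep v
    obtain ⟨hp, hpH, -, -, -⟩ := head_facts hS hreg hcase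
    have hH := hS.hH2.2
    have hn0 := hreg.1.1
    have hnot : maxP n ∉ hiSet Z n := by simp [hiSet]
    obtain ⟨n', hn', he, hd, hsub⟩ := split_set (insert (maxP n) (hiSet Z n)) hn0
      (fun q hq => by
        rcases mem_insert.1 hq with rfl | hq
        · exact (mem_filter.1 hp).1
        · exact (mem_hiSet hq).2.1)
      (fun q hq => by
        rcases mem_insert.1 hq with rfl | hq
        · exact hreg.1.2.2.2.2.2.1 _ (Nat.mem_primeFactors.1 (mem_filter.1 hp).1).1 (by omega)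
        · exact hreg.1.2.2.2.2.2.1 q (Nat.mem_primeFactors.1 (mem_hiSet hq).2.1).1 (mem_hiSet hq).2.2.1)
    have hprod : ((hiPrimes Z n).map (· - 1)).prod = ∏ q ∈ hiSet Z n, (q - 1) := by
      rw [← List.prod_toFinset _ hiPrimes_nodup, hiPrimes_toFinset]
    rw [prod_insert hnot, ← hprod, mul_assoc] at he
    have hsm : Smooth (pH2 Z) n' := fun r hr => by
      obtain ⟨h1, h2⟩ := mem_sdiff.1 (hsub hr)
      by_contra h
      push Not at h
      refine h2 ?_
      by_cases hr' : r = maxP n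
      · rw [hr']; exact mem_insert_self _ _
      · refine mem_insert_of_mem (mem_filter.2 ⟨mem_erase.2 ⟨hr', mem_filter.2 ⟨h1, ?_⟩⟩, h⟩)
        omega
    have hvZ : (n.totient : ℝ) ≤ Z := hreg.1.2.1
    have hppr : (maxP n).Prime := hreg.1.2.2.2.2.2.2.2.1
    simp only [mem_biUnion, mem_image]
    refine ⟨lev Z n, ?_, hiPrimes Z n, mem_tup _ fun q hq =>
      (Nat.mem_primeFactors.1 (mem_hiSet (mem_hiPrimes.1 hq)).2.1).1, n'.totient, ?_, maxP n, ?_, ?_⟩
    · rw [mem_union]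
      exact hcase.imp (fun h => mem_image.2 ⟨v, mem_filter.2 ⟨hv, h⟩, rfl⟩)
        (fun h => mem_image.2 ⟨v, mem_filter.2 ⟨hv, h⟩, rfl⟩)
    · refine mem_filter.2 ⟨mem_Icc.2 ⟨Nat.totient_pos.2 hn', Nat.le_floor ?_⟩, n', hn', rfl, hsm⟩
      refine le_trans ?_ hvZ
      exact_mod_cast Nat.le_of_dvd (Nat.totient_pos.2 hn0) (Nat.totient_dvd_of_dvd (hd ▸ dvd_mul_left _ _))
    · refine mem_filter.2 ⟨mem_range.2 ?_, hppr, by rw [← he]; exact hvZ, hreg.2.2.1⟩
      have h1 : maxP n - 1 ≤ n.totient := by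
        rw [← Nat.totient_prime hppr]
        exact Nat.le_of_dvd (Nat.totient_pos.2 hn0)
          (Nat.totient_dvd_of_dvd (Nat.mem_primeFactors.1 (mem_filter.1 hp).1).2.1)
      have := Nat.le_floor hvZ
      omega
    · rw [← he]; exact hve
  have hE : ∀ l ∈ A₁ ∪ A₂, ∑ ts ∈ tup l, 1 / (((ts.map (· - 1)).prod : ℕ) : ℝ) ≤ Real.exp 1 := by
    intro l hl
    have hl' : (∀ x ∈ l, pH2 Z < x) ∧ l.length ≤ pK Z := by
      rcases mem_union.1 hl with h | h <;> obtain ⟨v, hv, rfl⟩ := mem_image.1 h <;>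
        obtain ⟨hv, hc⟩ := mem_filter.1 hv
      · exact ⟨(lev_mem hS (hrep v hv).2.1 (Or.inl hc)).2.2.2.1, (lev_mem hS (hrep v hv).2.1 (Or.inl hc)).2.1⟩
      · exact ⟨(lev_mem hS (hrep v hv).2.1 (Or.inr hc)).2.2.2.1, (lev_mem hS (hrep v hv).2.1 (Or.inr hc)).2.1⟩
    set E := Real.exp ((|CM| + 2) * (1 / (LL Z : ℝ)))
    refine (tup_sum (E := E) l fun k hk => ?_).trans ?_
    · have hk1 : 1 ≤ k := by have := hl'.1 k hk; omega
      refine (cell_sum hCM hk1).trans (Real.exp_le_exp.2 (mul_le_mul_of_nonneg_left ?_ (by positivity)))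
      have hkl : lamZ Z ≤ (k : ℝ) := by
        have h2 := Nat.lt_floor_add_one (lamZ Z ^ 200)
        have h3 : ((pH2 Z : ℕ) : ℝ) + 1 ≤ k := by exact_mod_cast hl'.1 k hk
        simp only [pH2] at h3
        have : lamZ Z ≤ lamZ Z ^ 200 := le_self_pow₀ (by linarith [hS.lam]) (by norm_num)
        linarith
      refine (Real.exp_le_exp.2 (neg_le_neg hkl)).trans_eq ?_
      rw [Real.exp_neg, lamZ, Real.exp_log (by linarith [hS.one_L]), one_div]
    · simp only [E]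
      rw [← Real.exp_nat_mul]
      refine Real.exp_le_exp.2 ?_
      have hlen : (l.length : ℝ) ≤ 20 * lamZ Z :=
        le_trans (by exact_mod_cast hl'.2) (Nat.floor_le (by linarith [hS.lam]))
      rw [← mul_assoc, mul_one_div, div_le_one (by linarith [hS.one_L])]
      have := mul_le_mul_of_nonneg_right hlen (show 0 ≤ |CM| + 2 by positivity)
      linarith
  have hTs : ∑ t ∈ Tset, (1 : ℝ) / t ≤ Real.exp (|CC| * 201 ^ 2 * Real.log (lamZ Z) ^ 2) := by
    refine (hCC (pH2 Z) Tset fun t ht => (mem_filter.1 ht).2).trans (Real.exp_le_exp.2 ?_)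
    have h0 : (0 : ℝ) ≤ (pH2 Z : ℝ) := Nat.cast_nonneg _
    have hlam := hS.lam
    have hlog : Real.log ((pH2 Z : ℝ) + 2) ≤ 201 * Real.log (lamZ Z) := by
      have h1 : (pH2 Z : ℝ) + 2 ≤ lamZ Z ^ 201 := by
        have h2 : (pH2 Z : ℝ) ≤ lamZ Z ^ 200 := Nat.floor_le (pow_nonneg (by linarith) _)
        have h3 : (1 : ℝ) ≤ lamZ Z ^ 200 := one_le_pow₀ (by linarith)
        rw [show (201 : ℕ) = 200 + 1 from rfl, pow_succ]
        have := mul_le_mul_of_nonneg_left (show (3 : ℝ) ≤ lamZ Z by linarith) (le_trans zero_le_one h3)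
        linarith
      refine (Real.log_le_log (by linarith) h1).trans_eq ?_
      rw [Real.log_pow]; norm_num
    calc CC * Real.log ((pH2 Z : ℝ) + 2) ^ 2 ≤ |CC| * Real.log ((pH2 Z : ℝ) + 2) ^ 2 :=
          mul_le_mul_of_nonneg_right (le_abs_self _) (sq_nonneg _)
      _ ≤ |CC| * (201 * Real.log (lamZ Z)) ^ 2 :=
          mul_le_mul_of_nonneg_left (pow_le_pow_left₀ (Real.log_nonneg (by linarith)) hlog 2) (abs_nonneg _)
      _ = _ := by ring
  have hlogZ : 0 < Real.log Z := Real.log_pos (by linarith)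
  have hcard : ((boundarySet Z).card : ℝ) ≤ ∑ l ∈ A₁ ∪ A₂, ∑ ts ∈ tup l, ∑ t ∈ Tset,
      24 * ((pK Z : ℝ) + 1) * (Z / Real.log Z) *
        ((1 / (((ts.map (· - 1)).prod : ℕ) : ℝ)) * (1 / (t : ℝ))) := by
    refine (Nat.cast_le.2 ((card_le_card hcov).trans card_biUnion_le)).trans ?_
    rw [Nat.cast_sum]
    refine sum_le_sum fun l _ => (Nat.cast_le.2 card_biUnion_le).trans ?_
    rw [Nat.cast_sum]
    refine sum_le_sum fun ts hts => (Nat.cast_le.2 card_biUnion_le).trans ?_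
    rw [Nat.cast_sum]
    refine sum_le_sum fun t ht => (Nat.cast_le.2 card_image_le).trans ?_
    have hpos : 0 < (ts.map (· - 1)).prod := Nat.pos_of_ne_zero fun h => by
      rw [List.prod_eq_zero_iff, List.mem_map] at h
      obtain ⟨q, hq, he⟩ := h
      have := (tup_prime l ts hts q hq).two_le
      omega
    refine (hP _ (Nat.mul_pos hpos (mem_Icc.1 (mem_filter.1 ht).1).1)).trans_eq ?_
    rw [Nat.cast_mul, ← one_div_mul_one_div]
  refine hcard.trans ?_
  simp only [← mul_sum]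
  have hsum : ∀ l ∈ A₁ ∪ A₂, ∑ ts ∈ tup l, (1 / (((ts.map (· - 1)).prod : ℕ) : ℝ)) * ∑ t ∈ Tset, (1 : ℝ) / t
      ≤ Real.exp 1 * Real.exp (|CC| * 201 ^ 2 * Real.log (lamZ Z) ^ 2) := fun l hl => by
    rw [← sum_mul]
    exact mul_le_mul (hE l hl) hTs (sum_nonneg fun t _ => by positivity) (Real.exp_pos _).le
  have h2 := (sum_le_sum hsum).trans_eq (by rw [sum_const, nsmul_eq_mul])
  have h3 : ((A₁ ∪ A₂).card : ℝ) ≤ (A₁.card : ℝ) + A₂.card := by exact_mod_cast card_union_le _ _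
  have hX : 0 ≤ 24 * ((pK Z : ℝ) + 1) * (Z / Real.log Z) :=
    mul_nonneg (by linarith [(Nat.cast_nonneg (pK Z) : (0 : ℝ) ≤ _)]) (div_nonneg (by linarith) hlogZ.le)
  refine (mul_le_mul_of_nonneg_left h2 hX).trans ?_
  set Y := Real.log (lamZ Z) ^ 2
  have h24 : 24 * Real.exp 1 ≤ Real.exp Y := by
    have h5 := Real.exp_one_lt_d9
    have h6 : (100 : ℝ) ≤ Y := le_trans hll (le_self_pow₀ (by linarith) two_ne_zero)
    have h7 := Real.add_one_le_exp Y
    norm_num at h5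
    linarith
  have e : Real.exp ((|CC| * 201 ^ 2 + 1) * Y) = Real.exp (|CC| * 201 ^ 2 * Y) * Real.exp Y := by
    rw [add_mul, one_mul, Real.exp_add]
  rw [e]
  calc 24 * ((pK Z : ℝ) + 1) * (Z / Real.log Z) *
        ((((A₁ ∪ A₂).card : ℕ) : ℝ) * (Real.exp 1 * Real.exp (|CC| * 201 ^ 2 * Y)))
      = (Z / Real.log Z) * ((pK Z : ℝ) + 1) * Real.exp (|CC| * 201 ^ 2 * Y) *
          ((24 * Real.exp 1) * ((A₁ ∪ A₂).card : ℝ)) := by ring
    _ ≤ (Z / Real.log Z) * ((pK Z : ℝ) + 1) * Real.exp (|CC| * 201 ^ 2 * Y) *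
          (Real.exp Y * ((A₁.card : ℝ) + A₂.card)) := by
        refine mul_le_mul_of_nonneg_left (mul_le_mul h24 h3 (Nat.cast_nonneg _) (Real.exp_pos _).le) ?_
        exact mul_nonneg (mul_nonneg (div_nonneg (by linarith) hlogZ.le)
          (by linarith [(Nat.cast_nonneg (pK Z) : (0 : ℝ) ≤ _)])) (Real.exp_pos _).le
    _ = _ := by ring

end Vale.Agent.P031.Boundary
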