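import Vale.Agent.P031.Asm.Iface
import Vale.Agent.P031.Layer

/-!
# Boundary: the level list of a regular preimage

The list holds the levels above `H2` of the head primes other than the largest prime, primes
taken in decreasing order. Its budgets agree with those of the head up to polylogarithmic terms.
-/

open Finset Filter Topology
open scoped Classical

namespace Vale.Agent.P031.Boundary

open Layer (bs budL_cons inc inc_mem)

lemma Qf_mono {a b : ℕ} (ha : 1 ≤ a) (hab : a ≤ b) : Qf a ≤ Qf b := by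
  induction b, hab using Nat.le_induction with
  | base => exact le_rfl
  | succ b hb ih =>
    have := (inc_mem (k := b) (le_trans ha hb)).1
    simp only [inc] at this
    linarith

lemma Qf_nonneg (a : ℕ) : 0 ≤ Qf a := by
  rcases Nat.eq_zero_or_pos a with rfl | ha
  · simp [Qf]
  · exact le_of_eq_of_le (show (0 : ℝ) = Qf 1 by simp [Qf]) (Qf_mono le_rfl ha)

lemma Qf_le_sq {a : ℕ} (ha : 1 ≤ a) : Qf a ≤ (a : ℝ) ^ 2 := by
  induction a, ha using Nat.le_induction with
  | base => simp [Qf]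
  | succ b hb ih =>
    have := (inc_mem hb).2
    simp only [inc] at this
    push_cast
    linarith [(Nat.cast_nonneg b : (0 : ℝ) ≤ b)]

lemma countP_map_kap {ts : List ℕ} (hn : ts.Nodup) (s : ℕ) :
    (ts.map kap).countP (fun x => s ≤ x) = (ts.toFinset.filter (fun q => s ≤ kap q)).card := by
  rw [List.countP_map, List.countP_eq_length_filter, ← List.toFinset_card_of_nodup (hn.filter _)]
  congr 1
  ext q
  simp

lemma headI_le_topS {S : Finset ℕ} {q : ℕ} (hq : q ∈ S) : kap q ≤ topS S := le_sup hq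

/-- A list of levels bounded by the counts of a set has at most its budget. -/
lemma budL_le {T x n : ℕ} {S : Finset ℕ} {l : List ℕ}
    (h1 : ∀ s ∈ Ioc 0 x, 1 ≤ (x :: l).countP (fun y => s ≤ y) ∧
      (x :: l).countP (fun y => s ≤ y) ≤ n)
    (h2 : ∀ s ∈ Ioc 0 x, T < s → (s ≤ topS S → (x :: l).countP (fun y => s ≤ y) ≤ lamS S s) ∧
      (topS S < s → (x :: l).countP (fun y => s ≤ y) ≤ 1)) :
    budL (x :: l) ≤ budS T S + (T : ℝ) * (n : ℝ) ^ 2 := by
  set g : ℕ → ℝ := fun s => if s ≤ T then (n : ℝ) ^ 2 else if s ≤ topS S then Qf (lamS S s) else 0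
  have hg : ∀ s ∈ Ioc 0 x, Qf ((x :: l).countP (fun y => s ≤ y)) ≤ g s := by
    intro s hs
    obtain ⟨a1, a2⟩ := h1 s hs
    simp only [g]
    split_ifs with c1 c2
    · exact (Qf_le_sq a1).trans (pow_le_pow_left₀ (Nat.cast_nonneg _) (by exact_mod_cast a2) 2)
    · exact Qf_mono a1 ((h2 s hs (not_le.1 c1)).1 c2)
    · rw [le_antisymm ((h2 s hs (not_le.1 c1)).2 (not_le.1 c2)) a1]
      simp [Qf]
  have hg0 : ∀ s, 0 ≤ g s := fun s => by
    simp only [g]; split_ifs
    · positivity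
    · exact Qf_nonneg _
    · exact le_rfl
  calc budL (x :: l) = ∑ s ∈ Ioc 0 x, Qf ((x :: l).countP (fun y => s ≤ y)) := rfl
    _ ≤ ∑ s ∈ Ioc 0 x, g s := sum_le_sum hg
    _ ≤ ∑ s ∈ Ioc 0 (max x (max T (topS S))), g s :=
        sum_le_sum_of_subset_of_nonneg (Ioc_subset_Ioc_right (le_max_left _ _)) fun s _ _ => hg0 s
    _ = ∑ s ∈ Ioc 0 T, g s + ∑ s ∈ Ioc T (max x (max T (topS S))), g s :=
        (Finset.sum_Ioc_consecutive _ (Nat.zero_le T)
          (le_trans (le_max_left _ _) (le_max_right _ _))).symm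
    _ ≤ _ := by
      rw [add_comm (budS T S)]
      refine add_le_add (le_of_eq ?_) (le_of_eq ?_)
      · rw [sum_congr rfl (fun s hs => show g s = (n : ℝ) ^ 2 by simp [g, (mem_Ioc.1 hs).2]),
          sum_const, Nat.card_Ioc, nsmul_eq_mul, Nat.sub_zero]
      · rw [← sum_subset (Ioc_subset_Ioc_right (show topS S ≤ max x (max T (topS S)) from
          le_trans (le_max_right _ _) (le_max_right _ _))) fun s hs hs' => ?_]
        · refine sum_congr rfl fun s hs => ?_
          simp [g, not_le.2 (mem_Ioc.1 hs).1, (mem_Ioc.1 hs).2]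
        · have hsT := (mem_Ioc.1 hs).1
          have : ¬ s ≤ topS S := fun h => hs' (mem_Ioc.2 ⟨hsT, h⟩)
          simp [g, not_le.2 hsT, this]

/-- The converse: above the level `h` the counts agree. -/
lemma budS_le {T h x : ℕ} {S : Finset ℕ} {l : List ℕ} (htop : topS S ≤ x)
    (hx : ∀ s ∈ Ioc h (topS S), lamS S s = (x :: l).countP (fun y => s ≤ y)) :
    budS T S ≤ budL (x :: l) + (h : ℝ) * ((S.card : ℝ) + 1) ^ 2 := by
  set g : ℕ → ℝ := fun s =>
    (if s ≤ h then ((S.card : ℝ) + 1) ^ 2 else 0) +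
      (if s ∈ Ioc 0 x then Qf ((x :: l).countP (fun y => s ≤ y)) else 0)
  have hsplit : ∀ s ∈ Ioc T (topS S), Qf (lamS S s) ≤ g s := fun s hs => by
    have hsx : s ∈ Ioc 0 x := mem_Ioc.2 ⟨lt_of_le_of_lt (Nat.zero_le T) (mem_Ioc.1 hs).1,
      (mem_Ioc.1 hs).2.trans htop⟩
    simp only [g, if_pos hsx]
    split_ifs with c
    · rcases Nat.eq_zero_or_pos (lamS S s) with h0 | h0
      · have : (1 : ℝ) ≤ ((S.card : ℝ) + 1) ^ 2 := one_le_pow₀ (by linarith [(Nat.cast_nonneg S.card : (0 : ℝ) ≤ _)])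
        rw [h0, show Qf 0 = 1 by simp [Qf]]
        linarith [Qf_nonneg ((x :: l).countP (fun y => s ≤ y))]
      · have : (lamS S s : ℝ) ^ 2 ≤ ((S.card : ℝ) + 1) ^ 2 := by
          refine pow_le_pow_left₀ (Nat.cast_nonneg _) ?_ 2
          have : (lamS S s : ℝ) ≤ S.card := by exact_mod_cast card_filter_le _ _
          linarith
        linarith [Qf_le_sq h0, Qf_nonneg ((x :: l).countP (fun y => s ≤ y))]
    · rw [hx s (mem_Ioc.2 ⟨not_le.1 c, (mem_Ioc.1 hs).2⟩), zero_add]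
  calc budS T S ≤ ∑ s ∈ Ioc T (topS S), g s := sum_le_sum hsplit
    _ ≤ ∑ s ∈ Ioc 0 (max h x), g s := by
        refine sum_le_sum_of_subset_of_nonneg (fun s hs => mem_Ioc.2
          ⟨lt_of_le_of_lt (Nat.zero_le T) (mem_Ioc.1 hs).1,
            (mem_Ioc.1 hs).2.trans (htop.trans (le_max_right _ _))⟩) fun s _ _ => ?_
        simp only [g]
        refine add_nonneg ?_ ?_ <;> split_ifs
        · positivity
        · exact le_rfl
        · exact Qf_nonneg _
        · exact le_rfl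
    _ = _ := by
      simp only [g, sum_add_distrib, ← sum_filter]
      rw [show (Ioc 0 (max h x)).filter (fun s => s ≤ h) = Ioc 0 h by
          ext s; simp only [mem_filter, mem_Ioc]; omega,
        show (Ioc 0 (max h x)).filter (fun s => s ∈ Ioc 0 x) = Ioc 0 x by
          ext s; simp only [mem_filter, mem_Ioc]; omega,
        sum_const, Nat.card_Ioc, Nat.sub_zero, nsmul_eq_mul, add_comm]
      rfl

lemma kap_mono {q p : ℕ} (hq : 2 ≤ q) (h : q ≤ p) : kap q ≤ kap p := by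
  have h1 : (1 : ℝ) < q := by exact_mod_cast hq
  have h2 : (q : ℝ) ≤ p := by exact_mod_cast h
  exact Nat.floor_mono (Real.log_le_log (Real.log_pos h1) (Real.log_le_log (by linarith) h2))

/-- Head primes other than the largest, above level `H2`. -/
noncomputable def hiSet (Z : ℝ) (n : ℕ) : Finset ℕ :=
  ((headOf Z n).erase (maxP n)).filter (fun q => pH2 Z < kap q)

/-- The same primes in decreasing order. -/
noncomputable def hiPrimes (Z : ℝ) (n : ℕ) : List ℕ := (hiSet Z n).sort (· ≥ ·)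

/-- Their levels. -/
noncomputable def lev (Z : ℝ) (n : ℕ) : List ℕ := (hiPrimes Z n).map kap

/-- Numerical facts valid for large `Z`. -/
structure Scale (Z : ℝ) : Prop where
  one_le : 1 ≤ Z
  lam : 10 ≤ lamZ Z
  low : (pT Z : ℝ) * ((pK Z : ℝ) + 1) ^ 2 + (pH2 Z : ℝ) * ((pK Z : ℝ) + 1) ^ 2 + 10 * lamZ Z ≤
    (LL Z : ℝ) ^ ((4 : ℝ) / 5)
  top : 2 * (LL Z : ℝ) ^ ((9 : ℝ) / 10) + 2 * (LL Z : ℝ) ^ ((4 : ℝ) / 5) + 1 ≤ (LL Z : ℝ) / 4
  wide : 30 * (LL Z : ℝ) ^ ((9 : ℝ) / 10) ≤ (LL Z : ℝ) ^ ((181 : ℝ) / 200)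
  one_L : (1 : ℝ) ≤ (LL Z : ℝ)
  sep : (LL Z : ℝ) ^ ((4 : ℝ) / 5) * 200 ≤ LL Z
  hH2 : (pH Z : ℝ) ≤ pH2 Z ∧ pT Z ≤ pH2 Z
  small : ∀ x : ℕ, pH2 Z < x →
    (x : ℝ) ^ ((9 : ℝ) / 10) + (pT Z : ℝ) * ((pK Z : ℝ) + 1) ^ 2 ≤ (x : ℝ) ^ ((19 : ℝ) / 20)

variable {Z : ℝ} {n : ℕ}

lemma kap_le_LL (hn : (n.totient : ℝ) ≤ Z) (hn0 : 0 < n) {q : ℕ} (hq : q ∈ n.primeFactors) :
    kap q ≤ LL Z := by
  obtain ⟨hqp, hqn, -⟩ := Nat.mem_primeFactors.1 hq
  have h1 : (1 : ℝ) < q := by exact_mod_cast hqp.one_lt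
  have h2 : q.totient ≤ n.totient :=
    Nat.le_of_dvd (Nat.totient_pos.2 hn0) (Nat.totient_dvd_of_dvd hqn)
  rw [Nat.totient_prime hqp] at h2
  have h3 : (q : ℝ) ≤ Z + 1 := by
    have : (q : ℝ) ≤ (n.totient : ℝ) + 1 := by exact_mod_cast (show q ≤ n.totient + 1 by omega)
    linarith
  exact Nat.floor_mono (Real.log_le_log (Real.log_pos h1) (Real.log_le_log (by linarith) h3))

lemma mem_hiSet {q : ℕ} (hq : q ∈ hiSet Z n) :
    q ≠ maxP n ∧ q ∈ n.primeFactors ∧ pT Z < kap q ∧ pH2 Z < kap q := by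
  simp only [hiSet, headOf, mem_filter, mem_erase] at hq
  exact ⟨hq.1.1, hq.1.2.1, hq.1.2.2, hq.2⟩

lemma hiPrimes_nodup : (hiPrimes Z n).Nodup := Finset.sort_nodup _ _

lemma hiPrimes_toFinset : (hiPrimes Z n).toFinset = hiSet Z n := Finset.sort_toFinset _ _

lemma mem_hiPrimes {q : ℕ} : q ∈ hiPrimes Z n ↔ q ∈ hiSet Z n := Finset.mem_sort _

lemma lev_pairwise : (lev Z n).Pairwise (· ≥ ·) := by
  refine List.pairwise_map.2 ((Finset.pairwise_sort (hiSet Z n) (· ≥ ·)).imp_of_mem ?_)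
  intro a b _ hb hab
  exact kap_mono (Nat.mem_primeFactors.1 (mem_hiSet (mem_hiPrimes.1 hb)).2.1).1.two_le hab

/-- The two ways of being on the boundary. -/
def CaseA (Z : ℝ) (n : ℕ) : Prop :=
  (topS ((headOf Z n).erase (maxP n)) : ℝ) > (LL Z : ℝ) - 10 * lamZ Z

/-- The budget way. -/
def CaseB (Z : ℝ) (n : ℕ) : Prop :=
  budS (pT Z) (headOf Z n) > (LL Z : ℝ) - pM Z

lemma top_ge (hS : Scale Z) (hn : Regular Z n) (hc : CaseA Z n ∨ CaseB Z n) :
    (LL Z : ℝ) / 100 ≤ topS ((headOf Z n).erase (maxP n)) ∧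
      pH2 Z < topS ((headOf Z n).erase (maxP n)) := by
  have hlam := hS.lam
  have h := hn.2.2.2.2
  have htop := hS.top
  have hlow := hS.low
  have hp : 0 ≤ (LL Z : ℝ) ^ ((4 : ℝ) / 5) := Real.rpow_nonneg (Nat.cast_nonneg _) _
  have hp2 : 0 ≤ (LL Z : ℝ) ^ ((9 : ℝ) / 10) := Real.rpow_nonneg (Nat.cast_nonneg _) _
  have hTK : 0 ≤ (pT Z : ℝ) * ((pK Z : ℝ) + 1) ^ 2 := mul_nonneg (Nat.cast_nonneg _) (sq_nonneg _)
  have hHK : (pH2 Z : ℝ) ≤ (pH2 Z : ℝ) * ((pK Z : ℝ) + 1) ^ 2 :=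
    le_mul_of_one_le_right (Nat.cast_nonneg _) (one_le_pow₀ (by linarith [(Nat.cast_nonneg (pK Z) : (0 : ℝ) ≤ _)]))
  have key : (LL Z : ℝ) / 100 ≤ topS ((headOf Z n).erase (maxP n)) := by
    rcases hc with h1 | h1
    · simp only [CaseA] at h1
      linarith
    · simp only [CaseB, pM] at h1
      linarith
  refine ⟨key, ?_⟩
  have : (pH2 Z : ℝ) < topS ((headOf Z n).erase (maxP n)) := by
    have h2 := hS.sep
    linarith [hS.one_L]
  exact_mod_cast this

/-- Facts about the largest prime and the list. -/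
lemma head_facts (hS : Scale Z) (hn : Regular Z n) (hc : CaseA Z n ∨ CaseB Z n) :
    maxP n ∈ headOf Z n ∧ pH2 Z < kap (maxP n) ∧ (∀ q ∈ headOf Z n, q ≤ maxP n) ∧
      lev Z n ≠ [] ∧ (lev Z n).headI = topS ((headOf Z n).erase (maxP n)) := by
  obtain ⟨hn0, -, -, -, -, -, -, hp, hpn, -⟩ := hn.1
  obtain ⟨-, hgt⟩ := top_ge hS hn hc
  have hne : ((headOf Z n).erase (maxP n)).Nonempty := by
    by_contra h
    rw [not_nonempty_iff_eq_empty] at h
    rw [h] at hgt
    simp [topS] at hgt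
  obtain ⟨q, hq, hqe⟩ := exists_mem_eq_sup _ hne kap
  have hqe' : topS ((headOf Z n).erase (maxP n)) = kap q := hqe
  have hqpf : q ∈ n.primeFactors := (mem_filter.1 (mem_of_mem_erase hq)).1
  have hmax : ∀ r ∈ headOf Z n, r ≤ maxP n := fun r hr => le_sup (f := id) (mem_filter.1 hr).1
  have hkp : kap q ≤ kap (maxP n) :=
    kap_mono (Nat.mem_primeFactors.1 hqpf).1.two_le (hmax q (mem_of_mem_erase hq))
  have hT := hS.hH2.2
  have hpm : maxP n ∈ n.primeFactors := Nat.mem_primeFactors.2 ⟨hp, hpn, hn0.ne'⟩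
  have hqhi : kap q ∈ lev Z n := by
    refine List.mem_map.2 ⟨q, mem_hiPrimes.2 ?_, rfl⟩
    exact mem_filter.2 ⟨hq, by omega⟩
  refine ⟨mem_filter.2 ⟨hpm, by omega⟩, by omega, hmax, List.ne_nil_of_mem hqhi, ?_⟩
  have hle : ∀ x ∈ lev Z n, x ≤ kap q := by
    intro x hx
    obtain ⟨r, hr, rfl⟩ := List.mem_map.1 hx
    exact le_of_le_of_eq (le_sup (mem_filter.1 (mem_hiPrimes.1 hr)).1) hqe'
  rw [hqe']
  cases hl : lev Z n with
  | nil => rw [hl] at hqhi; simp at hqhi
  | cons a as =>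
    rw [hl] at hqhi hle
    have hpw := lev_pairwise (Z := Z) (n := n)
    rw [hl, List.pairwise_cons] at hpw
    refine le_antisymm (hle a (List.mem_cons_self ..)) ?_
    rcases List.mem_cons.1 hqhi with h | h
    · exact h.le
    · exact hpw.1 _ h

lemma lamS_head (hS : Scale Z) (hn : Regular Z n) (hc : CaseA Z n ∨ CaseB Z n) (s : ℕ)
    (h1 : pH2 Z < s) (h2 : s ≤ kap (maxP n)) :
    lamS (headOf Z n) s = 1 + (lev Z n).countP (fun y => s ≤ y) := by
  obtain ⟨hp, -, -, -, -⟩ := head_facts hS hn hc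
  rw [lev, countP_map_kap hiPrimes_nodup, hiPrimes_toFinset, lamS]
  have e : (headOf Z n).filter (fun q => s ≤ kap q) =
      insert (maxP n) ((hiSet Z n).filter (fun q => s ≤ kap q)) := by
    ext q
    simp only [mem_filter, mem_insert, hiSet, mem_erase]
    constructor
    · rintro ⟨ha, hb⟩
      by_cases hq : q = maxP n
      · exact Or.inl hq
      · exact Or.inr ⟨⟨⟨hq, ha⟩, by omega⟩, hb⟩
    · rintro (rfl | h)
      · exact ⟨hp, h2⟩
      · exact ⟨h.1.1.2, h.2⟩
  rw [e, card_insert_of_notMem, Nat.add_comm]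
  simp [hiSet]

lemma topS_head (hp : maxP n ∈ headOf Z n)
    (hmax : ∀ q ∈ headOf Z n, q ≤ maxP n) : topS (headOf Z n) = kap (maxP n) :=
  le_antisymm (Finset.sup_le fun q hq => kap_mono
    (Nat.mem_primeFactors.1 (mem_filter.1 hq).1).1.two_le (hmax q hq)) (le_sup hp)

/-- The budget of the list is the budget of the head, up to small terms. -/
lemma budget (hS : Scale Z) (hn : Regular Z n) (hc : CaseA Z n ∨ CaseB Z n) :
    budL (LL Z :: lev Z n) ≤ (LL Z : ℝ) + (LL Z : ℝ) ^ ((9 : ℝ) / 10) + (LL Z : ℝ) ^ ((4 : ℝ) / 5) ∧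
      budS (pT Z) (headOf Z n) ≤ budL (LL Z :: lev Z n) + (LL Z : ℝ) ^ ((4 : ℝ) / 5) := by
  obtain ⟨hp, hpH, hmax, -, -⟩ := head_facts hS hn hc
  have htop := topS_head hp hmax
  have hkL : kap (maxP n) ≤ LL Z := kap_le_LL hn.1.2.1 hn.1.1 (mem_filter.1 hp).1
  have hcardK : ((headOf Z n).card : ℝ) ≤ pK Z := by exact_mod_cast hn.2.1
  have hlow := hS.low
  have hlam := hS.lam
  have hH0 : 0 ≤ (pH2 Z : ℝ) * ((pK Z : ℝ) + 1) ^ 2 := mul_nonneg (Nat.cast_nonneg _) (sq_nonneg _)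
  have hT0 : 0 ≤ (pT Z : ℝ) * ((pK Z : ℝ) + 1) ^ 2 := mul_nonneg (Nat.cast_nonneg _) (sq_nonneg _)
  have hsub : ∀ s, (lev Z n).countP (fun y => s ≤ y) + (if s ≤ kap (maxP n) then 1 else 0) ≤
      lamS (headOf Z n) s := fun s => by
    rw [lev, countP_map_kap hiPrimes_nodup, hiPrimes_toFinset, lamS]
    have hsub : (hiSet Z n).filter (fun q => s ≤ kap q) ⊆
        ((headOf Z n).filter (fun q => s ≤ kap q)).erase (maxP n) := fun q hq => by
      simp only [hiSet, mem_filter, mem_erase] at hq ⊢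
      exact ⟨hq.1.1.1, hq.1.1.2, hq.2⟩
    have := card_le_card hsub
    split_ifs with h
    · have hm : maxP n ∈ (headOf Z n).filter (fun q => s ≤ kap q) := mem_filter.2 ⟨hp, h⟩
      rw [card_erase_of_mem hm] at this
      have := card_pos.2 ⟨_, hm⟩
      omega
    · exact this.trans (card_le_card (erase_subset _ _))
  constructor
  · have hb := budL_le (T := pT Z) (x := LL Z) (n := (headOf Z n).card + 1) (S := headOf Z n)
      (l := lev Z n) (fun s hs => ?_) (fun s hs _ => ⟨fun h => ?_, fun h => ?_⟩)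
    · have hsh := hn.2.2.2.1 (maxP n) hp (by
        have : (pH Z : ℝ) < (kap (maxP n) : ℝ) := lt_of_le_of_lt hS.hH2.1 (by exact_mod_cast hpH)
        exact_mod_cast this)
      rw [filter_true_of_mem hmax] at hsh
      have hk : (kap (maxP n) : ℝ) ≤ LL Z := by exact_mod_cast hkL
      have hk' : (kap (maxP n) : ℝ) ^ ((9 : ℝ) / 10) ≤ (LL Z : ℝ) ^ ((9 : ℝ) / 10) :=
        Real.rpow_le_rpow (Nat.cast_nonneg _) hk (by norm_num)
      have hsq : (pT Z : ℝ) * (((headOf Z n).card + 1 : ℕ) : ℝ) ^ 2 ≤ (pT Z : ℝ) * ((pK Z : ℝ) + 1) ^ 2 := by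
        refine mul_le_mul_of_nonneg_left (pow_le_pow_left₀ (Nat.cast_nonneg _) ?_ 2) (Nat.cast_nonneg _)
        push_cast
        linarith
      linarith
    · have := hsub s
      have h' : lamS (headOf Z n) s ≤ (headOf Z n).card := card_filter_le _ _
      rw [List.countP_cons_of_pos (by simpa using (mem_Ioc.1 hs).2)]
      omega
    · have := hsub s
      rw [htop] at h
      rw [List.countP_cons_of_pos (by simpa using (mem_Ioc.1 hs).2)]
      rw [if_pos h] at this
      omega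
    · have := hsub s
      have h0 : lamS (headOf Z n) s = 0 := by
        refine card_eq_zero.2 (filter_eq_empty_iff.2 fun q hq => not_le.2 ?_)
        exact lt_of_le_of_lt (le_sup hq) h
      rw [List.countP_cons_of_pos (by simpa using (mem_Ioc.1 hs).2)]
      omega
  · have hb := budS_le (T := pT Z) (h := pH2 Z) (x := LL Z) (S := headOf Z n) (l := lev Z n)
      (htop ▸ hkL) (fun s hs => by
        rw [htop] at hs
        rw [lamS_head hS hn hc s (mem_Ioc.1 hs).1 (mem_Ioc.1 hs).2,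
          List.countP_cons_of_pos (by simpa using (mem_Ioc.1 hs).2.trans hkL), Nat.add_comm])
    have hsq : (pH2 Z : ℝ) * (((headOf Z n).card : ℝ) + 1) ^ 2 ≤ (pH2 Z : ℝ) * ((pK Z : ℝ) + 1) ^ 2 :=
      mul_le_mul_of_nonneg_left (pow_le_pow_left₀ (by positivity) (by linarith) 2) (Nat.cast_nonneg _)
    linarith

/-- The list of a boundary preimage satisfies the pointwise conditions of a layer. -/
lemma lev_mem (hS : Scale Z) (hn : Regular Z n) (hc : CaseA Z n ∨ CaseB Z n) :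
    lev Z n ≠ [] ∧ (lev Z n).length ≤ pK Z ∧ (LL Z :: lev Z n).Pairwise (· ≥ ·) ∧
      (∀ x ∈ lev Z n, pH2 Z < x) ∧
      (∀ t : List ℕ, t <:+ lev Z n → t ≠ [] →
        budL t ≤ (t.headI : ℝ) + (t.headI : ℝ) ^ ((19 : ℝ) / 20)) ∧
      LL Z ≤ 100 * (lev Z n).headI ∧ budL (LL Z :: lev Z n) ≤ (LL Z : ℝ) + pW Z := by
  obtain ⟨-, -, -, hne, hhead⟩ := head_facts hS hn hc
  have hmem : ∀ x ∈ lev Z n, pH2 Z < x ∧ x ≤ LL Z := fun x hx => by
    obtain ⟨q, hq, rfl⟩ := List.mem_map.1 hx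
    obtain ⟨-, h2, -, h4⟩ := mem_hiSet (mem_hiPrimes.1 hq)
    exact ⟨h4, kap_le_LL hn.1.2.1 hn.1.1 h2⟩
  refine ⟨hne, ?_, List.pairwise_cons.2 ⟨fun x hx => (hmem x hx).2, lev_pairwise⟩,
    fun x hx => (hmem x hx).1, fun t ht htne => ?_, ?_, ?_⟩
  · rw [lev, List.length_map, hiPrimes, Finset.length_sort]
    exact ((card_filter_le _ _).trans (card_le_card (erase_subset _ _))).trans hn.2.1
  · obtain ⟨i, rfl⟩ : ∃ i, t = (lev Z n).drop i := ⟨_, List.suffix_iff_eq_drop.1 ht⟩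
    have e : (lev Z n).drop i = ((hiPrimes Z n).drop i).map kap := (List.map_drop).symm
    rw [e] at htne ⊢
    cases hd : (hiPrimes Z n).drop i with
    | nil => rw [hd] at htne; simp at htne
    | cons q qs =>
      have hsl : (q :: qs).Sublist (hiPrimes Z n) := hd ▸ List.drop_sublist i _
      have hin : ∀ r ∈ q :: qs, r ∈ hiSet Z n := fun r hr => mem_hiPrimes.1 (hsl.subset hr)
      have hnd : (q :: qs).Nodup := hiPrimes_nodup.sublist hsl
      have hle : ∀ r ∈ qs, r ≤ q :=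
        (List.pairwise_cons.1 ((Finset.pairwise_sort (hiSet Z n) (· ≥ ·)).sublist hsl)).1
      obtain ⟨-, hq2, hq3, hq4⟩ := mem_hiSet (hin q (List.mem_cons_self ..))
      set S' := (headOf Z n).filter (fun r => r ≤ q)
      have hqS : q ∈ S' := mem_filter.2 ⟨mem_filter.2 ⟨hq2, hq3⟩, le_rfl⟩
      have htop : topS S' = kap q := le_antisymm (Finset.sup_le fun r hr => kap_mono
        (Nat.mem_primeFactors.1 (mem_filter.1 (mem_filter.1 hr).1).1).1.two_le (mem_filter.1 hr).2)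
        (le_sup hqS)
      have hsub : ∀ s, ((q :: qs).map kap).countP (fun y => s ≤ y) ≤ lamS S' s := fun s => by
        rw [countP_map_kap hnd, lamS]
        refine card_le_card fun r hr => ?_
        simp only [mem_filter, List.mem_toFinset] at hr ⊢
        obtain ⟨-, hr2, hr3, -⟩ := mem_hiSet (hin r hr.1)
        refine ⟨mem_filter.2 ⟨mem_filter.2 ⟨hr2, hr3⟩, ?_⟩, hr.2⟩
        rcases List.mem_cons.1 hr.1 with rfl | h
        · exact le_rfl
        · exact hle r h
      simp only [List.map_cons] at hsub ⊢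
      have hb := budL_le (T := pT Z) (x := kap q) (n := pK Z + 1) (S := S') (l := qs.map kap)
        (fun s hs => ⟨?_, ?_⟩) (fun s hs _ => ⟨fun _ => hsub s, fun h => ?_⟩)
      · have hsh := hn.2.2.2.1 q (mem_filter.1 hqS).1 (by
          have : (pH Z : ℝ) < (kap q : ℝ) := lt_of_le_of_lt hS.hH2.1 (by exact_mod_cast hq4)
          exact_mod_cast this)
        have := hS.small (kap q) hq4
        push_cast at hb
        simp only [List.headI_cons]
        linarith
      · rw [List.countP_cons_of_pos (by simpa using (mem_Ioc.1 hs).2)]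
        omega
      · exact (hsub s).trans ((card_filter_le _ _).trans
          ((card_filter_le _ _).trans (hn.2.1.trans (Nat.le_succ _))))
      · rw [htop] at h
        have := (mem_Ioc.1 hs).2
        omega
  · rw [hhead]
    have := (top_ge hS hn hc).1
    exact_mod_cast (show (LL Z : ℝ) ≤ 100 * (topS ((headOf Z n).erase (maxP n)) : ℝ) by linarith)
  · have h1 := (budget hS hn hc).1
    have h2 := Nat.le_ceil ((LL Z : ℝ) ^ ((181 : ℝ) / 200))
    have h3 : (LL Z : ℝ) ^ ((4 : ℝ) / 5) ≤ (LL Z : ℝ) ^ ((9 : ℝ) / 10) :=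
      Real.rpow_le_rpow_of_exponent_le hS.one_L (by norm_num)
    have h4 := hS.wide
    have h5 : 0 ≤ (LL Z : ℝ) ^ ((9 : ℝ) / 10) := Real.rpow_nonneg (Nat.cast_nonneg _) _
    simp only [pW]
    linarith

/-- Two lists of one case with the same tail have close heads. -/
lemma window (hS : Scale Z) {m : ℕ} (hn : Regular Z n) (hm : Regular Z m)
    (hc : (CaseA Z n ∧ CaseA Z m) ∨ (CaseB Z n ∧ CaseB Z m))
    (htl : (lev Z n).tail = (lev Z m).tail) :
    (lev Z n).headI ≤ (lev Z m).headI + pW Z := by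
  have hcn : CaseA Z n ∨ CaseB Z n := hc.imp (·.1) (·.1)
  have hcm : CaseA Z m ∨ CaseB Z m := hc.imp (·.2) (·.2)
  have hw := Nat.le_ceil ((LL Z : ℝ) ^ ((181 : ℝ) / 200))
  have hwide := hS.wide
  have hlow := hS.low
  have hH0 : 0 ≤ (pH2 Z : ℝ) * ((pK Z : ℝ) + 1) ^ 2 := mul_nonneg (Nat.cast_nonneg _) (sq_nonneg _)
  have hT0 : 0 ≤ (pT Z : ℝ) * ((pK Z : ℝ) + 1) ^ 2 := mul_nonneg (Nat.cast_nonneg _) (sq_nonneg _)
  have h5 : 0 ≤ (LL Z : ℝ) ^ ((9 : ℝ) / 10) := Real.rpow_nonneg (Nat.cast_nonneg _) _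
  have h3 : (LL Z : ℝ) ^ ((4 : ℝ) / 5) ≤ (LL Z : ℝ) ^ ((9 : ℝ) / 10) :=
    Real.rpow_le_rpow_of_exponent_le hS.one_L (by norm_num)
  have goal : ((lev Z n).headI : ℝ) ≤ (lev Z m).headI + (pW Z : ℝ) := by
    simp only [pW]
    rcases hc with ⟨-, hA⟩ | ⟨-, hB⟩
    · obtain ⟨hne, -, hpw, -⟩ := lev_mem hS hn hcn
      rw [(head_facts hS hm hcm).2.2.2.2]
      simp only [CaseA] at hA
      have : ((lev Z n).headI : ℝ) ≤ LL Z := by
        cases hl : lev Z n with
        | nil => exact absurd hl hne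
        | cons a as =>
          rw [hl] at hpw
          exact_mod_cast (List.pairwise_cons.1 hpw).1 a (List.mem_cons_self ..)
      linarith
    · have a1 := (budget hS hn hcn).1
      have b1 := (budget hS hm hcm).2
      obtain ⟨hnn, -, hnp, -⟩ := lev_mem hS hn hcn
      obtain ⟨hmn, -, hmp, -⟩ := lev_mem hS hm hcm
      simp only [CaseB, pM] at hB
      rw [budL_cons hnp] at a1
      rw [budL_cons hmp] at b1
      cases hl : lev Z n with
      | nil => exact absurd hl hnn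
      | cons a as =>
        cases hl' : lev Z m with
        | nil => exact absurd hl' hmn
        | cons b bs' =>
          rw [hl, hl'] at htl
          simp only [List.tail_cons] at htl
          rw [hl, Layer.bs] at a1
          rw [hl', ← htl, Layer.bs] at b1
          have hinc : (1 : ℝ) / 4 ≤ inc 1 := by
            have h2 := Real.log_two_gt_d9
            have : inc 1 = 2 * Real.log 2 - 1 := by simp [inc, Qf]; ring
            rw [this]
            norm_num at h2 ⊢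
            linarith
          simp only [List.headI_cons]
          by_contra hlt
          push Not at hlt
          have h6 : 30 * (LL Z : ℝ) ^ ((9 : ℝ) / 10) < (a : ℝ) - b := by linarith
          nlinarith
  exact_mod_cast goal

end Vale.Agent.P031.Boundary
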