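import Vale.Agent.P031.Asm.Iface
import Vale.Agent.P031.Interfaces

/-!
# Assembly of `V(cx) / V(x) → c`
-/

open Filter Topology Finset
open scoped Classical

namespace Vale.Agent.P031

lemma tendsto_LL : Tendsto LL atTop atTop :=
  tendsto_nat_floor_atTop.comp (Real.tendsto_log_atTop.comp
    (Real.tendsto_log_atTop.comp (tendsto_atTop_add_const_right atTop 1 tendsto_id)))

lemma exp_LL_le {Z : ℝ} (hZ : 3 ≤ Z) : Real.exp (LL Z) ≤ Real.log Z + 1 := by
  have h0 : 1 ≤ Real.log (Z + 1) := by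
    rw [Real.le_log_iff_exp_le (by linarith)]
    linarith [Real.exp_one_lt_d9]
  have h1 : (LL Z : ℝ) ≤ Real.log (Real.log (Z + 1)) := Nat.floor_le (Real.log_nonneg h0)
  refine le_trans (Real.exp_le_exp.2 h1) ?_
  rw [Real.exp_log (by linarith), Real.log_le_iff_le_exp (by linarith), Real.exp_add,
    Real.exp_log (by linarith)]
  nlinarith [Real.exp_one_gt_d9]

/-- The largest prime of a regular number has level above `pT` and tends to infinity. -/
lemma maxP_large : ∀ R : ℝ, ∀ᶠ Z : ℝ in atTop, ∀ n : ℕ, BaseReg Z n →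
    pT Z < kap (maxP n) ∧ R ≤ (maxP n : ℝ) := by
  intro R
  have hL : ∀ᶠ L : ℕ in atTop,
      Real.log (L : ℝ) ^ 50 ≤ (L : ℝ) / 4 ∧ 1000 ≤ (L : ℝ) ∧ R ≤ (L : ℝ) ∧
        Real.log (L : ℝ) ≤ (L : ℝ) / 4 := by
    have h1 := (Real.isLittleO_pow_log_id_atTop (n := 50)).bound (by norm_num : (0 : ℝ) < 1 / 4)
    have h2 := (Real.isLittleO_pow_log_id_atTop (n := 1)).bound (by norm_num : (0 : ℝ) < 1 / 4)
    have hcast : Tendsto (fun n : ℕ => (n : ℝ)) atTop atTop := tendsto_natCast_atTop_atTop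
    filter_upwards [hcast.eventually h1, hcast.eventually h2,
      hcast.eventually (eventually_ge_atTop (1000 : ℝ)), hcast.eventually (eventually_ge_atTop R)]
      with L a b c d
    simp only [Real.norm_eq_abs, id, abs_of_pos (show (0 : ℝ) < L by linarith), pow_one] at a b
    exact ⟨by linarith [le_abs_self (Real.log (L : ℝ) ^ 50)], c, d,
      by linarith [le_abs_self (Real.log (L : ℝ))]⟩
  filter_upwards [tendsto_LL.eventually hL, eventually_ge_atTop (3 : ℝ)] with Z hZ hZ3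
  intro n hn
  obtain ⟨h50, hL20, hR, hlL⟩ := hZ
  set L : ℝ := (LL Z : ℝ) with hLdef
  obtain ⟨-, -, -, -, -, -, -, hp, -, hlog⟩ := hn
  have hp2 : (2 : ℝ) ≤ maxP n := by exact_mod_cast hp.two_le
  have hexp := exp_LL_le hZ3
  rw [← hLdef] at hexp hlog
  have hb : Real.exp L / (60 * (L + 1)) ≤ Real.log (maxP n) := by
    refine le_trans ?_ hlog
    rw [div_le_div_iff₀ (by linarith) (by linarith)]
    nlinarith [Real.add_one_le_exp L]
  have hlp : 0 < Real.log (maxP n : ℝ) := Real.log_pos (by linarith)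
  have h2 : L - Real.log (60 * (L + 1)) ≤ Real.log (Real.log (maxP n : ℝ)) := by
    have h := Real.log_le_log (by positivity) hb
    rwa [Real.log_div (Real.exp_pos L).ne' (by positivity), Real.log_exp] at h
  have h3 : Real.log (60 * (L + 1)) ≤ L / 4 + 120 := by
    rw [Real.log_mul (by norm_num) (by linarith)]
    have e1 := Real.log_le_sub_one_of_pos (show (0 : ℝ) < 60 by norm_num)
    have e2 : Real.log (L + 1) ≤ Real.log (2 * L) := Real.log_le_log (by linarith) (by linarith)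
    rw [Real.log_mul (by norm_num) (by linarith)] at e2
    linarith [Real.log_two_lt_d9]
  constructor
  · have hT : (pT Z : ℝ) ≤ L / 4 := by
      refine le_trans (Nat.floor_le ?_) h50
      exact pow_nonneg (Real.log_natCast_nonneg _) _
    have : (pT Z : ℝ) + 1 ≤ Real.log (Real.log (maxP n : ℝ)) := by linarith
    have h4 : ((pT Z + 1 : ℕ) : ℝ) ≤ Real.log (Real.log (maxP n : ℝ)) := by push_cast; linarith
    exact Nat.lt_of_succ_le (Nat.le_floor h4)
  · have h5 : R + 1 ≤ Real.exp (Real.log (Real.log (maxP n : ℝ))) + 1 + 0 := by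
      have := Real.add_one_le_exp (Real.log (Real.log (maxP n : ℝ)))
      nlinarith [Real.quadratic_le_exp_of_nonneg (show 0 ≤ Real.log (Real.log (maxP n : ℝ)) by linarith)]
    rw [Real.exp_log hlp] at h5
    linarith [Real.log_le_self (show (0 : ℝ) ≤ maxP n by linarith)]

lemma vcount_eq {y : ℝ} (hy : 0 ≤ y) : Vcount y = (valueSet y).card := by
  unfold Vcount
  rw [← Set.ncard_coe_finset]
  congr 1
  ext v
  simp only [valueSet, coe_filter, Finset.mem_Icc, Set.mem_ofPred_eq]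
  constructor
  · rintro ⟨⟨n, hn, rfl⟩, h⟩
    exact ⟨⟨Nat.totient_pos.2 hn, Nat.le_floor h⟩, n, hn, rfl⟩
  · rintro ⟨⟨h1, h2⟩, h⟩
    exact ⟨h, le_trans (by exact_mod_cast h2) (Nat.floor_le hy)⟩

lemma primeCounting_card (n : ℕ) :
    Nat.primeCounting n = ((Finset.range (n + 1)).filter Nat.Prime).card := by
  rw [Nat.primeCounting, Nat.primeCounting', Nat.count_eq_card_filter_range]

lemma pi_le_vcount {y : ℝ} (hy : 1 ≤ y) : Nat.primeCounting ⌊y⌋₊ ≤ Vcount y := by
  rw [vcount_eq (by linarith), primeCounting_card]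
  refine card_le_card_of_injOn (fun p => p - 1) (fun p hp => ?_) ?_
  · obtain ⟨h1, h2⟩ := mem_filter.1 (mem_coe.1 hp)
    have := h2.two_le
    have := mem_range.1 h1
    exact mem_coe.2 (mem_filter.2 ⟨Finset.mem_Icc.2 ⟨show 1 ≤ p - 1 by omega,
      show p - 1 ≤ ⌊y⌋₊ by omega⟩, p, h2.pos,
      Nat.totient_prime h2⟩)
  · intro p hp q hq h
    have := (mem_filter.1 (mem_coe.1 hp)).2.two_le
    have := (mem_filter.1 (mem_coe.1 hq)).2.two_le
    simp only at h
    omega

lemma good_split {Z : ℝ} {n : ℕ} (hn : GoodN Z n) (hk : pT Z < kap (maxP n)) :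
    n.totient = (maxP n - 1) * mOf n := by
  obtain ⟨⟨⟨h0, -, -, -, -, hsq, -, hp, hd, -⟩, -⟩, -⟩ := hn
  have hco : (maxP n).Coprime (n / maxP n) := by
    rw [hp.coprime_iff_not_dvd]
    intro h
    exact hsq (maxP n) hp hk ((Nat.dvd_div_iff_mul_dvd hd).1 h)
  unfold mOf
  conv_lhs => rw [← Nat.mul_div_cancel' hd]
  rw [Nat.totient_mul hco, Nat.totient_prime hp]

/-- Upper bound by the main sum and the exceptional sets. -/
lemma upper_bound {Z y : ℝ} (hy0 : 0 ≤ y) (hy : y ≤ Z)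
    (hsplit : ∀ n : ℕ, BaseReg Z n → pT Z < kap (maxP n)) :
    (Vcount y : ℝ) ≤ mainSum Z y +
      (((valueSet Z).filter (fun v => ∀ n : ℕ, n.totient = v → ¬ BaseReg Z n)).card : ℝ) +
      (((valueSet Z).filter
        (fun v => ∃ n : ℕ, n.totient = v ∧ BaseReg Z n ∧ ¬ ShapeReg Z n)).card : ℝ) +
      ((boundarySet Z).card : ℝ) := by
  rw [vcount_eq hy0]
  set EA := (valueSet Z).filter (fun v => ∀ n : ℕ, n.totient = v → ¬ BaseReg Z n)
  set EB := (valueSet Z).filter (fun v => ∃ n : ℕ, n.totient = v ∧ BaseReg Z n ∧ ¬ ShapeReg Z n)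
  set S := (Mset Z).sigma (fun m => (Finset.range (⌊y / m⌋₊ + 1 + 1)).filter Nat.Prime)
  have hsub : valueSet y ⊆ S.image (fun x => (x.2 - 1) * x.1) ∪ EA ∪ EB ∪ boundarySet Z := by
    intro v hv
    obtain ⟨hv1, hvn⟩ := mem_filter.1 hv
    obtain ⟨h1, h2⟩ := Finset.mem_Icc.1 hv1
    have hvZ : v ∈ valueSet Z :=
      mem_filter.2 ⟨Finset.mem_Icc.2 ⟨h1, h2.trans (Nat.floor_le_floor hy)⟩, hvn⟩
    by_cases hA : ∀ n : ℕ, n.totient = v → ¬ BaseReg Z n
    · exact mem_union_left _ (mem_union_left _ (mem_union_right _ (mem_filter.2 ⟨hvZ, hA⟩)))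
    push Not at hA
    obtain ⟨n, hn, hbase⟩ := hA
    by_cases hB : ShapeReg Z n
    swap
    · simp only [mem_union]
      exact Or.inl (Or.inr (mem_filter.2 ⟨hvZ, n, hn, hbase, hB⟩))
    by_cases hG : GoodN Z n
    swap
    · exact mem_union_right _ (mem_filter.2 ⟨hvZ, n, hn, ⟨hbase, hB⟩, hG⟩)
    have hs := good_split hG (hsplit n hbase)
    have hp : (maxP n).Prime := hbase.2.2.2.2.2.2.2.1
    have hp1 : 1 ≤ maxP n - 1 := by have := hp.two_le; omega
    have hm0 : 0 < mOf n := by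
      rcases Nat.eq_zero_or_pos (mOf n) with h | h
      · rw [h, mul_zero] at hs; omega
      · exact h
    refine mem_union_left _ (mem_union_left _ (mem_union_left _ (mem_image.2
      ⟨⟨mOf n, maxP n⟩, mem_sigma.2 ⟨?_, ?_⟩, by simp only; rw [← hs, hn]⟩)))
    · refine mem_filter.2 ⟨Finset.mem_Icc.2 ⟨hm0, le_trans ?_ (h2.trans (Nat.floor_le_floor hy))⟩,
        n, hG, rfl⟩
      rw [← hn, hs]
      exact Nat.le_mul_of_pos_left _ hp1
    · refine mem_filter.2 ⟨mem_range.2 ?_, hp⟩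
      show maxP n < ⌊y / (mOf n : ℝ)⌋₊ + 1 + 1
      have : maxP n - 1 ≤ ⌊y / (mOf n : ℝ)⌋₊ := by
        apply Nat.le_floor
        rw [le_div_iff₀ (by exact_mod_cast hm0), ← Nat.cast_mul, ← hs, hn]
        exact le_trans (by exact_mod_cast h2) (Nat.floor_le hy0)
      omega
  have hS : (S.card : ℝ) = mainSum Z y := by
    simp only [S, card_sigma, mainSum, Nat.cast_sum, primeCounting_card]
  have h := (card_le_card hsub).trans ((card_union_le _ _).trans (Nat.add_le_add_right
    ((card_union_le _ _).trans (Nat.add_le_add_right ((card_union_le _ _).trans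
      (Nat.add_le_add_right card_image_le _)) _)) _))
  have hR : ((valueSet y).card : ℝ) ≤ ((S.card + EA.card + EB.card + (boundarySet Z).card : ℕ) : ℝ) :=
    by exact_mod_cast h
  push_cast at hR
  linarith

lemma pi_scale (hP : PNTStmt) {c : ℝ} (hc : 1 < c) {δ : ℝ} (hδ : 0 < δ) :
    ∃ R : ℝ, ∀ u : ℝ, R ≤ u →
      |c * (Nat.primeCounting (⌊u / c⌋₊ + 1) : ℝ) - Nat.primeCounting (⌊u⌋₊ + 1)| ≤
        δ * Nat.primeCounting (⌊u⌋₊ + 1) := by
  set g : ℝ → ℝ := fun u => (Nat.primeCounting (⌊u⌋₊ + 1) : ℝ) with hg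
  have h1 : Tendsto (fun u : ℝ => g u * Real.log u / u) atTop (𝓝 1) := by
    have ha := hP.comp (tendsto_atTop_add_const_right atTop (1 : ℝ) tendsto_id)
    have hb : Tendsto (fun u : ℝ => (u + 1) / u) atTop (𝓝 1) := by
      have := (tendsto_inv_atTop_zero (𝕜 := ℝ)).const_add 1
      rw [add_zero] at this
      refine this.congr' ?_
      filter_upwards [eventually_gt_atTop (0 : ℝ)] with u hu
      field_simp
    have hd : Tendsto (fun u : ℝ => Real.log u / Real.log (u + 1)) atTop (𝓝 1) := by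
      have h2 : Tendsto (fun u : ℝ => Real.log ((u + 1) / u) / Real.log u) atTop (𝓝 0) :=
        Tendsto.div_atTop ((Real.continuousAt_log one_ne_zero).tendsto.comp hb) Real.tendsto_log_atTop
      have h3 := (h2.const_add 1).inv₀ (by norm_num)
      rw [add_zero, inv_one] at h3
      refine h3.congr' ?_
      filter_upwards [eventually_gt_atTop (1 : ℝ)] with u hu
      rw [Real.log_div (by linarith) (by linarith), sub_div, div_self (Real.log_pos hu).ne',
        add_sub_cancel, inv_div]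
    have := (ha.mul hb).mul hd
    rw [one_mul, one_mul] at this
    refine this.congr' ?_
    filter_upwards [eventually_gt_atTop (1 : ℝ)] with u hu
    have : Real.log (u + 1) ≠ 0 := (Real.log_pos (by linarith)).ne'
    simp only [Function.comp, hg, id]
    rw [Nat.floor_add_one (by linarith : (0 : ℝ) ≤ u)]
    field_simp
  have hdiv : Tendsto (fun u : ℝ => u / c) atTop atTop := tendsto_id.atTop_div_const (by linarith)
  have hlog : Tendsto (fun u : ℝ => Real.log u / Real.log (u / c)) atTop (𝓝 1) := by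
    have h2 : Tendsto (fun u : ℝ => Real.log c / Real.log u) atTop (𝓝 0) :=
      tendsto_const_nhds.div_atTop Real.tendsto_log_atTop
    have h3 := (h2.const_sub 1).inv₀ (by norm_num)
    rw [sub_zero, inv_one] at h3
    refine h3.congr' ?_
    filter_upwards [eventually_gt_atTop c] with u hu
    rw [Real.log_div (by linarith) (by linarith)]
    have := Real.log_pos (show 1 < u by linarith)
    field_simp
  have hq : Tendsto (fun u : ℝ => c * g (u / c) / g u) atTop (𝓝 1) := by
    have := ((h1.comp hdiv).mul hlog).div h1 one_ne_zero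
    rw [one_mul, div_one] at this
    refine this.congr' ?_
    filter_upwards [eventually_gt_atTop c] with u hu
    have : Real.log (u / c) ≠ 0 := (Real.log_pos ((one_lt_div (by linarith)).2 hu)).ne'
    have : Real.log u ≠ 0 := (Real.log_pos (by linarith)).ne'
    simp only [Pi.mul_apply, Pi.div_apply, Function.comp]
    field_simp
    rw [mul_div_mul_left _ _ (show u ≠ 0 by linarith)]
  obtain ⟨R, hR⟩ := eventually_atTop.1 ((hq.eventually (Metric.closedBall_mem_nhds 1 hδ)).and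
    (h1.eventually (lt_mem_nhds one_pos)))
  refine ⟨R, fun u hu => ?_⟩
  obtain ⟨hb, hpos⟩ := hR u hu
  have hg0 : 0 ≤ g u := Nat.cast_nonneg _
  have hne : g u ≠ 0 := by
    intro h
    rw [h, zero_mul, zero_div] at hpos
    exact lt_irrefl 0 hpos
  rw [Real.dist_eq] at hb
  have h := mul_le_mul_of_nonneg_right hb hg0
  rw [← abs_of_nonneg hg0, ← abs_mul, abs_of_nonneg hg0, sub_mul, div_mul_cancel₀ _ hne, one_mul] at h
  exact h

lemma main_scale (hP : PNTStmt) {c : ℝ} (hc : 1 < c) {δ : ℝ} (hδ : 0 < δ) :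
    ∀ᶠ Z : ℝ in atTop, |c * mainSum Z (Z / c) - mainSum Z Z| ≤ δ * mainSum Z Z := by
  obtain ⟨R, hR⟩ := pi_scale hP hc hδ
  filter_upwards [maxP_large (R + 2), eventually_ge_atTop (1 : ℝ)] with Z hZ hZ1
  unfold mainSum
  rw [mul_sum, ← sum_sub_distrib]
  refine le_trans (abs_sum_le_sum_abs _ _) ?_
  rw [mul_sum]
  refine sum_le_sum fun m hm => ?_
  obtain ⟨hm1, n, hG, rfl⟩ := mem_filter.1 hm
  have hm0 : (0 : ℝ) < mOf n := by exact_mod_cast (Finset.mem_Icc.1 hm1).1
  obtain ⟨hk, hbig⟩ := hZ n hG.1.1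
  have hsp := good_split hG hk
  have hle : (n.totient : ℝ) ≤ Z := hG.1.1.2.1
  have hp : (maxP n).Prime := hG.1.1.2.2.2.2.2.2.2.1
  rw [hsp, Nat.cast_mul, Nat.cast_sub hp.one_le, Nat.cast_one] at hle
  have h := hR (Z / mOf n) (by rw [le_div_iff₀ hm0]; nlinarith)
  rwa [show Z / (mOf n : ℝ) / c = Z / c / (mOf n : ℝ) by rw [div_right_comm]] at h

lemma vcount_lower (hP : PNTStmt) :
    ∀ᶠ Z : ℝ in atTop, Z / Real.log Z / 2 ≤ (Vcount Z : ℝ) := by
  filter_upwards [hP.eventually (lt_mem_nhds (show (1 / 2 : ℝ) < 1 by norm_num)),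
    eventually_gt_atTop (1 : ℝ)] with Z h hZ
  refine le_trans ?_ (by exact_mod_cast pi_le_vcount hZ.le : (Nat.primeCounting ⌊Z⌋₊ : ℝ) ≤ _)
  have hl := Real.log_pos hZ
  rw [lt_div_iff₀ (by linarith)] at h
  rw [div_div, div_le_iff₀ (by positivity)]
  nlinarith

/-- The numerical gain of the boundary. -/
lemma gain_tendsto (C : ℝ) :
    Tendsto (fun L : ℕ => Real.exp (C * Real.log (Real.log (L : ℝ)) ^ 2) *
      (20 * Real.log (L : ℝ) + 2) / (L : ℝ) ^ ((1 : ℝ) / 50)) atTop (𝓝 0) := by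
  have hlog : Tendsto (fun L : ℕ => Real.log (L : ℝ)) atTop atTop :=
    Real.tendsto_log_atTop.comp tendsto_natCast_atTop_atTop
  have h1 := (Real.isLittleO_pow_log_id_atTop (n := 2)).const_mul_left C |>.bound
    (show (0 : ℝ) < 1 / 100 by norm_num)
  have hexp : Tendsto (fun L : ℕ => 44 * Real.log (L : ℝ) / Real.exp (Real.log (L : ℝ) / 100))
      atTop (𝓝 0) := by
    have h := (Real.tendsto_pow_mul_exp_neg_atTop_nhds_zero 1).comp
      (hlog.atTop_div_const (show (0 : ℝ) < 100 by norm_num))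
    have h' := h.const_mul (4400 : ℝ)
    rw [mul_zero] at h'
    refine h'.congr fun L => ?_
    simp only [Function.comp, pow_one, Real.exp_neg]
    field_simp
    ring
  refine squeeze_zero' ?_ ?_ hexp
  · filter_upwards [hlog.eventually (eventually_ge_atTop (1 : ℝ))] with L hL
    positivity
  · filter_upwards [hlog.eventually h1, hlog.eventually (eventually_ge_atTop (1 : ℝ)),
      eventually_gt_atTop 0] with L hb hL hL0
    have hLR : (0 : ℝ) < L := by exact_mod_cast hL0
    simp only [Real.norm_eq_abs, id, abs_of_pos (show (0 : ℝ) < Real.log L by linarith)] at hb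
    have he : Real.exp (C * Real.log (Real.log (L : ℝ)) ^ 2) ≤ Real.exp (Real.log (L : ℝ) / 100) :=
      Real.exp_le_exp.2 (by linarith [le_abs_self (C * Real.log (Real.log (L : ℝ)) ^ 2)])
    have hpow : (L : ℝ) ^ ((1 : ℝ) / 50) = Real.exp (Real.log (L : ℝ) / 100) ^ 2 := by
      rw [Real.rpow_def_of_pos hLR, ← Real.exp_nat_mul]; ring_nf
    rw [hpow, div_le_div_iff₀ (by positivity) (Real.exp_pos _)]
    calc Real.exp (C * Real.log (Real.log (L : ℝ)) ^ 2) * (20 * Real.log (L : ℝ) + 2) *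
          Real.exp (Real.log (L : ℝ) / 100)
        ≤ Real.exp (Real.log (L : ℝ) / 100) * (44 * Real.log (L : ℝ)) *
          Real.exp (Real.log (L : ℝ) / 100) := by gcongr; linarith
      _ = _ := by ring

lemma boundary_small (hP : PNTStmt) (hLay : LayerStmt) (hB : BoundaryStmt) (hLow : LowerStmt)
    {δ : ℝ} (hδ : 0 < δ) :
    ∀ᶠ Z : ℝ in atTop, ((boundarySet Z).card : ℝ) ≤ δ * (Vcount Z : ℝ) := by
  obtain ⟨C, hB⟩ := hB
  obtain ⟨c0, hc0, hLow⟩ := hLow
  obtain ⟨L0, hLay⟩ := hLay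
  set M : ℝ := 2 * (3 / c0 + 2) with hMdef
  have hM0 : 0 < M := by rw [hMdef]; positivity
  have hg := tendsto_LL.eventually ((gain_tendsto C).eventually (ge_mem_nhds (div_pos hδ hM0)))
  have hW : ∀ᶠ Z : ℝ in atTop, (pW Z : ℝ) ≤ (LL Z : ℝ) ^ ((91 : ℝ) / 100) ∧ pM Z ≤ (pW Z : ℝ) := by
    have hpow : Tendsto (fun L : ℕ => (L : ℝ) ^ ((1 : ℝ) / 200)) atTop atTop :=
      (tendsto_rpow_atTop (by norm_num)).comp tendsto_natCast_atTop_atTop
    filter_upwards [tendsto_LL.eventually (hpow.eventually (eventually_ge_atTop (2 : ℝ))),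
      tendsto_LL.eventually (eventually_ge_atTop 1)] with Z h2 h1
    have hL : (1 : ℝ) ≤ LL Z := by exact_mod_cast h1
    constructor
    · refine le_trans (Nat.ceil_lt_add_one (by positivity)).le ?_
      rw [show (91 : ℝ) / 100 = 181 / 200 + 1 / 200 by norm_num,
        Real.rpow_add (by linarith)]
      nlinarith [Real.one_le_rpow hL (show (0 : ℝ) ≤ 181 / 200 by norm_num)]
    · exact le_trans (Real.rpow_le_rpow_of_exponent_le hL (by norm_num)) (Nat.le_ceil _)
  filter_upwards [hB, hLow, tendsto_LL.eventually (eventually_ge_atTop (max L0 1)), hg, hW,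
    vcount_lower hP, eventually_gt_atTop (1 : ℝ)] with Z hBZ hLowZ hL hgain hw hV hZ1
  obtain ⟨A₁, A₂, hA₁, hA₂, hcard⟩ := hBZ
  set q : ℝ := Z / Real.log Z with hq
  have hq0 : 0 ≤ q := div_nonneg (by linarith) (Real.log_pos hZ1).le
  set P : ℝ := (LL Z : ℝ) ^ ((1 : ℝ) / 50) with hPdef
  have hK : (pK Z : ℝ) ≤ 20 * Real.log (LL Z) :=
    Nat.floor_le (mul_nonneg (by norm_num) (Real.log_natCast_nonneg _))
  have hone : ∀ A, LayerFamily (LL Z) (pK Z) (pH2 Z) (pW Z) A →
      q * ((A.card : ℝ) * P) ≤ (3 / c0 + 2) * (Vcount Z : ℝ) := by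
    intro A hA
    obtain ⟨G, hG, hc⟩ := hLay (LL Z) (le_trans (le_max_left _ _) hL) (pK Z) (pW Z) hK hw.1 A hA
    have h := hLowZ (pW Z) G hw.2 (fun l hl => hG l hl)
    have h' : q * (G.card : ℝ) ≤ 3 / c0 * (Vcount Z : ℝ) := by
      have h3 : c0 * (q * (G.card : ℝ)) ≤ 3 * (Vcount Z : ℝ) := by
        rw [← mul_assoc]; linarith
      calc q * (G.card : ℝ) = c0 * (q * (G.card : ℝ)) / c0 := by field_simp
        _ ≤ 3 * (Vcount Z : ℝ) / c0 := div_le_div_of_nonneg_right h3 hc0.le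
        _ = _ := by ring
    calc q * ((A.card : ℝ) * P) ≤ q * ((G.card : ℝ) + 1) := mul_le_mul_of_nonneg_left hc hq0
      _ ≤ _ := by nlinarith
  have hP0 : 0 < P := Real.rpow_pos_of_pos (by exact_mod_cast le_trans (le_max_right L0 1) hL) _
  calc ((boundarySet Z).card : ℝ)
      ≤ q * Real.exp (C * Real.log (lamZ Z) ^ 2) * ((pK Z : ℝ) + 1) *
          ((A₁.card : ℝ) + A₂.card) := hcard
    _ ≤ q * Real.exp (C * Real.log (Real.log (LL Z)) ^ 2) * (20 * Real.log (LL Z) + 2) *
          ((A₁.card : ℝ) + A₂.card) := by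
        unfold lamZ
        gcongr
        linarith
    _ = (Real.exp (C * Real.log (Real.log (LL Z)) ^ 2) * (20 * Real.log (LL Z) + 2) / P) *
          (q * ((A₁.card : ℝ) * P) + q * ((A₂.card : ℝ) * P)) := by field_simp
    _ ≤ δ / M * (M * (Vcount Z : ℝ)) := by
        refine mul_le_mul hgain ?_ (by positivity) (div_pos hδ hM0).le
        rw [hMdef]
        linarith [hone A₁ hA₁, hone A₂ hA₂]
    _ = _ := by field_simp

lemma tiny_small (hP : PNTStmt) {δ : ℝ} (hδ : 0 < δ) :
    ∀ᶠ Z : ℝ in atTop, tiny Z ≤ δ * (Vcount Z : ℝ) := by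
  have hlam : Tendsto (fun Z => Real.exp (-(lamZ Z ^ 5))) atTop (𝓝 0) :=
    Real.tendsto_exp_atBot.comp (tendsto_neg_atTop_atBot.comp
      ((tendsto_pow_atTop (by norm_num)).comp (Real.tendsto_log_atTop.comp
        (tendsto_natCast_atTop_atTop.comp tendsto_LL))))
  filter_upwards [hlam.eventually (ge_mem_nhds (show (0 : ℝ) < δ / 2 by linarith)), vcount_lower hP,
    eventually_gt_atTop (1 : ℝ)] with Z h1 h2 hZ
  have hq : 0 ≤ Z / Real.log Z := div_nonneg (by linarith) (Real.log_pos hZ).le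
  unfold tiny
  calc Z / Real.log Z * Real.exp (-(lamZ Z ^ 5)) ≤ Z / Real.log Z * (δ / 2) :=
        mul_le_mul_of_nonneg_left h1 hq
    _ = δ * (Z / Real.log Z / 2) := by ring
    _ ≤ _ := mul_le_mul_of_nonneg_left h2 hδ.le

/-- The regular variation of the counting function of totient values. -/
theorem ratio_tendsto (hP : PNTStmt) (hLay : LayerStmt) (hRA : RegAStmt) (hRB : RegBStmt)
    (hB : BoundaryStmt) (hLow : LowerStmt) (hPairs : PairsStmt) (c : ℝ) (hc : 1 < c) :
    Tendsto (fun x : ℝ => (Vcount (c * x) : ℝ) / Vcount x) atTop (𝓝 c) := by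
  have key : Tendsto (fun Z : ℝ => c * (Vcount (Z / c) : ℝ) / Vcount Z) atTop (𝓝 1) := by
    rw [Metric.tendsto_nhds]
    intro ε hε
    set δ := ε / (8 * (c + 2)) with hδdef
    have hδ : 0 < δ := by positivity
    filter_upwards [hRA, hRB, boundary_small hP hLay hB hLow hδ, tiny_small hP hδ,
      main_scale hP hc (lt_min hδ one_pos), hPairs c hc, maxP_large 0, vcount_lower hP,
      eventually_gt_atTop (1 : ℝ)] with Z hA hBr hbd htiny hscale hpairs hmax hV hZ
    have hsplit := fun n hn => (hmax n hn).1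
    have hZc : Z / c ≤ Z := div_le_self (by linarith) hc.le
    have hVpos : 0 < (Vcount Z : ℝ) :=
      lt_of_lt_of_le (div_pos (div_pos (by linarith) (Real.log_pos hZ)) two_pos) hV
    have u1 := upper_bound (show 0 ≤ Z by linarith) le_rfl hsplit
    have u2 := upper_bound (show 0 ≤ Z / c by positivity) hZc hsplit
    have l1 := hpairs Z (by linarith) le_rfl
    have l2 := hpairs (Z / c) le_rfl hZc
    have hm : 0 ≤ mainSum Z Z := sum_nonneg fun _ _ => Nat.cast_nonneg _
    obtain ⟨s1, s2⟩ := abs_le.1 hscale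
    have hd1 : min δ 1 * mainSum Z Z ≤ δ * mainSum Z Z :=
      mul_le_mul_of_nonneg_right (min_le_left _ _) hm
    have hd2 : min δ 1 * mainSum Z Z ≤ mainSum Z Z := by
      simpa using mul_le_mul_of_nonneg_right (min_le_right δ 1) hm
    have hδ1 : δ * mainSum Z Z ≤ δ * (Vcount Z : ℝ) + δ * (δ * (Vcount Z : ℝ)) := by
      nlinarith [mul_le_mul_of_nonneg_left (l1.trans (add_le_add le_rfl htiny)) hδ.le]
    have hc1 := mul_le_mul_of_nonneg_left u2 (show (0 : ℝ) ≤ c by linarith)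
    have hc2 := mul_le_mul_of_nonneg_left l2 (show (0 : ℝ) ≤ c by linarith)
    have hc3 := mul_le_mul_of_nonneg_left htiny (show (0 : ℝ) ≤ c by linarith)
    have hc4 := mul_le_mul_of_nonneg_left hbd (show (0 : ℝ) ≤ c by linarith)
    rw [Real.dist_eq, abs_lt, lt_sub_iff_add_lt, sub_lt_iff_lt_add, lt_div_iff₀ hVpos,
      div_lt_iff₀ hVpos]
    set V : ℝ := (Vcount Z : ℝ)
    have hδε : 8 * (c + 2) * δ = ε := by rw [hδdef]; field_simp
    have hεV : ε * V = 8 * (c + 2) * (δ * V) := by rw [← hδε]; ring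
    have hδV : 0 < δ * V := mul_pos hδ hVpos
    rcases le_or_gt δ 1 with hd | hd
    · have : δ * (δ * V) ≤ δ * V := mul_le_of_le_one_left hδV.le hd
      constructor <;> nlinarith
    · constructor <;> nlinarith
  have hcx : Tendsto (fun x : ℝ => c * x) atTop atTop := tendsto_id.const_mul_atTop (by linarith)
  have h2 := ((key.comp hcx).inv₀ one_ne_zero).const_mul c
  rw [inv_one, mul_one] at h2
  refine h2.congr fun x => ?_
  have hc0 : c ≠ 0 := by linarith
  simp only [Function.comp, mul_div_cancel_left₀ x hc0]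
  rw [inv_div, mul_div, mul_div_mul_left _ _ hc0]

end Vale.Agent.P031
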