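import Vale.Agent.P031.Euler

/-!
# Assembly: parameters at scale `Z`, regular preimages, and the statements of the parts

With `L = ⌊log log (Z+1)⌋` and `λ = log L`: thresholds `λ^20 < λ^50 < λ^100 < λ^200`, at most
`20 λ` head primes, boundary margin `L^(9/10)`.
-/

open Filter Topology Finset
open scoped Classical

namespace Vale.Agent.P031

noncomputable def LL (Z : ℝ) : ℕ := ⌊Real.log (Real.log (Z + 1))⌋₊
noncomputable def lamZ (Z : ℝ) : ℝ := Real.log (LL Z)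
noncomputable def pA (Z : ℝ) : ℕ := ⌊lamZ Z ^ 20⌋₊
noncomputable def pT (Z : ℝ) : ℕ := ⌊lamZ Z ^ 50⌋₊
noncomputable def pH (Z : ℝ) : ℕ := ⌊lamZ Z ^ 100⌋₊
noncomputable def pH2 (Z : ℝ) : ℕ := ⌊lamZ Z ^ 200⌋₊
noncomputable def pK (Z : ℝ) : ℕ := ⌊20 * lamZ Z⌋₊
noncomputable def pM (Z : ℝ) : ℝ := (LL Z : ℝ) ^ ((9 : ℝ) / 10)
noncomputable def pW (Z : ℝ) : ℕ := ⌈(LL Z : ℝ) ^ ((181 : ℝ) / 200)⌉₊

/-- The negligible amount. -/
noncomputable def tiny (Z : ℝ) : ℝ := Z / Real.log Z * Real.exp (-(lamZ Z ^ 5))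

/-- The largest prime factor. -/
def maxP (n : ℕ) : ℕ := n.primeFactors.sup id

/-- The head primes of `n`. -/
noncomputable def headOf (Z : ℝ) (n : ℕ) : Finset ℕ :=
  n.primeFactors.filter (fun q => pT Z < kap q)

/-- The first group of regularity conditions. -/
def BaseReg (Z : ℝ) (n : ℕ) : Prop :=
  0 < n ∧ (n.totient : ℝ) ≤ Z ∧ Z / Real.log Z ^ 2 < (n.totient : ℝ) ∧
    bigOm n.totient ≤ 10 * (LL Z + 1) ∧
    RoughSqfree (pT Z) n.totient ∧ RoughSqfree (pT Z) n ∧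
    (∀ q ∈ n.primeFactors, pA Z < kap q → Normal q) ∧
    (maxP n).Prime ∧ maxP n ∣ n ∧
    Real.log Z / (30 * ((LL Z : ℝ) + 1)) ≤ Real.log (maxP n)

/-- The second group: shape of the head. -/
def ShapeReg (Z : ℝ) (n : ℕ) : Prop :=
  (headOf Z n).card ≤ pK Z ∧
    Real.log Z / (4 * ((pK Z : ℝ) + 1)) ≤ Real.log (maxP n) ∧
    (∀ q ∈ headOf Z n, pH Z < kap q →
      budS (pT Z) ((headOf Z n).filter (fun r => r ≤ q)) ≤
        (kap q : ℝ) + (kap q : ℝ) ^ ((9 : ℝ) / 10)) ∧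
    budS (pT Z) (headOf Z n) ≤
      50 * (topS ((headOf Z n).erase (maxP n)) : ℝ) + (LL Z : ℝ) ^ ((4 : ℝ) / 5)

def Regular (Z : ℝ) (n : ℕ) : Prop := BaseReg Z n ∧ ShapeReg Z n

/-- Away from the boundary. -/
def GoodN (Z : ℝ) (n : ℕ) : Prop :=
  Regular Z n ∧
    (topS ((headOf Z n).erase (maxP n)) : ℝ) ≤ (LL Z : ℝ) - 10 * lamZ Z ∧
    budS (pT Z) (headOf Z n) ≤ (LL Z : ℝ) - pM Z

/-- The totient values up to `Z`. -/
noncomputable def valueSet (Z : ℝ) : Finset ℕ :=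
  (Finset.Icc 1 ⌊Z⌋₊).filter (fun v => ∃ n : ℕ, 0 < n ∧ n.totient = v)

/-- Module `RegA`: preimages can be taken with the first group of conditions. -/
def RegAStmt : Prop :=
  ∀ᶠ Z : ℝ in atTop,
    (((valueSet Z).filter (fun v => ∀ n : ℕ, n.totient = v → ¬ BaseReg Z n)).card : ℝ) ≤ tiny Z

/-- Module `RegB`: the shape conditions follow from the first group, up to a negligible set. -/
def RegBStmt : Prop :=
  ∀ᶠ Z : ℝ in atTop,
    (((valueSet Z).filter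
      (fun v => ∃ n : ℕ, n.totient = v ∧ BaseReg Z n ∧ ¬ ShapeReg Z n)).card : ℝ) ≤ tiny Z

/-- The values with a regular preimage at the boundary. -/
noncomputable def boundarySet (Z : ℝ) : Finset ℕ :=
  (valueSet Z).filter (fun v => ∃ n : ℕ, n.totient = v ∧ Regular Z n ∧ ¬ GoodN Z n)

/-- Module `Boundary`: the boundary values are covered by two families of lists. -/
def BoundaryStmt : Prop :=
  ∃ C : ℝ, ∀ᶠ Z : ℝ in atTop, ∃ A₁ A₂ : Finset (List ℕ),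
    LayerFamily (LL Z) (pK Z) (pH2 Z) (pW Z) A₁ ∧ LayerFamily (LL Z) (pK Z) (pH2 Z) (pW Z) A₂ ∧
    ((boundarySet Z).card : ℝ) ≤
      Z / Real.log Z * Real.exp (C * Real.log (lamZ Z) ^ 2) * ((pK Z : ℝ) + 1) *
        ((A₁.card : ℝ) + A₂.card)

/-- Module `Lower`: many values come from good lists. -/
def LowerStmt : Prop :=
  ∃ c : ℝ, 0 < c ∧ ∀ᶠ Z : ℝ in atTop, ∀ (w : ℕ) (G : Finset (List ℕ)),
    pM Z ≤ (w : ℝ) →
    (∀ l ∈ G, l.length ≤ pK Z ∧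
      GoodList (LL Z) (pH2 Z) w (lamZ Z ^ (-(6 : ℝ))) l) →
    c * (Z / Real.log Z) * (G.card : ℝ) ≤ (Vcount Z : ℝ) + Z / Real.log Z

/-- `φ (n / P(n))`. -/
def mOf (n : ℕ) : ℕ := (n / maxP n).totient

/-- The cofactors. -/
noncomputable def Mset (Z : ℝ) : Finset ℕ :=
  (Finset.Icc 1 ⌊Z⌋₊).filter (fun m => ∃ n : ℕ, GoodN Z n ∧ mOf n = m)

/-- The main sum. -/
noncomputable def mainSum (Z y : ℝ) : ℝ :=
  ∑ m ∈ Mset Z, (Nat.primeCounting (⌊y / m⌋₊ + 1) : ℝ)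

/-- Module `Pairs`: the pairs behind the main sum give distinct values, up to a negligible
amount. -/
def PairsStmt : Prop :=
  ∀ c : ℝ, 1 < c → ∀ᶠ Z : ℝ in atTop, ∀ y : ℝ, Z / c ≤ y → y ≤ Z →
    mainSum Z y ≤ (Vcount y : ℝ) + tiny Z

end Vale.Agent.P031
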