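import Vale.Agent.P031.Asm.LowerWeights

/-!
# Many values come from good lists
-/

open Finset Filter Topology
open scoped Classical

namespace Vale.Agent.P031.Lower

variable {CS Z : ℝ} {w : ℕ}

/-- Few primes can sit on top of a given cofactor. -/
lemma few_tops : ∀ᶠ Z : ℝ in atTop, ∀ D : ℕ, 0 < D → ∀ S : Finset ℕ,
    (∀ p ∈ S, p.Prime ∧ (((p - 1) * D : ℕ) : ℝ) ≤ Z ∧ 4 / 5 * Real.log Z ≤ Real.log p) →
    (S.card : ℝ) ≤ 8 * (Z / Real.log Z) * (1 / (D : ℝ)) := by
  obtain ⟨y₀, hy₀⟩ := eventually_atTop.1 (Chebyshev.eventually_primeCounting_le one_pos)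
  have hbig := (Real.tendsto_exp_atTop.comp
    (Tendsto.const_mul_atTop (show (0 : ℝ) < 4 / 5 by norm_num) Real.tendsto_log_atTop)).eventually_ge_atTop y₀
  filter_upwards [hbig, eventually_ge_atTop 2] with Z hZy hZ D hD S hS
  simp only [Function.comp] at hZy
  have hlogZ : 0 < Real.log Z := Real.log_pos (by linarith)
  rcases S.eq_empty_or_nonempty with rfl | ⟨p, hp⟩
  · rw [card_empty, Nat.cast_zero]; positivity
  have hD' : (0 : ℝ) < D := by exact_mod_cast hD
  set y := Z / D + 1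
  have hsub : ∀ q ∈ S, q.Prime ∧ (q : ℝ) ≤ y := fun q hq => by
    obtain ⟨hqp, hqD, -⟩ := hS q hq
    push_cast [Nat.cast_sub hqp.one_le] at hqD
    have : (q : ℝ) - 1 ≤ Z / D := by rw [le_div_iff₀ hD']; linarith
    exact ⟨hqp, by simp only [y]; linarith⟩
  obtain ⟨hpp, hpy⟩ := hsub p hp
  have hp2 : (2 : ℝ) ≤ p := by exact_mod_cast hpp.two_le
  have hy2 : y ≤ 2 * (Z / D) := by simp only [y] at hpy ⊢; linarith
  have hly : 4 / 5 * Real.log Z ≤ Real.log y :=
    (hS p hp).2.2.trans (Real.log_le_log (by linarith) hpy)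
  have hy0 : y₀ ≤ y := by
    refine le_trans hZy (le_trans (Real.exp_le_exp.2 hly) (le_of_eq (Real.exp_log (by linarith))))
  have h4 : Real.log 4 + 1 ≤ 3 := by
    have h := Real.log_two_lt_d9
    rw [show (4 : ℝ) = 2 ^ 2 by norm_num, Real.log_pow]
    push_cast
    norm_num at h ⊢
    linarith
  refine (primes_le S y hsub).trans ((hy₀ y hy0).trans ?_)
  calc (Real.log 4 + 1) * y / Real.log y ≤ 3 * (2 * (Z / D)) / (4 / 5 * Real.log Z) :=
        div_le_div₀ (by positivity) (mul_le_mul h4 hy2 (by linarith) (by norm_num)) (by positivity) hly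
    _ = 15 / 2 * (Z / Real.log Z * (1 / (D : ℝ))) := by field_simp; ring
    _ ≤ 8 * (Z / Real.log Z * (1 / (D : ℝ))) := mul_le_mul_of_nonneg_right (by norm_num) (by positivity)
    _ = _ := by ring

lemma toList_back (F : Finset ℕ) (h : ∀ q ∈ F, 1 ≤ q) :
    (F.toList.map (· - 1)).map (· + 1) = F.toList := by
  rw [List.map_map]
  refine (List.map_congr_left fun q hq => ?_).trans (List.map_id _)
  have := h q (mem_toList.1 hq)
  simp only [Function.comp, id]
  omega

lemma few_bad_numeric (h : LNum CS Z) :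
    2 * ((pK Z : ℝ) + 2) ^ 3 * Real.log Z * Real.exp (((LL Z : ℝ) + 2) * ((pK Z : ℝ) + 1)) *
      Real.exp (-Real.exp (pT Z : ℝ)) ≤ 1 / 4 := by
  obtain ⟨-, hlogZ, hlog0⟩ := log_bounds h
  set lam := lamZ Z
  set L := (LL Z : ℝ)
  have hl := h.lam
  have hK : (pK Z : ℝ) ≤ 20 * lam := Nat.floor_le (by linarith)
  have hK0 : (0 : ℝ) ≤ pK Z := Nat.cast_nonneg _
  have hbig : (10 : ℝ) ^ 100 ≤ lam ^ 100 := pow_le_pow_left₀ (by norm_num) hl 100
  have hp := h.pow100
  have hlamL : lam ≤ L := by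
    have := le_self_pow₀ (show (1 : ℝ) ≤ lam by linarith) (show (100 : ℕ) ≠ 0 by norm_num)
    linarith
  have hL : (1000 : ℝ) ≤ L := by
    have : (1000 : ℝ) ≤ (10 : ℝ) ^ 100 := by norm_num
    linarith
  have a1 : 2 * ((pK Z : ℝ) + 2) ^ 3 ≤ Real.exp (3 * ((pK Z : ℝ) + 2) + 1) := by
    rw [Real.exp_add, mul_comm (2 : ℝ), show 3 * ((pK Z : ℝ) + 2) = ((3 : ℕ) : ℝ) * ((pK Z : ℝ) + 2) by norm_num,
      Real.exp_nat_mul]
    exact mul_le_mul (pow_le_pow_left₀ (by linarith) (by linarith [Real.add_one_le_exp ((pK Z : ℝ) + 2)]) 3)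
      (by linarith [Real.add_one_le_exp (1 : ℝ)]) (by norm_num) (by positivity)
  have a2 : L ^ 3 ≤ Real.exp (pT Z : ℝ) := by
    have h3 : 3 * lam ≤ (pT Z : ℝ) := by
      refine le_trans ?_ h.Tlow
      rw [show (49 : ℕ) = 48 + 1 from rfl, pow_succ]
      exact mul_le_mul_of_nonneg_right (le_trans (by linarith) (le_self_pow₀ (show (1 : ℝ) ≤ lam by linarith)
        (show (48 : ℕ) ≠ 0 by norm_num))) (by linarith)
    refine le_trans (le_of_eq ?_) (Real.exp_le_exp.2 h3)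
    rw [show 3 * lam = ((3 : ℕ) : ℝ) * lam by norm_num, Real.exp_nat_mul]
    simp only [lam, lamZ]
    rw [Real.exp_log (by simp only [L] at hL; linarith)]
  have a3 : 3 * ((pK Z : ℝ) + 2) + 1 + (L + 1) + (L + 2) * ((pK Z : ℝ) + 1) + 2 ≤ L ^ 3 := by
    have : (pK Z : ℝ) + 2 ≤ 22 * L := by linarith
    have h1 := mul_le_mul_of_nonneg_left this (show 0 ≤ L + 2 by linarith)
    have h2 : 1000 * L ^ 2 ≤ L ^ 3 := by
      rw [pow_succ' L 2]; exact mul_le_mul_of_nonneg_right hL (sq_nonneg _)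
    have h3 : 1000 * L ≤ L ^ 2 := by rw [sq]; exact mul_le_mul_of_nonneg_right hL (by linarith)
    linarith
  calc 2 * ((pK Z : ℝ) + 2) ^ 3 * Real.log Z * Real.exp ((L + 2) * ((pK Z : ℝ) + 1)) *
        Real.exp (-Real.exp (pT Z : ℝ))
      ≤ Real.exp (3 * ((pK Z : ℝ) + 2) + 1) * Real.exp (L + 1) * Real.exp ((L + 2) * ((pK Z : ℝ) + 1)) *
        Real.exp (-Real.exp (pT Z : ℝ)) := by gcongr
    _ = Real.exp (3 * ((pK Z : ℝ) + 2) + 1 + (L + 1) + (L + 2) * ((pK Z : ℝ) + 1) + -Real.exp (pT Z : ℝ)) := by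
        simp only [Real.exp_add]
    _ ≤ Real.exp (-2) := Real.exp_le_exp.2 (by linarith)
    _ ≤ 1 / 4 := by
        rw [Real.exp_neg, one_div]
        refine inv_anti₀ (by norm_num) ?_
        have := Real.quadratic_le_exp_of_nonneg (show (0 : ℝ) ≤ 2 by norm_num)
        linarith

/-- Few representations have a value with a large square factor. -/
lemma few_bad (h : LNum CS Z) (S : Finset (Finset ℕ))
    (hS : ∀ F ∈ S, (∃ p l, RepOK Z w F p l) ∧ ¬ RoughSqfree (pT Z) (shiftProd F)) :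
    (S.card : ℝ) ≤ Z / Real.log Z / 4 := by
  have hZ := h.Z2
  obtain ⟨-, hlogZ, hlog0⟩ := log_bounds h
  set f : Finset ℕ → List ℕ := fun F => F.toList.map (· - 1)
  have hpr : ∀ F ∈ S, ∀ q ∈ F, q.Prime := fun F hF q hq => by
    obtain ⟨p, l, hr⟩ := (hS F hF).1
    exact (hr.normal q hq).1
  have hinj : Set.InjOn f S := fun a ha b hb hab => by
    have := congrArg (List.map (· + 1)) hab
    simp only [f] at this
    rw [toList_back a fun q hq => (hpr a ha q hq).one_le,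
      toList_back b fun q hq => (hpr b hb q hq).one_le] at this
    rw [← toList_toFinset a, ← toList_toFinset b, this]
  set E := Real.exp (Real.exp (pT Z : ℝ))
  set N := ⌊E⌋₊
  have hE : 1 ≤ E := Real.one_le_exp (Real.exp_pos _).le
  have hN : 1 ≤ N := Nat.le_floor (by exact_mod_cast hE)
  have hNr : ∀ r : ℕ, pT Z < kap r → N < r := fun r hr => by
    have h1 := exp_exp_le (Nat.le_add_left 1 (pT Z)) hr
    have h2 : E < Real.exp (Real.exp ((pT Z + 1 : ℕ) : ℝ)) :=
      Real.exp_lt_exp.2 (Real.exp_lt_exp.2 (by exact_mod_cast Nat.lt_succ_self _))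
    have h3 : (N : ℝ) < r := lt_of_le_of_lt (Nat.floor_le (by linarith)) (lt_of_lt_of_le h2 h1)
    exact_mod_cast h3
  set H := 1 + Real.log ⌊Z⌋₊
  set M := Z * (((pK Z : ℝ) + 1) ^ 2 * H ^ (pK Z + 1) / N)
  have hH1 : 1 ≤ H := by simp only [H]; linarith [Real.log_natCast_nonneg ⌊Z⌋₊]
  have hcov : S.image f ⊆ (range (pK Z + 2)).biUnion fun j => (S.image f).filter fun l => l.length = j := by
    intro l hl
    obtain ⟨F, hF, rfl⟩ := mem_image.1 hl
    obtain ⟨p, l', hr⟩ := (hS F hF).1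
    refine mem_biUnion.2 ⟨_, mem_range.2 ?_, mem_filter.2 ⟨hl, rfl⟩⟩
    simp only [f, List.length_map, length_toList]
    have := hr.card_le
    omega
  have hj : ∀ j ∈ range (pK Z + 2), ((((S.image f).filter fun l => l.length = j).card : ℕ) : ℝ) ≤ M := by
    intro j hj
    have hj' : j ≤ pK Z + 1 := by have := mem_range.1 hj; omega
    refine (bad_count (Z := Z) (j := j) (by linarith) hN _ fun l hl => ?_).trans ?_
    · obtain ⟨hl, hlen⟩ := mem_filter.1 hl
      obtain ⟨F, hF, rfl⟩ := mem_image.1 hl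
      obtain ⟨⟨p, l', hr⟩, hsq⟩ := hS F hF
      have hprod : (f F).prod = shiftProd F := prod_map_toList F _
      refine ⟨hlen, fun x hx => ?_, by rw [hprod]; exact hr.val, ?_⟩
      · obtain ⟨q, hq, rfl⟩ := List.mem_map.1 hx
        have := (hpr F hF q (mem_toList.1 hq)).two_le
        omega
      · simp only [RoughSqfree, not_forall, not_not] at hsq
        obtain ⟨r, hr1, hr2, hr3⟩ := hsq
        exact ⟨r, hr1, hNr r hr2, hprod ▸ hr3⟩
    · refine mul_le_mul_of_nonneg_left (div_le_div_of_nonneg_right (mul_le_mul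
        (pow_le_pow_left₀ (Nat.cast_nonneg _) (by exact_mod_cast hj') 2) (pow_le_pow_right₀ hH1 hj')
        (pow_nonneg (by linarith) _) (by positivity)) (Nat.cast_nonneg _)) (by linarith)
  have hcard : (S.card : ℝ) ≤ ((pK Z : ℝ) + 2) * M := by
    rw [← card_image_of_injOn hinj]
    refine (Nat.cast_le.2 ((card_le_card hcov).trans card_biUnion_le)).trans ?_
    rw [Nat.cast_sum]
    refine (sum_le_card_nsmul _ _ _ hj).trans_eq ?_
    rw [card_range, nsmul_eq_mul]
    push_cast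
    rfl
  have hHu : H ^ (pK Z + 1) ≤ Real.exp (((LL Z : ℝ) + 2) * ((pK Z : ℝ) + 1)) := by
    have h1 : H ≤ Real.exp ((LL Z : ℝ) + 2) := by
      have hfz : (1 : ℝ) ≤ (⌊Z⌋₊ : ℝ) := by exact_mod_cast Nat.le_floor (show ((1 : ℕ) : ℝ) ≤ Z by norm_num; linarith)
      have h2 := Real.log_le_log (by linarith) (Nat.floor_le (show 0 ≤ Z by linarith))
      have h3 : Real.exp ((LL Z : ℝ) + 2) = Real.exp ((LL Z : ℝ) + 1) * Real.exp 1 := by
        rw [← Real.exp_add]; congr 1; ring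
      have h4 : 2 ≤ Real.exp (1 : ℝ) := by linarith [Real.add_one_le_exp (1 : ℝ)]
      have h5 := mul_le_mul_of_nonneg_left h4 (Real.exp_pos ((LL Z : ℝ) + 1)).le
      have h6 := Real.one_le_exp (show (0 : ℝ) ≤ (LL Z : ℝ) + 1 by positivity)
      simp only [H]
      linarith
    refine (pow_le_pow_left₀ (by linarith) h1 _).trans_eq ?_
    rw [← Real.exp_nat_mul]
    push_cast
    ring_nf
  have hNu : 1 / (N : ℝ) ≤ 2 * Real.exp (-Real.exp (pT Z : ℝ)) := by
    have hN' : (1 : ℝ) ≤ N := by exact_mod_cast hN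
    have := Nat.lt_floor_add_one E
    rw [Real.exp_neg, ← div_eq_mul_inv, div_le_div_iff₀ (by linarith) (Real.exp_pos _)]
    simp only [E, N] at *
    linarith
  refine hcard.trans ?_
  have hn := mul_le_mul_of_nonneg_left (few_bad_numeric h) (show 0 ≤ Z / Real.log Z by positivity)
  refine le_trans ?_ (hn.trans (le_of_eq (by ring)))
  calc ((pK Z : ℝ) + 2) * M
      ≤ ((pK Z : ℝ) + 2) * (Z * (((pK Z : ℝ) + 2) ^ 2 * Real.exp (((LL Z : ℝ) + 2) * ((pK Z : ℝ) + 1)) *
          (2 * Real.exp (-Real.exp (pT Z : ℝ))))) := by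
        refine mul_le_mul_of_nonneg_left (mul_le_mul_of_nonneg_left ?_ (by linarith)) (by positivity)
        rw [div_eq_mul_one_div]
        refine mul_le_mul (mul_le_mul (pow_le_pow_left₀ (by positivity) (by linarith) 2) hHu
          (pow_nonneg (by linarith) _) (by positivity)) hNu (by positivity) (by positivity)
    _ = _ := by field_simp

/-- Few representations share their value. -/
lemma few_pairs (h : LNum CS Z) (hCS : 0 ≤ CS) {CM C₁ C₂ : ℝ}
    (hCM : ∀ k : ℕ, |(∑ p ∈ cell k, (1 : ℝ) / p) - 1| ≤ CM * Real.exp (-(k : ℝ)))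
    (hCM' : 1 + Real.exp (|CM| + 2) ≤ CS) (hC₁ : C₁ ≤ CS) (hC₂ : C₂ ≤ CS)
    (hS1 : ∀ (T K W k : ℕ), C₁ ≤ (T : ℝ) → K ≤ T → T < k → ∀ (β : ℝ) (P : Finset (Rep × Rep)),
      (∀ p ∈ P, CollPair T K W k β p) →
      (∑ p ∈ P, (1 : ℝ) / p.1.val) ≤ Real.exp (β - (k : ℝ) + C₁ * collErr T K W k))
    (hS2 : ∀ (T K W k : ℕ), C₂ ≤ (T : ℝ) → K ≤ T → T < k →
      ∀ (β X : ℝ) (P : Finset (Rep × Rep)), 3 ≤ X →
      (∀ p ∈ P, CollPair T K W k β p ∧ (p.1.val : ℝ) ≤ X) →
      (P.card : ℝ) ≤ X * Real.exp (β - 2 * (k : ℝ) + C₂ * collErr T K W k))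
    (hps : ∀ D : ℕ, 0 < D → ∀ S : Finset ℕ,
      (∀ p ∈ S, p.Prime ∧ (((p - 1) * D : ℕ) : ℝ) ≤ Z ∧ 4 / 5 * Real.log Z ≤ Real.log p) →
      (S.card : ℝ) ≤ 8 * (Z / Real.log Z) * (1 / (D : ℝ)))
    (hw : pM Z ≤ (w : ℝ)) (S : Finset (Finset ℕ))
    (hS : ∀ F ∈ S, (∃ p l, RepOK Z w F p l) ∧ RoughSqfree (pT Z) (shiftProd F)) :
    (((S ×ˢ S).filter fun x => x.1 ≠ x.2 ∧ shiftProd x.1 = shiftProd x.2).card : ℝ) ≤
      Z / Real.log Z / 4 := by
  have hZ := h.Z2
  obtain ⟨-, hlogZ, hlog0⟩ := log_bounds h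
  set X := Z / Real.log Z
  have hX : 0 ≤ X := by positivity
  set lam := lamZ Z
  have hl := h.lam
  set All := (S ×ˢ S).filter fun x => x.1 ≠ x.2 ∧ shiftProd x.1 = shiftProd x.2
  set P := All.filter fun x => topS (x.2 \ x.1) ≤ topS (x.1 \ x.2)
  have hor : ∀ x ∈ P, Oriented Z w x := fun x hx => by
    obtain ⟨hx, ht⟩ := mem_filter.1 hx
    obtain ⟨hm, hne, hv⟩ := mem_filter.1 hx
    obtain ⟨h1, h2⟩ := mem_product.1 hm
    exact ⟨(hS _ h1).1, (hS _ h2).1, hne, hv, (hS _ h1).2, ht⟩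
  have hsub : All ⊆ P ∪ P.image Prod.swap := fun x hx => by
    rcases le_total (topS (x.2 \ x.1)) (topS (x.1 \ x.2)) with ht | ht
    · exact mem_union_left _ (mem_filter.2 ⟨hx, ht⟩)
    · refine mem_union_right _ (mem_image.2 ⟨x.swap, mem_filter.2 ⟨?_, ht⟩, Prod.swap_swap x⟩)
      obtain ⟨hm, hne, hv⟩ := mem_filter.1 hx
      obtain ⟨h1, h2⟩ := mem_product.1 hm
      exact mem_filter.2 ⟨mem_product.2 ⟨h2, h1⟩, hne.symm, hv.symm⟩
  have herr : ∀ k : ℕ, 0 ≤ collErr (pT Z) (pK Z + 1) (pOm Z) k := fun k => by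
    refine mul_nonneg (by positivity) ?_
    have := Real.log_nonneg (show (1 : ℝ) ≤ (pOm Z : ℝ) + 2 by linarith [(Nat.cast_nonneg (pOm Z) : (0 : ℝ) ≤ _)])
    positivity
  have hsum := commons_sum h hCM hCM'
  set Sc := ∑ C ∈ commons Z, 1 / (shiftProd C : ℝ)
  have hsum0 : 0 ≤ Sc := sum_nonneg fun _ _ => by positivity
  have htop : ((P.filter fun x => LL Z ≤ topS (x.1 \ x.2) + 1).card : ℝ) ≤ X / 16 := by
    refine (count_top h.cs (CC := Real.exp (-(LL Z : ℝ) - (44 * lam ^ 2 + 10))) (fun k hk hk' X' P' hX' hP' => ?_)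
      (Real.exp_pos _).le (by linarith) _ fun x hx => ⟨hor x (mem_filter.1 hx).1, (mem_filter.1 hx).2⟩).trans ?_
    · refine (hS2 _ _ _ k (hC₂.trans h.CT) h.K1 (by have := h.cs.LT; omega) _ X' P' hX' hP').trans
        (mul_le_mul_of_nonneg_left (Real.exp_le_exp.2 ?_) (by linarith))
      have := top_exp h hCS hw hk hk'
      have := mul_le_mul_of_nonneg_right hC₂ (herr k)
      linarith
    · refine (mul_le_mul_of_nonneg_left hsum (by positivity)).trans ?_
      have hZX : Z ≤ X * Real.exp ((LL Z : ℝ) + 1) := by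
        refine le_trans (le_of_eq ?_) (mul_le_mul_of_nonneg_left hlogZ hX)
        simp only [X]; field_simp
      calc 2 * Z * Real.exp (-(LL Z : ℝ) - (44 * lam ^ 2 + 10)) * Real.exp (42 * lam ^ 2)
          ≤ 2 * (X * Real.exp ((LL Z : ℝ) + 1)) * Real.exp (-(LL Z : ℝ) - (44 * lam ^ 2 + 10)) *
              Real.exp (42 * lam ^ 2) := by gcongr
        _ = 2 * X * Real.exp ((LL Z : ℝ) + 1 + (-(LL Z : ℝ) - (44 * lam ^ 2 + 10)) + 42 * lam ^ 2) := by
            simp only [Real.exp_add]; ring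
        _ ≤ 2 * X * Real.exp (-9) := by
            gcongr
            linarith [sq_nonneg lam]
        _ ≤ 2 * X * (1 / 32) := by
            refine mul_le_mul_of_nonneg_left ?_ (by positivity)
            rw [Real.exp_neg, one_div]
            refine inv_anti₀ (by norm_num) ?_
            have := Real.quadratic_le_exp_of_nonneg (show (0 : ℝ) ≤ 9 by norm_num)
            linarith
        _ = _ := by ring
  have hlow : ((P.filter fun x => ¬ LL Z ≤ topS (x.1 \ x.2) + 1).card : ℝ) ≤ X / 16 := by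
    refine (count_low h.cs (CC := Real.exp (-(44 * lam ^ 2 + 20))) (fun k hk hk' P' hP' => ?_) hps hX
      (Real.exp_pos _).le _ fun x hx => ⟨hor x (mem_filter.1 hx).1, not_le.1 (mem_filter.1 hx).2⟩).trans ?_
    · refine (hS1 _ _ _ k (hC₁.trans h.CT) h.K1 (by have := h.cs.above; omega) _ P' hP').trans
        (Real.exp_le_exp.2 ?_)
      have := low_exp h hCS hk
      have := mul_le_mul_of_nonneg_right hC₁ (herr k)
      linarith
    · refine (mul_le_mul_of_nonneg_left hsum (by positivity)).trans ?_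
      have hL1 : (LL Z : ℝ) + 1 ≤ Real.exp (lam + 1) := by
        have h1 := h.one_L
        have e : (LL Z : ℝ) = Real.exp lam := (Real.exp_log (by linarith)).symm
        rw [Real.exp_add, ← e]
        have := mul_le_mul_of_nonneg_left (show 2 ≤ Real.exp (1 : ℝ) by linarith [Real.add_one_le_exp (1 : ℝ)])
          (show 0 ≤ (LL Z : ℝ) by linarith)
        linarith
      calc 8 * X * ((LL Z : ℝ) + 1) * Real.exp (-(44 * lam ^ 2 + 20)) * Real.exp (42 * lam ^ 2)
          ≤ 8 * X * Real.exp (lam + 1) * Real.exp (-(44 * lam ^ 2 + 20)) * Real.exp (42 * lam ^ 2) := by gcongr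
        _ = 8 * X * Real.exp (lam + 1 + -(44 * lam ^ 2 + 20) + 42 * lam ^ 2) := by
            simp only [Real.exp_add]; ring
        _ ≤ 8 * X * Real.exp (-19) := by
            gcongr
            nlinarith
        _ ≤ 8 * X * (1 / 128) := by
            refine mul_le_mul_of_nonneg_left ?_ (by positivity)
            rw [Real.exp_neg, one_div]
            refine inv_anti₀ (by norm_num) ?_
            have := Real.quadratic_le_exp_of_nonneg (show (0 : ℝ) ≤ 19 by norm_num)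
            linarith
        _ = _ := by ring
  have hsplit : ((P.filter fun x => LL Z ≤ topS (x.1 \ x.2) + 1).card : ℝ) +
      ((P.filter fun x => ¬ LL Z ≤ topS (x.1 \ x.2) + 1).card : ℝ) = P.card := by
    exact_mod_cast card_filter_add_card_filter_not (s := P) fun x => LL Z ≤ topS (x.1 \ x.2) + 1
  have hAll : (All.card : ℝ) ≤ P.card + P.card := by
    exact_mod_cast (card_le_card hsub).trans ((card_union_le _ _).trans (Nat.add_le_add_left card_image_le _))
  linarith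

/-- Values of good representations are totient values. -/
lemma image_le_Vcount (S : Finset (Finset ℕ))
    (hS : ∀ F ∈ S, ∃ p l, RepOK Z w F p l) : ((S.image shiftProd).card : ℝ) ≤ (Vcount Z : ℝ) := by
  rw [Nat.cast_le, Vcount, ← Set.ncard_coe_finset]
  refine Set.ncard_le_ncard (fun v hv => ?_) ((Set.finite_Iic ⌊Z⌋₊).subset fun v hv => Nat.le_floor hv.2)
  obtain ⟨F, hF, rfl⟩ := mem_image.1 (mem_coe.1 hv)
  obtain ⟨p, l, hr⟩ := hS F hF
  exact ⟨⟨_, totient_shiftProd F fun q hq => (hr.normal q hq).1⟩, hr.val⟩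

end Vale.Agent.P031.Lower

namespace Vale.Agent.P031

open Lower in
/-- Module `Lower`. -/
theorem lower : PNTStmt → MertensStmt → AbnormalSumStmt → AbnormalCountStmt → SieveProgStmt →
    CollSumStmt → CollCountStmt → LowerStmt := by
  intro hPNT hM hAS hAC _ hS1 hS2
  obtain ⟨CM, hCM⟩ := hM
  obtain ⟨cA, CA, hcA, hA⟩ := hAS
  obtain ⟨cB, CB, hcB, hB⟩ := hAC
  obtain ⟨C₁, hC₁⟩ := hS1
  obtain ⟨C₂, hC₂⟩ := hS2
  obtain ⟨Y₀, hY₀, hdy⟩ := dyad_count hPNT
  set CS := |C₁| + |C₂| + (|CM| + |CA| / cA + 1) + (100 * (|CB| / cB) + Real.log Y₀ + 1) +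
    (1 + Real.exp (|CM| + 2)) with hCSdef
  have n1 : 0 ≤ |C₁| := abs_nonneg _
  have n2 : 0 ≤ |C₂| := abs_nonneg _
  have n3 : 0 ≤ |CM| + |CA| / cA + 1 := by positivity
  have n4 : 0 ≤ 100 * (|CB| / cB) + Real.log Y₀ + 1 := by
    have := Real.log_nonneg (show (1 : ℝ) ≤ Y₀ by linarith)
    positivity
  have n5 : 0 ≤ 1 + Real.exp (|CM| + 2) := by positivity
  refine ⟨1 / 5, by norm_num, ?_⟩
  filter_upwards [eventually_num CS, few_tops] with Z h hps w G hw hG
  have hZ := h.Z2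
  obtain ⟨-, -, hlog0⟩ := log_bounds h
  set X := Z / Real.log Z
  have hX : 0 ≤ X := by positivity
  set I := G.sigma fun l => (tupN l).sigma fun ts => psOf Z (tD ts)
  have hI : ∀ x ∈ I, x.1 ∈ G ∧ x.2.1 ∈ tupN x.1 ∧ x.2.2 ∈ psOf Z (tD x.2.1) := fun x hx => by
    obtain ⟨h1, h2⟩ := mem_sigma.1 hx
    exact ⟨h1, mem_sigma.1 h2⟩
  set R := I.image fun x => repSet x.2.2 x.2.1
  have hinj : Set.InjOn (fun x : (_ : List ℕ) × (_ : List ℕ) × ℕ => repSet x.2.2 x.2.1) I := by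
    rintro ⟨l, ts, p⟩ hx ⟨l', ts', p'⟩ hy he
    obtain ⟨h1, h2, h3⟩ := hI _ hx
    obtain ⟨h1', h2', h3'⟩ := hI _ hy
    obtain ⟨rfl, rfl, rfl⟩ := rep_inj h (hG l h1) (hG l' h1') h2 h2' h3 h3' he
    rfl
  have hR : ∀ F ∈ R, ∃ p l, RepOK Z w F p l := fun F hF => by
    obtain ⟨x, hx, rfl⟩ := mem_image.1 hF
    obtain ⟨h1, h2, h3⟩ := hI x hx
    exact ⟨_, _, (rep_ok h (hG _ h1) h2 h3).1⟩
  have hlb : 1 / 5 * X * (G.card : ℝ) ≤ (R.card : ℝ) := by
    rw [show R.card = I.card from card_image_of_injOn hinj, card_sigma, Nat.cast_sum]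
    refine le_trans (le_of_eq ?_) (card_nsmul_le_sum G _ (1 / 5 * X) fun l hl => ?_)
    · rw [nsmul_eq_mul]; ring
    · rw [card_sigma, Nat.cast_sum]
      refine le_trans ?_ (sum_le_sum fun ts hts => ps_count h hcB hB hY₀ hdy (by linarith) (hG l hl) hts)
      rw [← mul_sum]
      refine le_trans (le_of_eq ?_) (mul_le_mul_of_nonneg_left (weight h hcA hCM hA (by linarith) (hG l hl))
        (by positivity))
      ring
  set Good := R.filter fun F => RoughSqfree (pT Z) (shiftProd F)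
  set Bad := R.filter fun F => ¬ RoughSqfree (pT Z) (shiftProd F)
  have hbad : (Bad.card : ℝ) ≤ X / 4 :=
    few_bad (w := w) h Bad fun F hF => ⟨hR F (mem_filter.1 hF).1, (mem_filter.1 hF).2⟩
  have hpair := few_pairs h (by linarith) hCM (by linarith) (le_trans (le_abs_self C₁) (by linarith))
    (le_trans (le_abs_self C₂) (by linarith)) hC₁ hC₂ hps hw Good
    fun F hF => ⟨hR F (mem_filter.1 hF).1, (mem_filter.1 hF).2⟩
  have himg := image_le_Vcount (w := w) Good fun F hF => hR F (mem_filter.1 hF).1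
  have hgood : (Good.card : ℝ) ≤ ((Good.image shiftProd).card : ℝ) +
      (((Good ×ˢ Good).filter fun x => x.1 ≠ x.2 ∧ shiftProd x.1 = shiftProd x.2).card : ℝ) := by
    exact_mod_cast card_le_image_add Good shiftProd
  have hsplit : (Good.card : ℝ) + (Bad.card : ℝ) = R.card := by
    exact_mod_cast card_filter_add_card_filter_not (s := R) fun F => RoughSqfree (pT Z) (shiftProd F)
  linarith

end Vale.Agent.P031
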