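import Vale.Agent.P031.Asm.LowerParts

/-!
# Lower bound: representations from good lists rarely collide
-/

open Finset Filter Topology
open scoped Classical

namespace Vale.Agent.P031.Lower

open Boundary (Qf_mono)

/-- A representation: a set of normal primes with distinct levels, one at the top and the others
following a good list. -/
structure RepOK (Z : ℝ) (w : ℕ) (F : Finset ℕ) (p : ℕ) (l : List ℕ) : Prop where
  good : GoodList (LL Z) (pH2 Z) w (lamZ Z ^ (-(6 : ℝ))) l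
  len : l.length ≤ pK Z
  mem : p ∈ F
  normal : ∀ q ∈ F, Normal q
  top_lo : LL Z ≤ kap p + 1
  top_hi : kap p ≤ LL Z
  low : ∀ q ∈ F, q ≠ p → kap q ∈ l
  inj : Set.InjOn kap F
  val : (shiftProd F : ℝ) ≤ Z
  plog : 4 / 5 * Real.log Z ≤ Real.log p

/-- Scale facts used here. -/
structure CScale (Z : ℝ) : Prop where
  gap : 2 ≤ lamZ Z ^ (-(6 : ℝ)) * (LL Z : ℝ)
  eps : 0 ≤ lamZ Z ^ (-(6 : ℝ))
  above : 2 * pT Z + 4 ≤ pH2 Z
  LT : pT Z + 4 ≤ LL Z

lemma budS_le_budL {T x : ℕ} {S : Finset ℕ} {b : List ℕ} (hx : topS S ≤ x)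
    (h : ∀ s ∈ Ioc T (topS S), lamS S s ≤ (x :: b).countP (fun y => s ≤ y)) :
    budS T S ≤ budL (x :: b) := by
  calc budS T S ≤ ∑ s ∈ Ioc T (topS S), Qf ((x :: b).countP (fun y => s ≤ y)) := by
        refine sum_le_sum fun s hs => Qf_mono ?_ (h s hs)
        obtain ⟨h1, h2⟩ := mem_Ioc.1 hs
        have hne : S.Nonempty := by
          by_contra he
          rw [not_nonempty_iff_eq_empty] at he
          simp [he, topS] at h2
          omega
        obtain ⟨q, hq, hqe⟩ := exists_mem_eq_sup _ hne kap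
        exact card_pos.2 ⟨q, mem_filter.2 ⟨hq, h2.trans hqe.le⟩⟩
    _ ≤ _ := by
        refine sum_le_sum_of_subset_of_nonneg (fun s hs => ?_) fun s _ _ => Boundary.Qf_nonneg _
        obtain ⟨h1, h2⟩ := mem_Ioc.1 hs
        exact mem_Ioc.2 ⟨lt_of_le_of_lt (Nat.zero_le T) h1, h2.trans hx⟩

lemma countP_nodup {l : List ℕ} (h : l.Nodup) (s : ℕ) :
    (l.toFinset.filter (fun y => s ≤ y)).card = l.countP (fun y => s ≤ y) := by
  rw [List.countP_eq_length_filter, ← List.toFinset_card_of_nodup (h.filter _)]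
  congr 1
  ext q
  simp

lemma bigOm_prod (S : Finset ℕ) (h : ∀ q ∈ S, q - 1 ≠ 0) :
    bigOm (shiftProd S) = ∑ q ∈ S, bigOm (q - 1) := by
  induction S using Finset.induction with
  | empty => simp [shiftProd, bigOm]
  | @insert a S ha ih =>
    have hS : ∀ q ∈ S, q - 1 ≠ 0 := fun q hq => h q (mem_insert_of_mem hq)
    have := ih hS
    simp only [shiftProd] at this ⊢
    rw [prod_insert ha, sum_insert ha, ← this]
    simp only [bigOm]
    rw [(Nat.perm_primeFactorsList_mul (h a (mem_insert_self a S))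
      (prod_ne_zero_iff.2 hS)).length_eq, List.length_append]

lemma three_le {q : ℕ} (hk : 2 ≤ kap q) : 4 ≤ q := by
  have h := exp_exp_le (by norm_num : 1 ≤ 2) hk
  have h2 := Real.add_one_le_exp (2 : ℝ)
  have h3 := Real.add_one_le_exp (Real.exp (2 : ℝ))
  push_cast at h
  exact_mod_cast (show (4 : ℝ) ≤ q by linarith)

lemma shiftProd_pos {S : Finset ℕ} (h : ∀ q ∈ S, q.Prime) : 0 < shiftProd S :=
  prod_pos fun q hq => by have := (h q hq).two_le; omega

lemma shiftProd_union {A B : Finset ℕ} (h : Disjoint A B) :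
    shiftProd (A ∪ B) = shiftProd A * shiftProd B := prod_union h

variable {Z : ℝ} {w : ℕ} {F S : Finset ℕ} {p : ℕ} {l : List ℕ}

lemma RepOK.nodup (h : RepOK Z w F p l) : (LL Z :: l).Nodup :=
  h.good.1.imp fun hab => (ne_of_gt hab)

lemma RepOK.low_lt (h : RepOK Z w F p l) (hS : CScale Z) {x : ℕ} (hx : x ∈ l) : x + 1 < LL Z := by
  have := h.good.2.2.2.2 x hx
  have := hS.gap
  exact_mod_cast (show (x : ℝ) + 1 < LL Z by linarith)

lemma RepOK.level (h : RepOK Z w F p l) (hS : CScale Z) {q : ℕ} (hq : q ∈ F) :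
    pT Z + 2 ≤ kap q ∧ kap q ≤ LL Z := by
  by_cases hqp : q = p
  · subst hqp
    exact ⟨by have := hS.LT; have := h.top_lo; omega, h.top_hi⟩
  · have h1 := h.good.2.1 _ (h.low q hq hqp)
    have h2 := h.low_lt hS (h.low q hq hqp)
    have := hS.above
    omega

lemma RepOK.top_unique (h : RepOK Z w F p l) (hS : CScale Z) {q : ℕ} (hq : q ∈ F)
    (hk : LL Z ≤ kap q + 1) : q = p := by
  by_contra hqp
  have := h.low_lt hS (h.low q hq hqp)
  omega

lemma RepOK.card_le (h : RepOK Z w F p l) : F.card ≤ pK Z + 1 := by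
  refine le_trans (card_le_card_of_injOn kap (t := insert (kap p) l.toFinset) (fun q hq => ?_) h.inj) ?_
  · by_cases hqp : q = p
    · simp [hqp]
    · exact mem_insert_of_mem (List.mem_toFinset.2 (h.low q hq hqp))
  · exact (card_insert_le _ _).trans (Nat.add_le_add_right ((List.toFinset_card_le l).trans h.len) 1)

lemma RepOK.bud_all (h : RepOK Z w F p l) (hS : CScale Z) (hSF : S ⊆ F) :
    budS (pT Z) S ≤ (LL Z : ℝ) - 2 * w := by
  refine le_trans (budS_le_budL (Finset.sup_le fun q hq => (h.level hS (hSF hq)).2) fun s hs => ?_)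
    h.good.2.2.2.1
  have hsL : s ≤ LL Z := (mem_Ioc.1 hs).2.trans (Finset.sup_le fun q hq => (h.level hS (hSF hq)).2)
  rw [lamS, List.countP_cons_of_pos (by simpa using hsL), ← countP_nodup (List.nodup_cons.1 h.nodup).2]
  refine le_trans (card_le_card (show S.filter (fun q => s ≤ kap q) ⊆
    insert p ((F.erase p).filter (fun q => s ≤ kap q)) from fun q hq => ?_)) ((card_insert_le _ _).trans
      (Nat.add_le_add_right (card_le_card_of_injOn kap (fun q hq => ?_) (h.inj.mono fun q hq => ?_)) 1))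
  · obtain ⟨h1, h2⟩ := mem_filter.1 hq
    by_cases hqp : q = p
    · simp [hqp]
    · exact mem_insert_of_mem (mem_filter.2 ⟨mem_erase.2 ⟨hqp, hSF h1⟩, h2⟩)
  · obtain ⟨h1, h2⟩ := mem_filter.1 hq
    exact mem_filter.2 ⟨List.mem_toFinset.2 (h.low q (mem_of_mem_erase h1) (ne_of_mem_erase h1)), h2⟩
  · exact mem_of_mem_erase (mem_filter.1 hq).1

lemma RepOK.bud_low (h : RepOK Z w F p l) (hSF : S ⊆ F.erase p) (hne : S.Nonempty) :
    budS (pT Z) S ≤ (1 - lamZ Z ^ (-(6 : ℝ))) * (topS S : ℝ) ∧ pH2 Z < 2 * topS S := by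
  obtain ⟨q, hq, hqe⟩ := exists_mem_eq_sup _ hne kap
  have hk : topS S ∈ l := by
    rw [show topS S = kap q from hqe]
    exact h.low q (mem_of_mem_erase (hSF hq)) (ne_of_mem_erase (hSF hq))
  obtain ⟨a, b, hab⟩ := List.mem_iff_append.1 hk
  have hsuf : topS S :: b <:+ l := ⟨a, hab.symm⟩
  refine ⟨le_trans (budS_le_budL le_rfl fun s hs => ?_) (h.good.2.2.1 _ hsuf (List.cons_ne_nil _ _)),
    h.good.2.1 _ hk⟩
  have hnd : (topS S :: b).Nodup := (List.nodup_cons.1 h.nodup).2.sublist hsuf.sublist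
  rw [lamS, ← countP_nodup hnd]
  refine card_le_card_of_injOn kap (fun r hr => ?_) (h.inj.mono fun r hr => mem_of_mem_erase (hSF (mem_filter.1 hr).1))
  obtain ⟨h1, h2⟩ := mem_filter.1 hr
  refine mem_filter.2 ⟨List.mem_toFinset.2 ?_, h2⟩
  have hrl := h.low r (mem_of_mem_erase (hSF h1)) (ne_of_mem_erase (hSF h1))
  rw [hab, List.mem_append] at hrl
  refine hrl.resolve_left fun hra => ?_
  have hpw := (List.pairwise_cons.1 h.good.1).2
  rw [hab, List.pairwise_append] at hpw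
  have := hpw.2.2 _ hra _ (List.mem_cons_self ..)
  have : kap r ≤ topS S := le_sup h1
  omega

/-- Common parts. -/
noncomputable def commons (Z : ℝ) : Finset (Finset ℕ) :=
  ((Ioc (pT Z) (LL Z)).biUnion cell).powerset.filter fun C => C.card ≤ pK Z + 1

lemma RepOK.common (h : RepOK Z w F p l) (hS : CScale Z) (hSF : S ⊆ F) : S ∈ commons Z := by
  refine mem_filter.2 ⟨mem_powerset.2 fun q hq => mem_biUnion.2 ⟨kap q, mem_Ioc.2 ⟨?_, ?_⟩,
    mem_cell.2 ⟨(h.normal q (hSF hq)).1, rfl⟩⟩, (card_le_card hSF).trans h.card_le⟩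
  · have := (h.level hS (hSF hq)).1; omega
  · exact (h.level hS (hSF hq)).2

/-- The bound on `bigOm`. -/
noncomputable def pOm (Z : ℝ) : ℕ := 20 * (pK Z + 1) * (LL Z + 1)

/-- A colliding pair with the larger top first. -/
def Oriented (Z : ℝ) (w : ℕ) (x : Finset ℕ × Finset ℕ) : Prop :=
  (∃ p l, RepOK Z w x.1 p l) ∧ (∃ p l, RepOK Z w x.2 p l) ∧ x.1 ≠ x.2 ∧
    shiftProd x.1 = shiftProd x.2 ∧ RoughSqfree (pT Z) (shiftProd x.1) ∧
    topS (x.2 \ x.1) ≤ topS (x.1 \ x.2)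

/-- What is used from an oriented pair. -/
lemma oriented_facts (hS : CScale Z) {x : Finset ℕ × Finset ℕ} (hx : Oriented Z w x) :
    (x.1 \ x.2).Nonempty ∧ x.1 ∩ x.2 ∈ commons Z ∧
      shiftProd (x.1 \ x.2) = shiftProd (x.2 \ x.1) ∧
      (shiftProd (x.1 \ x.2) * shiftProd (x.1 ∩ x.2) = shiftProd x.1) ∧
      ∀ β : ℝ, budS (pT Z) (x.1 \ x.2) ≤ β →
        CollPair (pT Z) (pK Z + 1) (pOm Z) (topS (x.1 \ x.2)) β ((x.1 \ x.2, 1), (x.2 \ x.1, 1)) := by
  obtain ⟨⟨p, l, h1⟩, ⟨p', l', h2⟩, hne, hval, hsq, hor⟩ := hx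
  set A := x.1 \ x.2
  set B := x.2 \ x.1
  set C := x.1 ∩ x.2
  have eA : shiftProd A * shiftProd C = shiftProd x.1 := by
    rw [← shiftProd_union (disjoint_sdiff_inter _ _), sdiff_union_inter]
  have eB : shiftProd B * shiftProd C = shiftProd x.2 := by
    have : C = x.2 ∩ x.1 := inter_comm _ _
    rw [this, ← shiftProd_union (disjoint_sdiff_inter _ _), sdiff_union_inter]
  have hC : 0 < shiftProd C := shiftProd_pos fun q hq => (h1.normal q (mem_inter.1 hq).1).1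
  have hAB : shiftProd A = shiftProd B := Nat.eq_of_mul_eq_mul_right hC (by rw [eA, eB, hval])
  have hA : A.Nonempty := by
    by_contra he
    rw [not_nonempty_iff_eq_empty] at he
    have hB : B = ∅ := eq_empty_of_forall_notMem fun q hq => by
      have h' := (le_sup (f := kap) hq : kap q ≤ topS B).trans hor
      rw [he] at h'
      have := (h2.level hS (mem_sdiff.1 hq).1).1
      simp [topS] at h'
      omega
    exact hne (le_antisymm (sdiff_eq_empty_iff_subset.1 he) (sdiff_eq_empty_iff_subset.1 hB))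
  refine ⟨hA, h1.common hS inter_subset_left, hAB, eA, fun β hβ => ?_⟩
  have hdvd : shiftProd A ∣ shiftProd x.1 := ⟨_, eA.symm⟩
  refine ⟨hA, (card_le_card sdiff_subset).trans h1.card_le, (card_le_card sdiff_subset).trans h2.card_le,
    disjoint_sdiff_sdiff, fun q hq => ⟨h1.normal q (mem_sdiff.1 hq).1, ?_⟩,
    fun q hq => ⟨(h2.normal q (mem_sdiff.1 hq).1).1, ?_⟩, Nat.one_pos, Nat.one_pos, by simp [Smooth],
    by simp [Smooth], rfl, hor, hβ, ?_, ?_, ?_⟩
  · have := (h1.level hS (mem_sdiff.1 hq).1).1; omega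
  · have := (h2.level hS (mem_sdiff.1 hq).1).1; omega
  · simp only [Rep.val, mul_one]; exact hAB
  · simp only [Rep.val, mul_one]
    exact fun r hr hk hd => hsq r hr hk (hd.trans hdvd)
  · simp only [Rep.val, mul_one]
    rw [bigOm_prod _ fun q hq => by have := ((h1.normal q (mem_sdiff.1 hq).1).1).two_le; omega]
    refine (sum_le_card_nsmul _ _ (20 * (LL Z + 1)) fun q hq => ?_).trans ?_
    · refine (h1.normal q (mem_sdiff.1 hq).1).2.1.trans ?_
      have := (h1.level hS (mem_sdiff.1 hq).1).2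
      omega
    · rw [smul_eq_mul, pOm]
      calc A.card * (20 * (LL Z + 1)) ≤ (pK Z + 1) * (20 * (LL Z + 1)) :=
            Nat.mul_le_mul_right _ ((card_le_card sdiff_subset).trans h1.card_le)
        _ = _ := by ring

/-- Pairs whose tops differ. -/
lemma count_top (hS : CScale Z) {CC : ℝ}
    (hColl : ∀ (k : ℕ), LL Z ≤ k + 1 → k ≤ LL Z → ∀ (X : ℝ) (P : Finset (Rep × Rep)), 3 ≤ X →
      (∀ q ∈ P, CollPair (pT Z) (pK Z + 1) (pOm Z) k ((LL Z : ℝ) - 2 * w) q ∧ (q.1.val : ℝ) ≤ X) →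
      (P.card : ℝ) ≤ X * CC)
    (hCC : 0 ≤ CC) (hZ : 0 ≤ Z) (P : Finset (Finset ℕ × Finset ℕ))
    (hP : ∀ x ∈ P, Oriented Z w x ∧ LL Z ≤ topS (x.1 \ x.2) + 1) :
    (P.card : ℝ) ≤ 2 * Z * CC * ∑ C ∈ commons Z, 1 / (shiftProd C : ℝ) := by
  set Q : ℕ → Finset ℕ → Finset (Rep × Rep) := fun k C =>
    (P.filter fun x => topS (x.1 \ x.2) = k ∧ x.1 ∩ x.2 = C).image fun x => ((x.1 \ x.2, 1), (x.2 \ x.1, 1))
  have hcov : P ⊆ (Icc (LL Z - 1) (LL Z)).biUnion fun k => (commons Z).biUnion fun C =>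
      (Q k C).image fun q => (q.1.1 ∪ C, q.2.1 ∪ C) := by
    intro x hx
    obtain ⟨hor, hlo⟩ := hP x hx
    obtain ⟨hA, hC, -⟩ := oriented_facts hS hor
    obtain ⟨q, hq, hqe⟩ := exists_mem_eq_sup _ hA kap
    obtain ⟨p, l, h1⟩ := hor.1
    have hhi : topS (x.1 \ x.2) ≤ LL Z := le_of_eq_of_le hqe (h1.level hS (mem_sdiff.1 hq).1).2
    simp only [mem_biUnion, mem_image]
    refine ⟨topS (x.1 \ x.2), mem_Icc.2 ⟨by omega, hhi⟩, _, hC, _,
      mem_image.2 ⟨x, mem_filter.2 ⟨hx, rfl, rfl⟩, rfl⟩, ?_⟩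
    simp only [sdiff_union_inter]
    rw [inter_comm, sdiff_union_inter]
  have hpt : ∀ k ∈ Icc (LL Z - 1) (LL Z), ∀ C ∈ commons Z,
      ((Q k C).card : ℝ) ≤ Z * (1 / (shiftProd C : ℝ)) * CC := by
    intro k hk C hC
    obtain ⟨hk1, hk2⟩ := mem_Icc.1 hk
    rcases (Q k C).eq_empty_or_nonempty with he | hne
    · rw [he, card_empty, Nat.cast_zero]; positivity
    have hCp : 0 < shiftProd C := shiftProd_pos fun q hq => by
      obtain ⟨j, -, hj⟩ := mem_biUnion.1 ((mem_powerset.1 (mem_filter.1 hC).1) hq)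
      exact (mem_cell.1 hj).1
    have hall : ∀ q ∈ Q k C, CollPair (pT Z) (pK Z + 1) (pOm Z) k ((LL Z : ℝ) - 2 * w) q ∧
        (q.1.val : ℝ) ≤ Z * (1 / (shiftProd C : ℝ)) ∧ 3 ≤ (q.1.val : ℝ) := by
      intro q hq
      obtain ⟨x, hx, rfl⟩ := mem_image.1 hq
      obtain ⟨hxP, rfl, rfl⟩ := mem_filter.1 hx
      obtain ⟨hor, hlo⟩ := hP x hxP
      obtain ⟨hA, -, -, eA, hcp⟩ := oriented_facts hS hor
      obtain ⟨p, l, h1⟩ := hor.1
      refine ⟨hcp _ (h1.bud_all hS sdiff_subset), ?_, ?_⟩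
      · simp only [Rep.val, mul_one]
        rw [mul_one_div, le_div_iff₀ (by exact_mod_cast hCp)]
        exact le_trans (le_of_eq (by exact_mod_cast eA)) h1.val
      · simp only [Rep.val, mul_one]
        obtain ⟨q, hq⟩ := hA
        have h4 := three_le (q := q) (by have := (h1.level hS (mem_sdiff.1 hq).1).1; omega)
        have : q - 1 ≤ shiftProd (x.1 \ x.2) := Nat.le_of_dvd
          (shiftProd_pos fun r hr => (h1.normal r (mem_sdiff.1 hr).1).1) (dvd_prod_of_mem _ hq)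
        exact_mod_cast (show 3 ≤ shiftProd (x.1 \ x.2) by omega)
    obtain ⟨q, hq⟩ := hne
    exact hColl k (by omega) hk2 _ _ (le_trans (hall q hq).2.2 (hall q hq).2.1)
      fun q hq => ⟨(hall q hq).1, (hall q hq).2.1⟩
  have hsum : ∀ k ∈ Icc (LL Z - 1) (LL Z), ((((commons Z).biUnion fun C =>
      (Q k C).image fun q => (q.1.1 ∪ C, q.2.1 ∪ C)).card : ℕ) : ℝ) ≤
        Z * CC * ∑ C ∈ commons Z, 1 / (shiftProd C : ℝ) := by
    intro k hk
    refine (Nat.cast_le.2 card_biUnion_le).trans ?_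
    rw [Nat.cast_sum, mul_sum]
    refine sum_le_sum fun C hC => (Nat.cast_le.2 card_image_le).trans ((hpt k hk C hC).trans_eq ?_)
    ring
  refine (Nat.cast_le.2 ((card_le_card hcov).trans card_biUnion_le)).trans ?_
  rw [Nat.cast_sum]
  refine (sum_le_card_nsmul _ _ _ hsum).trans ?_
  rw [nsmul_eq_mul, mul_assoc 2 Z, mul_assoc 2]
  refine mul_le_mul_of_nonneg_right ?_ (mul_nonneg (mul_nonneg hZ hCC) (sum_nonneg fun _ _ => by positivity))
  rw [Nat.card_Icc]
  exact_mod_cast (show LL Z + 1 - (LL Z - 1) ≤ 2 by omega)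

/-- Pairs with the same top prime. -/
lemma count_low (hS : CScale Z) {CC : ℝ}
    (hColl : ∀ (k : ℕ), pH2 Z < 2 * k → k ≤ LL Z → ∀ (P : Finset (Rep × Rep)),
      (∀ q ∈ P, CollPair (pT Z) (pK Z + 1) (pOm Z) k ((1 - lamZ Z ^ (-(6 : ℝ))) * k) q) →
      ∑ q ∈ P, (1 : ℝ) / q.1.val ≤ CC)
    (hps : ∀ (D : ℕ), 0 < D → ∀ S : Finset ℕ,
      (∀ p ∈ S, p.Prime ∧ (((p - 1) * D : ℕ) : ℝ) ≤ Z ∧ 4 / 5 * Real.log Z ≤ Real.log p) →
      (S.card : ℝ) ≤ 8 * (Z / Real.log Z) * (1 / (D : ℝ)))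
    (hX : 0 ≤ Z / Real.log Z) (hCC : 0 ≤ CC) (P : Finset (Finset ℕ × Finset ℕ))
    (hP : ∀ x ∈ P, Oriented Z w x ∧ topS (x.1 \ x.2) + 1 < LL Z) :
    (P.card : ℝ) ≤ 8 * (Z / Real.log Z) * ((LL Z : ℝ) + 1) * CC * ∑ C ∈ commons Z, 1 / (shiftProd C : ℝ) := by
  set cpr : Finset ℕ × Finset ℕ → ℕ := fun x => ((x.1 ∩ x.2).filter fun q => LL Z ≤ kap q + 1).sup id
  set Q : ℕ → Finset ℕ → Finset (Rep × Rep) := fun k C =>
    (P.filter fun x => topS (x.1 \ x.2) = k ∧ (x.1 ∩ x.2).erase (cpr x) = C).image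
      fun x => ((x.1 \ x.2, 1), (x.2 \ x.1, 1))
  set ps : ℕ → Finset ℕ := fun D => (range (⌊Z⌋₊ + 2)).filter fun p => p.Prime ∧
    (((p - 1) * D : ℕ) : ℝ) ≤ Z ∧ 4 / 5 * Real.log Z ≤ Real.log p
  have hkey : ∀ x ∈ P, pH2 Z < 2 * topS (x.1 \ x.2) ∧ (x.1 ∩ x.2).erase (cpr x) ∈ commons Z ∧
      CollPair (pT Z) (pK Z + 1) (pOm Z) (topS (x.1 \ x.2))
        ((1 - lamZ Z ^ (-(6 : ℝ))) * (topS (x.1 \ x.2) : ℝ)) ((x.1 \ x.2, 1), (x.2 \ x.1, 1)) ∧
      cpr x ∈ x.1 ∩ x.2 ∧ cpr x ∈ ps (shiftProd ((x.1 ∩ x.2).erase (cpr x)) * shiftProd (x.1 \ x.2)) := by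
    intro x hx
    obtain ⟨hor, hlo⟩ := hP x hx
    obtain ⟨hA, hC, -, eA, hcp⟩ := oriented_facts hS hor
    obtain ⟨p, l, h1⟩ := hor.1
    have hpC : p ∈ x.1 ∩ x.2 := by
      refine mem_inter.2 ⟨h1.mem, ?_⟩
      by_contra hn
      have h' : kap p ≤ topS (x.1 \ x.2) := le_sup (mem_sdiff.2 ⟨h1.mem, hn⟩)
      have := h1.top_lo
      omega
    have hcpr : cpr x = p := by
      refine le_antisymm (Finset.sup_le fun q hq => ?_) (le_sup (f := id) (mem_filter.2 ⟨hpC, h1.top_lo⟩))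
      obtain ⟨hq1, hq2⟩ := mem_filter.1 hq
      exact (h1.top_unique hS (mem_inter.1 hq1).1 hq2).le
    have hsub : x.1 \ x.2 ⊆ x.1.erase p := fun q hq => mem_erase.2
      ⟨fun hqp => (mem_sdiff.1 hq).2 (hqp ▸ (mem_inter.1 hpC).2), (mem_sdiff.1 hq).1⟩
    obtain ⟨hb, hk⟩ := h1.bud_low hsub hA
    rw [hcpr]
    refine ⟨hk, h1.common hS ((erase_subset _ _).trans inter_subset_left), hcp _ hb, hpC, ?_⟩
    have hpp := (h1.normal p h1.mem).1
    have e : (p - 1) * (shiftProd ((x.1 ∩ x.2).erase p) * shiftProd (x.1 \ x.2)) = shiftProd x.1 := by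
      rw [← mul_assoc, ← eA, mul_comm (shiftProd (x.1 \ x.2))]
      congr 1
      exact mul_prod_erase _ (fun q => q - 1) hpC
    have hDpos : 0 < shiftProd ((x.1 ∩ x.2).erase p) * shiftProd (x.1 \ x.2) := Nat.mul_pos
      (shiftProd_pos fun q hq => (h1.normal q (mem_inter.1 (mem_of_mem_erase hq)).1).1)
      (shiftProd_pos fun q hq => (h1.normal q (mem_sdiff.1 hq).1).1)
    refine mem_filter.2 ⟨mem_range.2 ?_, hpp, by rw [e]; exact h1.val, h1.plog⟩
    have h2 : p - 1 ≤ shiftProd x.1 := e ▸ Nat.le_mul_of_pos_right _ hDpos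
    have := Nat.le_floor (le_trans (Nat.cast_le.2 h2) h1.val)
    omega
  have hcov : P ⊆ (range (LL Z + 1)).biUnion fun k => (commons Z).biUnion fun C => (Q k C).biUnion
      fun q => (ps (shiftProd C * q.1.val)).image
        fun p => (insert p C ∪ q.1.1, insert p C ∪ q.2.1) := by
    intro x hx
    obtain ⟨hor, hlo⟩ := hP x hx
    obtain ⟨-, hC, -, hc, hps⟩ := hkey x hx
    simp only [mem_biUnion, mem_image]
    refine ⟨topS (x.1 \ x.2), mem_range.2 (by omega), _, hC, _,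
      mem_image.2 ⟨x, mem_filter.2 ⟨hx, rfl, rfl⟩, rfl⟩, cpr x, by simpa [Rep.val] using hps, ?_⟩
    simp only [insert_erase hc]
    rw [union_comm, sdiff_union_inter, inter_comm, union_comm, sdiff_union_inter]
  refine (Nat.cast_le.2 ((card_le_card hcov).trans card_biUnion_le)).trans ?_
  rw [Nat.cast_sum]
  have hk : ∀ k ∈ range (LL Z + 1), ((((commons Z).biUnion fun C => (Q k C).biUnion
      fun q => (ps (shiftProd C * q.1.val)).image
        fun p => (insert p C ∪ q.1.1, insert p C ∪ q.2.1)).card : ℕ) : ℝ) ≤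
      8 * (Z / Real.log Z) * CC * ∑ C ∈ commons Z, 1 / (shiftProd C : ℝ) := by
    intro k hk
    refine (Nat.cast_le.2 card_biUnion_le).trans ?_
    rw [Nat.cast_sum, mul_sum]
    refine sum_le_sum fun C hC => (Nat.cast_le.2 card_biUnion_le).trans ?_
    rw [Nat.cast_sum]
    have hCp : 0 < shiftProd C := shiftProd_pos fun q hq => by
      obtain ⟨j, -, hj⟩ := mem_biUnion.1 ((mem_powerset.1 (mem_filter.1 hC).1) hq)
      exact (mem_cell.1 hj).1
    have hq : ∀ q ∈ Q k C, pH2 Z < 2 * k ∧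
        CollPair (pT Z) (pK Z + 1) (pOm Z) k ((1 - lamZ Z ^ (-(6 : ℝ))) * k) q := by
      intro q hq
      obtain ⟨x, hx, rfl⟩ := mem_image.1 hq
      obtain ⟨hxP, rfl, -⟩ := mem_filter.1 hx
      exact ⟨(hkey x hxP).1, (hkey x hxP).2.2.1⟩
    have hsum : ∑ q ∈ Q k C, (1 : ℝ) / q.1.val ≤ CC := by
      rcases (Q k C).eq_empty_or_nonempty with he | ⟨q, hq'⟩
      · rw [he, sum_empty]; exact hCC
      · exact hColl k (hq q hq').1 (Nat.lt_succ_iff.1 (mem_range.1 hk)) _ fun q hq' => (hq q hq').2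
    refine le_trans (sum_le_sum fun q hq' => (Nat.cast_le.2 card_image_le).trans
      ((hps (shiftProd C * q.1.val) (Nat.mul_pos hCp ?_) _ fun p hp => (mem_filter.1 hp).2).trans_eq
        (show _ = 8 * (Z / Real.log Z) * (1 / (shiftProd C : ℝ)) * (1 / (q.1.val : ℝ)) by
          push_cast; rw [← one_div_mul_one_div]; ring))) ?_
    · obtain ⟨x, hx, rfl⟩ := mem_image.1 hq'
      obtain ⟨hor, -⟩ := hP x (mem_filter.1 hx).1
      obtain ⟨p, l, h1⟩ := hor.1
      simpa [Rep.val] using shiftProd_pos fun r hr => (h1.normal r (mem_sdiff.1 hr).1).1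
    rw [← mul_sum]
    refine (mul_le_mul_of_nonneg_left hsum (by positivity)).trans_eq ?_
    ring
  refine (sum_le_card_nsmul _ _ _ hk).trans_eq ?_
  rw [card_range, nsmul_eq_mul]
  push_cast
  ring

end Vale.Agent.P031.Lower
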