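import Vale.Agent.P031.Asm.LowerColl

/-!
# Lower bound: numerical facts
-/

open Finset Filter Topology
open scoped Classical

namespace Vale.Agent.P031.Lower

lemma ev_lam (Q : ℝ) : ∀ᶠ Z : ℝ in atTop, Q ≤ lamZ Z :=
  Boundary.tendsto_LL.eventually
    ((Real.tendsto_log_atTop.comp tendsto_natCast_atTop_atTop).eventually_ge_atTop Q)

lemma ev_poly (Q : ℝ) (n : ℕ) {a : ℝ} (ha : 0 < a) :
    ∀ᶠ Z : ℝ in atTop, Q * lamZ Z ^ n ≤ (LL Z : ℝ) ^ a := by
  refine Boundary.tendsto_LL.eventually (p := fun L : ℕ => Q * Real.log L ^ n ≤ (L : ℝ) ^ a) ?_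
  have hc : (0 : ℝ) < |Q| + 1 := by positivity
  have h := (isLittleO_log_rpow_rpow_atTop (n : ℝ) ha).bound (show (0 : ℝ) < 1 / (|Q| + 1) by positivity)
  filter_upwards [tendsto_natCast_atTop_atTop.eventually h,
    (Real.tendsto_log_atTop.comp tendsto_natCast_atTop_atTop).eventually_ge_atTop 0] with L hL hl
  simp only [Function.comp] at hl
  rw [Real.rpow_natCast, Real.norm_eq_abs, Real.norm_eq_abs, abs_of_nonneg (pow_nonneg hl _),
    abs_of_nonneg (Real.rpow_nonneg (Nat.cast_nonneg L) _), one_div_mul_eq_div, le_div_iff₀' hc] at hL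
  have := mul_le_mul_of_nonneg_right (show Q ≤ |Q| + 1 by linarith [le_abs_self Q]) (pow_nonneg hl n)
  linarith

/-- Everything used about the scale. `CS` bounds the constants involved. -/
structure LNum (CS : ℝ) (Z : ℝ) : Prop where
  cs : CScale Z
  lam : 10 ≤ lamZ Z
  Tlow : lamZ Z ^ 49 ≤ (pT Z : ℝ)
  K1 : pK Z + 1 ≤ pT Z
  CT : CS ≤ (pT Z : ℝ)
  lamCS : CS ≤ lamZ Z
  one_L : (1 : ℝ) ≤ LL Z
  CSL : CS ≤ (LL Z : ℝ)
  pow100 : lamZ Z ^ 100 + 1 ≤ (LL Z : ℝ)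
  lam7 : 1200 * lamZ Z ^ 7 ≤ (LL Z : ℝ)
  top_err : (CS * 41000 + 60) * lamZ Z ^ 53 * (LL Z : ℝ) ^ ((4 : ℝ) / 5) ≤ (LL Z : ℝ) ^ ((9 : ℝ) / 10)
  Z2 : 2 ≤ Z

lemma eventually_num (CS : ℝ) : ∀ᶠ Z : ℝ in atTop, LNum CS Z := by
  filter_upwards [ev_lam 100, ev_lam CS, ev_lam (|CS| + 1), ev_poly 8 200 one_pos, ev_poly 1200 7 one_pos,
    ev_poly (CS * 41000 + 60) 53 (show (0 : ℝ) < 1 / 10 by norm_num), eventually_ge_atTop 2,
    Boundary.tendsto_LL.eventually (eventually_ge_atTop 1)] with Z h100 hCS hCS1 hp200 hp7 hp53 hZ hL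
  rw [Real.rpow_one] at hp200 hp7
  set lam := lamZ Z
  have h1 : (1 : ℝ) ≤ lam := by linarith
  have hm : ∀ {a b : ℕ}, a ≤ b → lam ^ a ≤ lam ^ b := fun h => pow_le_pow_right₀ h1 h
  have hL' : (1 : ℝ) ≤ (LL Z : ℝ) := by exact_mod_cast hL
  have hT' : lam ^ 50 < (pT Z : ℝ) + 1 := Nat.lt_floor_add_one _
  have hTu : (pT Z : ℝ) ≤ lam ^ 50 := Nat.floor_le (pow_nonneg (by linarith) _)
  have hT49 : lam ^ 49 ≤ (pT Z : ℝ) := by
    have : 2 * lam ^ 49 ≤ lam ^ 50 := by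
      rw [pow_succ' lam 49]; exact mul_le_mul_of_nonneg_right (by linarith) (pow_nonneg (by linarith) _)
    have := one_le_pow₀ (n := 49) h1
    linarith
  have hK : (pK Z : ℝ) ≤ 20 * lam := Nat.floor_le (by linarith)
  have h49 : 30 * lam ≤ lam ^ 49 := by
    rw [show (49 : ℕ) = 48 + 1 from rfl, pow_succ]
    exact mul_le_mul_of_nonneg_right (le_trans (by linarith) (le_self_pow₀ h1 (by norm_num))) (by linarith)
  have h50 : lam ^ 50 * 4 + 8 ≤ lam ^ 200 := by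
    rw [show (200 : ℕ) = 50 + 150 from rfl, pow_add]
    have : (12 : ℝ) ≤ lam ^ 150 := le_trans (by linarith) (le_self_pow₀ h1 (by norm_num))
    have := mul_le_mul_of_nonneg_left this (pow_nonneg (show 0 ≤ lam by linarith) 50)
    have := one_le_pow₀ (n := 50) h1
    linarith
  refine ⟨⟨?_, ?_, ?_, ?_⟩, by linarith, hT49, ?_, by linarith, hCS, hL', ?_, ?_, hp7, ?_, hZ⟩
  · rw [Real.rpow_neg (by linarith), show lam ^ (6 : ℝ) = lam ^ 6 from by norm_cast, inv_mul_eq_div,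
      le_div_iff₀ (pow_pos (by linarith) _)]
    have := hm (show 6 ≤ 7 by norm_num)
    have : 0 ≤ lam ^ 7 := pow_nonneg (by linarith) _
    linarith
  · exact Real.rpow_nonneg (by linarith) _
  · refine Nat.le_floor ?_
    push_cast
    linarith
  · have : (pT Z : ℝ) + 4 ≤ (LL Z : ℝ) := by linarith
    exact_mod_cast this
  · have : (pK Z : ℝ) + 1 ≤ (pT Z : ℝ) := by linarith
    exact_mod_cast this
  · have := hm (show 1 ≤ 200 by norm_num)
    rw [pow_one] at this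
    have : 0 ≤ lam ^ 200 := pow_nonneg (by linarith) _
    linarith
  · have := hm (show 100 ≤ 200 by norm_num)
    have := one_le_pow₀ (n := 200) h1
    linarith
  · refine le_trans (mul_le_mul_of_nonneg_right hp53 (Real.rpow_nonneg (by linarith) _)) ?_
    rw [← Real.rpow_add (by linarith)]
    norm_num

variable {CS Z : ℝ}

lemma log_bounds (h : LNum CS Z) :
    Real.exp (LL Z : ℝ) ≤ 2 * Real.log Z ∧ Real.log Z ≤ Real.exp ((LL Z : ℝ) + 1) ∧ 0 < Real.log Z := by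
  have hZ := h.Z2
  have hl0 : 0 < Real.log (Z + 1) := Real.log_pos (by linarith)
  have hfl : (LL Z : ℝ) ≤ Real.log (Real.log (Z + 1)) := Nat.floor_le (by
    by_contra hc
    push Not at hc
    have e : LL Z = 0 := Nat.floor_eq_zero.2 (by linarith)
    have := h.one_L
    rw [e] at this
    norm_num at this)
  have h1 : Real.exp (LL Z : ℝ) ≤ Real.log (Z + 1) := by
    rw [← Real.exp_log hl0]; exact Real.exp_le_exp.2 hfl
  have h2 : Real.log (Z + 1) ≤ 2 * Real.log Z := by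
    rw [show 2 * Real.log Z = Real.log (Z ^ 2) by rw [Real.log_pow]; norm_num]
    exact Real.log_le_log (by linarith) (by nlinarith)
  have h3 : Real.log (Z + 1) ≤ Real.exp ((LL Z : ℝ) + 1) := by
    rw [← Real.exp_log hl0]
    exact Real.exp_le_exp.2 (Nat.lt_floor_add_one _).le
  exact ⟨h1.trans h2, (Real.log_le_log (by linarith) (by linarith)).trans h3, Real.log_pos (by linarith)⟩

lemma err_le (h : LNum CS Z) (k : ℕ) :
    collErr (pT Z) (pK Z + 1) (pOm Z) k ≤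
      30000 * lamZ Z ^ 53 + 11000 * lamZ Z ^ 3 * (k : ℝ) ^ ((4 : ℝ) / 5) := by
  set lam := lamZ Z
  have hl := h.lam
  have hK : (pK Z : ℝ) ≤ 20 * lam := Nat.floor_le (by linarith)
  have hT : (pT Z : ℝ) ≤ lam ^ 50 := Nat.floor_le (pow_nonneg (by linarith) _)
  have hL : (1 : ℝ) ≤ (LL Z : ℝ) := h.one_L
  have hlamL : lam ≤ (LL Z : ℝ) := by
    have := le_self_pow₀ (show (1 : ℝ) ≤ lam by linarith) (show (100 : ℕ) ≠ 0 by norm_num)
    linarith [h.pow100]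
  have hW : Real.log ((pOm Z : ℝ) + 2) ≤ 3 * lam := by
    have h1 : (pOm Z : ℝ) + 2 ≤ (LL Z : ℝ) ^ 3 := by
      simp only [pOm]
      push_cast
      have h2 : ((pK Z : ℝ) + 1) * ((LL Z : ℝ) + 1) ≤ (21 * (LL Z : ℝ)) * (2 * (LL Z : ℝ)) :=
        mul_le_mul (by linarith) (by linarith) (add_nonneg (Nat.cast_nonneg _) zero_le_one) (by linarith)
      have h3 : (842 : ℝ) ≤ (LL Z : ℝ) := by
        have := h.pow100
        have : (10 : ℝ) ^ 100 ≤ lam ^ 100 := pow_le_pow_left₀ (by norm_num) hl 100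
        have : (842 : ℝ) ≤ (10 : ℝ) ^ 100 := by norm_num
        linarith
      have h4 : 842 * (LL Z : ℝ) ^ 2 ≤ (LL Z : ℝ) ^ 3 := by
        rw [pow_succ' (LL Z : ℝ) 2]; exact mul_le_mul_of_nonneg_right h3 (sq_nonneg _)
      have h5 : (1 : ℝ) ≤ (LL Z : ℝ) ^ 2 := one_le_pow₀ hL
      linarith
    refine (Real.log_le_log (add_pos_of_nonneg_of_pos (Nat.cast_nonneg _) two_pos) h1).trans_eq ?_
    rw [Real.log_pow]; rfl
  have hkp : 0 ≤ (k : ℝ) ^ ((4 : ℝ) / 5) := Real.rpow_nonneg (Nat.cast_nonneg _) _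
  have hinner : (pT Z : ℝ) + (k : ℝ) ^ ((4 : ℝ) / 5) + Real.log ((pOm Z : ℝ) + 2) + 1 ≤
      2 * lam ^ 50 + (k : ℝ) ^ ((4 : ℝ) / 5) := by
    have : 4 * lam ≤ lam ^ 50 := by
      rw [show (50 : ℕ) = 49 + 1 from rfl, pow_succ]
      exact mul_le_mul_of_nonneg_right (le_trans (by linarith) (le_self_pow₀ (by linarith) (by norm_num))) (by linarith)
    linarith
  have hc : (((pK Z + 1 : ℕ) : ℝ) + 1) ^ 3 ≤ 11000 * lam ^ 3 := by
    refine le_trans (pow_le_pow_left₀ (add_nonneg (Nat.cast_nonneg _) zero_le_one)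
      (show ((pK Z + 1 : ℕ) : ℝ) + 1 ≤ 22 * lam by push_cast; linarith) 3) ?_
    rw [mul_pow]
    exact mul_le_mul_of_nonneg_right (by norm_num) (pow_nonneg (by linarith) _)
  rw [collErr]
  refine (mul_le_mul hc hinner ?_ (mul_nonneg (by norm_num) (pow_nonneg (by linarith) _))).trans ?_
  · have := Real.log_nonneg (show (1 : ℝ) ≤ (pOm Z : ℝ) + 2 by linarith [(Nat.cast_nonneg (pOm Z) : (0 : ℝ) ≤ _)])
    have := (Nat.cast_nonneg (pT Z) : (0 : ℝ) ≤ _)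
    linarith
  · have e : lam ^ 53 = lam ^ 3 * lam ^ 50 := by rw [← pow_add]
    have : 0 ≤ lam ^ 3 * lam ^ 50 := by rw [← e]; exact pow_nonneg (by linarith) _
    rw [e]
    linarith

/-- The exponent for pairs with different tops. -/
lemma top_exp (h : LNum CS Z) (hCS : 0 ≤ CS) {w k : ℕ} (hw : pM Z ≤ (w : ℝ)) (hk : LL Z ≤ k + 1)
    (hk' : k ≤ LL Z) :
    (LL Z : ℝ) - 2 * w - 2 * k + CS * collErr (pT Z) (pK Z + 1) (pOm Z) k + (44 * lamZ Z ^ 2 + 10)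
      ≤ -(LL Z : ℝ) := by
  set lam := lamZ Z
  have hl := h.lam
  have he := mul_le_mul_of_nonneg_left (err_le h k) hCS
  have hk8 : (k : ℝ) ^ ((4 : ℝ) / 5) ≤ (LL Z : ℝ) ^ ((4 : ℝ) / 5) :=
    Real.rpow_le_rpow (Nat.cast_nonneg _) (by exact_mod_cast hk') (by norm_num)
  have hL8 : (1 : ℝ) ≤ (LL Z : ℝ) ^ ((4 : ℝ) / 5) := Real.one_le_rpow h.one_L (by norm_num)
  have h53 : (1 : ℝ) ≤ lam ^ 53 := one_le_pow₀ (by linarith)
  have h3 : lam ^ 3 ≤ lam ^ 53 := pow_le_pow_right₀ (by linarith) (by norm_num)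
  have h2 : lam ^ 2 ≤ lam ^ 53 := pow_le_pow_right₀ (by linarith) (by norm_num)
  set U := lam ^ 53 * (LL Z : ℝ) ^ ((4 : ℝ) / 5)
  have u1 : lam ^ 53 ≤ U := le_mul_of_one_le_right (by linarith) hL8
  have u2 : lam ^ 3 * (k : ℝ) ^ ((4 : ℝ) / 5) ≤ U :=
    mul_le_mul h3 hk8 (Real.rpow_nonneg (Nat.cast_nonneg _) _) (by linarith)
  have h9 : (CS * 41000 + 60) * U ≤ (LL Z : ℝ) ^ ((9 : ℝ) / 10) := by
    rw [← mul_assoc]; exact h.top_err
  have hk1 : (LL Z : ℝ) ≤ (k : ℝ) + 1 := by exact_mod_cast hk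
  have hU : 1 ≤ U := h53.trans u1
  have := mul_le_mul_of_nonneg_left u1 hCS
  have := mul_le_mul_of_nonneg_left u2 hCS
  have hw' : (LL Z : ℝ) ^ ((9 : ℝ) / 10) ≤ (w : ℝ) := hw
  linarith

/-- The exponent for pairs with the same top. -/
lemma low_exp (h : LNum CS Z) (hCS : 0 ≤ CS) {k : ℕ} (hk : pH2 Z < 2 * k) :
    -(lamZ Z ^ (-(6 : ℝ))) * k + CS * collErr (pT Z) (pK Z + 1) (pOm Z) k + (44 * lamZ Z ^ 2 + 20) ≤ 0 := by
  set lam := lamZ Z
  have hl := h.lam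
  have hl0 : 0 < lam := by linarith
  have h1 : (1 : ℝ) ≤ lam := by linarith
  have hk2 : lam ^ 200 ≤ 2 * (k : ℝ) := by
    have h2 := Nat.lt_floor_add_one (lam ^ 200)
    have h3 : ((pH2 Z : ℕ) : ℝ) + 1 ≤ 2 * (k : ℝ) := by exact_mod_cast hk
    simp only [pH2] at h3
    linarith
  have hk0 : (0 : ℝ) < k := by nlinarith [pow_pos hl0 200]
  set y := (k : ℝ) ^ ((1 : ℝ) / 5)
  have hy : lam ^ 39 ≤ y := by
    have h195 : lam ^ 195 ≤ (k : ℝ) := by
      have : 2 * lam ^ 195 ≤ lam ^ 200 := by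
        rw [show (200 : ℕ) = 195 + 5 from rfl, pow_add, mul_comm (2 : ℝ)]
        exact mul_le_mul_of_nonneg_left (le_trans (by linarith) (le_self_pow₀ h1 (by norm_num)))
          (pow_nonneg hl0.le _)
      linarith
    simp only [y]
    refine le_trans (le_of_eq ?_) (Real.rpow_le_rpow (pow_nonneg hl0.le _) h195 (by norm_num))
    rw [← Real.rpow_natCast lam 195, ← Real.rpow_mul hl0.le, ← Real.rpow_natCast]
    norm_num
  have e8 : (k : ℝ) ^ ((4 : ℝ) / 5) * y = k := by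
    simp only [y]; rw [← Real.rpow_add hk0]; norm_num
  have hk8 : 0 ≤ (k : ℝ) ^ ((4 : ℝ) / 5) := Real.rpow_nonneg hk0.le _
  have heps : lam ^ (-(6 : ℝ)) = (lam ^ 6)⁻¹ := by rw [Real.rpow_neg hl0.le]; norm_cast
  rw [heps]
  have a1 : (k : ℝ) ^ ((4 : ℝ) / 5) * lam ^ 39 ≤ (k : ℝ) := by
    have := mul_le_mul_of_nonneg_left hy hk8
    linarith [e8]
  have a2 : CS * (11000 * lam ^ 3 * (k : ℝ) ^ ((4 : ℝ) / 5)) ≤ (lam ^ 6)⁻¹ * k / 4 := by
    have hCl : 44000 * CS ≤ lam ^ 30 := by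
      have h5 : (44000 : ℝ) ≤ lam ^ 29 :=
        le_trans (by norm_num) (pow_le_pow_left₀ (by norm_num) hl 29)
      have := mul_le_mul h5 h.lamCS hCS (pow_nonneg hl0.le _)
      rw [← pow_succ, show (29 + 1 : ℕ) = 30 from rfl] at this
      linarith
    rw [inv_mul_eq_div, div_div, le_div_iff₀ (by positivity)]
    calc CS * (11000 * lam ^ 3 * (k : ℝ) ^ ((4 : ℝ) / 5)) * (lam ^ 6 * 4)
        = (44000 * CS) * lam ^ 9 * (k : ℝ) ^ ((4 : ℝ) / 5) := by ring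
      _ ≤ lam ^ 30 * lam ^ 9 * (k : ℝ) ^ ((4 : ℝ) / 5) := by gcongr
      _ ≤ k := by rw [← pow_add]; linarith [a1]
  have a3 : CS * (30000 * lam ^ 53) + 44 * lam ^ 2 + 20 ≤ (lam ^ 6)⁻¹ * k / 2 := by
    rw [inv_mul_eq_div, div_div, le_div_iff₀ (by positivity)]
    have b2 : lam ^ 2 ≤ lam ^ 54 := pow_le_pow_right₀ h1 (by norm_num)
    have b0 : (1 : ℝ) ≤ lam ^ 54 := one_le_pow₀ h1
    have b1 : CS * lam ^ 53 ≤ lam ^ 54 := by
      rw [pow_succ' lam 53]; exact mul_le_mul_of_nonneg_right h.lamCS (pow_nonneg hl0.le _)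
    have b3 : CS * (30000 * lam ^ 53) + 44 * lam ^ 2 + 20 ≤ 30064 * lam ^ 54 := by linarith
    refine le_trans (mul_le_mul_of_nonneg_right b3 (by positivity)) ?_
    rw [show 30064 * lam ^ 54 * (lam ^ 6 * 2) = 60128 * lam ^ 60 by ring]
    have b4 : 120256 * lam ^ 60 ≤ lam ^ 200 := by
      rw [show (200 : ℕ) = 140 + 60 from rfl, pow_add lam 140 60]
      refine mul_le_mul_of_nonneg_right ?_ (pow_nonneg hl0.le _)
      exact le_trans (by norm_num) (pow_le_pow_left₀ (by norm_num) hl 140)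
    linarith
  have he := mul_le_mul_of_nonneg_left (err_le h k) hCS
  have : 0 ≤ (lam ^ 6)⁻¹ * (k : ℝ) := by positivity
  linarith

/-- Sum over common parts. -/
lemma commons_sum (h : LNum CS Z) {CM : ℝ}
    (hCM : ∀ k : ℕ, |(∑ p ∈ cell k, (1 : ℝ) / p) - 1| ≤ CM * Real.exp (-(k : ℝ)))
    (hCS : 1 + Real.exp (|CM| + 2) ≤ CS) :
    ∑ C ∈ commons Z, 1 / (shiftProd C : ℝ) ≤ Real.exp (42 * lamZ Z ^ 2) := by
  set lam := lamZ Z
  have hl := h.lam
  have hL := h.one_L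
  have hK : (pK Z : ℝ) ≤ 20 * lam := Nat.floor_le (by linarith)
  have hA : ∑ q ∈ (Ioc (pT Z) (LL Z)).biUnion cell, 1 / ((q - 1 : ℕ) : ℝ) ≤
      (LL Z : ℝ) * Real.exp (|CM| + 2) := by
    rw [sum_biUnion fun a _ b _ hab => disjoint_left.2 fun q ha hb =>
      hab ((mem_cell.1 ha).2.symm.trans (mem_cell.1 hb).2)]
    refine (sum_le_card_nsmul _ _ (Real.exp (|CM| + 2)) fun k hk => ?_).trans ?_
    · have hk1 : 1 ≤ k := by have := (mem_Ioc.1 hk).1; omega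
      refine (Boundary.cell_sum hCM hk1).trans (Real.exp_le_exp.2 ?_)
      refine mul_le_of_le_one_right (by positivity) (Real.exp_le_one_iff.2 ?_)
      simp
    · rw [nsmul_eq_mul, Nat.card_Ioc]
      exact mul_le_mul_of_nonneg_right (by exact_mod_cast Nat.sub_le _ _) (Real.exp_pos _).le
  refine (small_sets _ _).trans ?_
  have h1 : (1 : ℝ) + ∑ q ∈ (Ioc (pT Z) (LL Z)).biUnion cell, 1 / ((q - 1 : ℕ) : ℝ) ≤ (LL Z : ℝ) ^ 2 := by
    have := mul_le_mul_of_nonneg_left (hCS.trans h.CSL) (show (0 : ℝ) ≤ LL Z by linarith)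
    linarith
  refine (pow_le_pow_left₀ (add_nonneg zero_le_one (sum_nonneg fun _ _ => by positivity)) h1 _).trans ?_
  have e : (LL Z : ℝ) = Real.exp lam := (Real.exp_log (by linarith)).symm
  rw [← pow_mul, e, ← Real.exp_nat_mul]
  refine Real.exp_le_exp.2 ?_
  push_cast
  nlinarith

end Vale.Agent.P031.Lower
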