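import Vale.Agent.P031.Asm.Boundary

/-!
# Lower bound: elementary parts

Prime counts, weights of tuples of normal primes, sums over small sets, and tuples whose
product has a large square factor.
-/

open Finset Filter Topology
open scoped Classical

namespace Vale.Agent.P031.Lower

open Boundary (tup)

/-- The number of primes up to `y`. -/
lemma primes_le (S : Finset ℕ) (y : ℝ) (h : ∀ p ∈ S, p.Prime ∧ (p : ℝ) ≤ y) :
    (S.card : ℝ) ≤ (Nat.primeCounting ⌊y⌋₊ : ℝ) := by
  rw [Nat.primeCounting, Nat.primeCounting', Nat.count_eq_card_filter_range]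
  exact_mod_cast card_le_card fun q hq => mem_filter.2
    ⟨mem_range.2 (Nat.lt_succ_of_le (Nat.le_floor (h q hq).2)), (h q hq).1⟩

/-- The primes in a dyadic interval. -/
noncomputable def dyad (Y : ℝ) : Finset ℕ :=
  (Icc 1 ⌊Y⌋₊).filter fun p : ℕ => p.Prime ∧ Y / 2 < (p : ℝ)

lemma dyad_count (hPNT : PNTStmt) :
    ∃ Y₀ : ℝ, 2 ≤ Y₀ ∧ ∀ Y : ℝ, Y₀ ≤ Y → 0.43 * (Y / Real.log Y) ≤ ((dyad Y).card : ℝ) := by
  obtain ⟨a, ha⟩ := eventually_atTop.1 (hPNT.eventually (Metric.ball_mem_nhds 1 (show (0 : ℝ) < 0.01 by norm_num)))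
  set Y₀ := max (2 * a) (2 ^ 32)
  refine ⟨Y₀, le_trans (by norm_num) (le_max_right _ _), fun Y hY => ?_⟩
  have hY32 : (2 : ℝ) ^ 32 ≤ Y := le_trans (le_max_right _ _) hY
  have hY2 : (4 : ℝ) ≤ Y := le_trans (by norm_num) hY32
  have h1 := ha Y (by linarith [le_max_left (2 * a) ((2 : ℝ) ^ 32)])
  have h2 := ha (Y / 2) (by linarith [le_max_left (2 * a) ((2 : ℝ) ^ 32)])
  simp only [Real.dist_eq] at h1 h2
  have hl2 : 0 < Real.log (Y / 2) := Real.log_pos (by linarith)
  have hl : 0 < Real.log Y := Real.log_pos (by linarith)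
  have hlog : (15 / 16) * Real.log Y ≤ Real.log (Y / 2) := by
    have h := Real.log_le_log (by norm_num) hY32
    rw [Real.log_pow] at h
    rw [Real.log_div (by linarith) two_ne_zero]
    push_cast at h
    have := Real.log_pos one_lt_two
    linarith
  have g1 : 0.99 * (Y / Real.log Y) ≤ (Nat.primeCounting ⌊Y⌋₊ : ℝ) := by
    have h := (abs_lt.1 h1).1
    rw [← mul_div_assoc, div_le_iff₀ hl]
    rw [lt_sub_iff_add_lt, lt_div_iff₀ (by linarith)] at h
    linarith
  have g2 : (Nat.primeCounting ⌊Y / 2⌋₊ : ℝ) ≤ 1.01 * ((Y / 2) / ((15 / 16) * Real.log Y)) := by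
    have h := (abs_lt.1 h2).2
    rw [sub_lt_iff_lt_add, div_lt_iff₀ (by linarith)] at h
    refine le_trans ?_ (mul_le_mul_of_nonneg_left (div_le_div_of_nonneg_left (by linarith) (by positivity) hlog)
      (by norm_num))
    rw [← mul_div_assoc, le_div_iff₀ hl2]
    linarith
  have g3 : (Nat.primeCounting ⌊Y⌋₊ : ℝ) - Nat.primeCounting ⌊Y / 2⌋₊ ≤ ((dyad Y).card : ℝ) := by
    rw [sub_le_iff_le_add]
    simp only [Nat.primeCounting, Nat.primeCounting', Nat.count_eq_card_filter_range]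
    rw [← Nat.cast_add, Nat.cast_le]
    refine (card_le_card fun p hp => ?_).trans (card_union_le _ _)
    obtain ⟨hpr, hpp⟩ := mem_filter.1 hp
    rw [mem_range, Nat.lt_succ_iff] at hpr
    rcases le_or_gt (p : ℝ) (Y / 2) with h | h
    · exact mem_union.2 (Or.inr (mem_filter.2 ⟨mem_range.2 (Nat.lt_succ_of_le (Nat.le_floor h)), hpp⟩))
    · exact mem_union.2 (Or.inl (mem_filter.2 ⟨mem_Icc.2 ⟨hpp.one_le, hpr⟩, hpp, h⟩))
  have e : 1.01 * ((Y / 2) / ((15 / 16) * Real.log Y)) = (1.01 * 8 / 15) * (Y / Real.log Y) := by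
    field_simp; ring
  have : 0 ≤ Y / Real.log Y := div_nonneg (by linarith) hl.le
  norm_num at g1 g2 e ⊢
  linarith

/-- Tuples of normal primes. -/
noncomputable def tupN (l : List ℕ) : Finset (List ℕ) :=
  (tup l).filter fun ts => ∀ q ∈ ts, Normal q

lemma tup_map : ∀ l : List ℕ, ∀ ts ∈ tup l, ts.map kap = l := by
  intro l
  induction l with
  | nil => intro ts h; simp [tup] at h; simp [h]
  | cons k l ih =>
    intro ts h
    simp only [tup, mem_image, mem_product] at h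
    obtain ⟨⟨a, b⟩, ⟨ha, hb⟩, rfl⟩ := h
    simp [ih b hb, (mem_cell.1 ha).2]

lemma tupN_cons (k : ℕ) (l : List ℕ) :
    tupN (k :: l) = ((cell k).filter Normal ×ˢ tupN l).image fun x => x.1 :: x.2 := by
  ext ts
  simp only [tupN, tup, mem_filter, mem_image, mem_product, Prod.exists]
  constructor
  · rintro ⟨⟨a, b, ⟨ha, hb⟩, rfl⟩, h⟩
    exact ⟨a, b, ⟨⟨ha, h a (List.mem_cons_self ..)⟩, hb, fun q hq => h q (List.mem_cons_of_mem _ hq)⟩, rfl⟩
  · rintro ⟨a, b, ⟨⟨ha, hn⟩, hb, hbn⟩, rfl⟩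
    exact ⟨⟨a, b, ⟨ha, hb⟩, rfl⟩, fun q hq => (List.mem_cons.1 hq).elim (fun h => h ▸ hn) (hbn q)⟩

lemma tupN_sum {δ : ℝ} (hδ0 : 0 ≤ δ) : ∀ l : List ℕ,
    (∀ k ∈ l, 1 - δ ≤ ∑ q ∈ (cell k).filter Normal, (1 : ℝ) / q) →
      1 - l.length * δ ≤ ∑ ts ∈ tupN l, 1 / (((ts.map (· - 1)).prod : ℕ) : ℝ) := by
  intro l
  induction l with
  | nil => intro _; simp [tupN, tup, filter_singleton]
  | cons k l ih =>
    intro h
    have hk := h k (List.mem_cons_self ..)
    have hl := ih fun j hj => h j (List.mem_cons_of_mem _ hj)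
    have hk' : 1 - δ ≤ ∑ q ∈ (cell k).filter Normal, 1 / ((q - 1 : ℕ) : ℝ) := by
      refine hk.trans (sum_le_sum fun q hq => ?_)
      have hqp := (mem_cell.1 (mem_filter.1 hq).1).1
      refine one_div_le_one_div_of_le ?_ (by exact_mod_cast Nat.sub_le q 1)
      have : 1 ≤ q - 1 := by have := hqp.two_le; omega
      exact_mod_cast this
    rw [tupN_cons, sum_image (fun a _ b _ hab => by simpa [Prod.ext_iff] using hab), sum_product]
    simp only [List.map_cons, List.prod_cons, Nat.cast_mul, ← one_div_mul_one_div, ← mul_sum, ← sum_mul,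
      List.length_cons, Nat.cast_add, Nat.cast_one]
    rcases le_or_gt 0 (1 - (l.length : ℝ) * δ) with h0 | h0
    · refine le_trans ?_ (mul_le_mul hk' hl h0 (sum_nonneg fun _ _ => by positivity))
      have : 0 ≤ δ * ((l.length : ℝ) * δ) := by positivity
      linarith
    · refine le_trans (by linarith) (mul_nonneg (sum_nonneg fun _ _ => by positivity)
        (sum_nonneg fun _ _ => by positivity))

/-- Subsets of bounded size. -/
lemma small_sets (B : Finset ℕ) : ∀ n : ℕ,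
    ∑ C ∈ B.powerset.filter (fun C => C.card ≤ n), 1 / (shiftProd C : ℝ) ≤
      (1 + ∑ q ∈ B, 1 / ((q - 1 : ℕ) : ℝ)) ^ n := by
  intro n
  set A := ∑ q ∈ B, 1 / ((q - 1 : ℕ) : ℝ)
  have hA : 0 ≤ A := sum_nonneg fun q _ => by positivity
  induction n with
  | zero =>
    rw [show B.powerset.filter (fun C => C.card ≤ 0) = {∅} by
      ext C; simp only [mem_filter, mem_powerset, Nat.le_zero, card_eq_zero, mem_singleton]
      exact ⟨fun h => h.2, fun h => ⟨h ▸ empty_subset _, h⟩⟩]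
    simp [shiftProd]
  | succ n ih =>
    set Sn := B.powerset.filter (fun C => C.card ≤ n)
    set S := B.powerset.filter (fun C => C.card ≤ n + 1)
    set pairs := (B ×ˢ Sn).filter fun x => x.1 ∉ x.2
    have hsub : S ⊆ insert ∅ (pairs.image fun x => insert x.1 x.2) := by
      intro C hC
      obtain ⟨hCB, hCc⟩ := mem_filter.1 hC
      rw [mem_powerset] at hCB
      rcases C.eq_empty_or_nonempty with rfl | ⟨q, hq⟩
      · exact mem_insert_self _ _
      · refine mem_insert_of_mem (mem_image.2 ⟨(q, C.erase q), mem_filter.2 ⟨mem_product.2 ⟨hCB hq,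
          mem_filter.2 ⟨mem_powerset.2 ((erase_subset _ _).trans hCB), ?_⟩⟩, notMem_erase _ _⟩, insert_erase hq⟩)
        rw [card_erase_of_mem hq]; omega
    calc ∑ C ∈ S, 1 / (shiftProd C : ℝ)
        ≤ ∑ C ∈ insert ∅ (pairs.image fun x => insert x.1 x.2), 1 / (shiftProd C : ℝ) :=
          sum_le_sum_of_subset_of_nonneg hsub fun _ _ _ => by positivity
      _ ≤ 1 + ∑ C ∈ pairs.image (fun x => insert x.1 x.2), 1 / (shiftProd C : ℝ) := by
          by_cases h : ∅ ∈ pairs.image fun x => insert x.1 x.2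
          · rw [insert_eq_of_mem h]; linarith
          · rw [sum_insert h]; simp [shiftProd]
      _ ≤ 1 + ∑ x ∈ pairs, 1 / (shiftProd (insert x.1 x.2) : ℝ) := by
          gcongr
          exact sum_image_le_of_nonneg fun _ _ => by positivity
      _ = 1 + ∑ x ∈ pairs, (1 / ((x.1 - 1 : ℕ) : ℝ)) * (1 / (shiftProd x.2 : ℝ)) := by
          refine congrArg _ (sum_congr rfl fun x hx => ?_)
          rw [shiftProd, prod_insert (mem_filter.1 hx).2, Nat.cast_mul, one_div_mul_one_div]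
          rfl
      _ ≤ 1 + ∑ x ∈ B ×ˢ Sn, (1 / ((x.1 - 1 : ℕ) : ℝ)) * (1 / (shiftProd x.2 : ℝ)) := by
          gcongr
          exact filter_subset _ _
      _ = 1 + A * ∑ C ∈ Sn, 1 / (shiftProd C : ℝ) := by
          rw [sum_product, sum_mul_sum]
      _ ≤ (1 + A) ^ (n + 1) := by
          rw [pow_succ]
          have h1 : (1 : ℝ) ≤ (1 + A) ^ n := one_le_pow₀ (by linarith)
          nlinarith [mul_le_mul_of_nonneg_left ih hA]

/-- Lists of length `j` with entries in `[1, X]`. -/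
def fl (X : ℕ) : ℕ → Finset (List ℕ)
  | 0 => {[]}
  | j + 1 => (Icc 1 X ×ˢ fl X j).image fun x => x.1 :: x.2

lemma mem_fl {X : ℕ} : ∀ l : List ℕ, (∀ x ∈ l, 1 ≤ x ∧ x ≤ X) → l ∈ fl X l.length := by
  intro l
  induction l with
  | nil => intro _; simp [fl]
  | cons a l ih =>
    intro h
    exact mem_image.2 ⟨(a, l), mem_product.2 ⟨mem_Icc.2 (h a (List.mem_cons_self ..)),
      ih fun x hx => h x (List.mem_cons_of_mem _ hx)⟩, rfl⟩

/-- Harmonic sum over multiples. -/
lemma multiples_sum {X d : ℕ} (hd : 0 < d) :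
    ∑ a ∈ (Icc 1 X).filter (fun a => d ∣ a), (1 : ℝ) / a ≤ (1 / d) * (1 + Real.log X) := by
  have h : (Icc 1 X).filter (fun a => d ∣ a) ⊆ (Icc 1 X).image fun m => d * m := by
    intro a ha
    obtain ⟨ha, m, rfl⟩ := mem_filter.1 ha
    obtain ⟨h1, h2⟩ := mem_Icc.1 ha
    exact mem_image.2 ⟨m, mem_Icc.2 ⟨Nat.pos_of_ne_zero fun h0 => by simp [h0] at h1,
      le_trans (Nat.le_mul_of_pos_left m hd) h2⟩, rfl⟩
  refine (sum_le_sum_of_subset_of_nonneg h fun _ _ _ => by positivity).trans ?_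
  refine (sum_image_le_of_nonneg fun _ _ => by positivity).trans ?_
  simp only [Nat.cast_mul, ← one_div_mul_one_div, ← mul_sum]
  refine mul_le_mul_of_nonneg_left ?_ (by positivity)
  have hh := harmonic_le_one_add_log X
  rw [harmonic_eq_sum_Icc] at hh
  push_cast at hh
  simpa only [one_div] using hh

lemma fl_succ_sum (X j : ℕ) (f : List ℕ → ℝ) :
    ∑ l ∈ fl X (j + 1), f l = ∑ a ∈ Icc 1 X, ∑ t ∈ fl X j, f (a :: t) := by
  rw [fl, sum_image fun a _ b _ h => by simpa [Prod.ext_iff] using h, sum_product]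

lemma log_nn (X : ℕ) : 0 ≤ 1 + Real.log X := add_nonneg zero_le_one (Real.log_natCast_nonneg X)

lemma one_sum (X : ℕ) : ∑ a ∈ Icc 1 X, (1 : ℝ) / a ≤ 1 + Real.log X := by
  simpa using multiples_sum (X := X) one_pos

lemma multiples_sum' {X d : ℕ} (hd : 0 < d) :
    ∑ a ∈ Icc 1 X, (if d ∣ a then (1 : ℝ) / a else 0) ≤ (1 / d) * (1 + Real.log X) := by
  rw [← sum_filter]; exact multiples_sum hd

/-- Reciprocal of the product. -/
noncomputable def rp (l : List ℕ) : ℝ := 1 / ((l.prod : ℕ) : ℝ)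

lemma rp_nonneg (l : List ℕ) : 0 ≤ rp l := by unfold rp; positivity

lemma rp_cons (a : ℕ) (t : List ℕ) : rp (a :: t) = 1 / (a : ℝ) * rp t := by
  simp only [rp, List.prod_cons, Nat.cast_mul, one_div_mul_one_div]

lemma fl_sum0 (X : ℕ) : ∀ j : ℕ, ∑ l ∈ fl X j, rp l ≤ (1 + Real.log X) ^ j := by
  intro j
  induction j with
  | zero => simp [fl, rp]
  | succ j ih =>
    simp only [fl_succ_sum, rp_cons, ← mul_sum, ← sum_mul]
    rw [pow_succ']
    exact mul_le_mul (one_sum X) ih (sum_nonneg fun t _ => rp_nonneg t) (log_nn X)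

lemma fl_sum1 {X r : ℕ} (hr : r.Prime) : ∀ j : ℕ,
    ∑ l ∈ fl X j, (if r ∣ l.prod then rp l else 0) ≤ (j : ℝ) * (1 + Real.log X) ^ j / r := by
  intro j
  induction j with
  | zero => simp [fl, hr.ne_one]
  | succ j ih =>
    have hv0 : 0 ≤ ∑ t ∈ fl X j, rp t := sum_nonneg fun t _ => rp_nonneg t
    have hv1 : 0 ≤ ∑ t ∈ fl X j, (if r ∣ t.prod then rp t else 0) :=
      sum_nonneg fun t _ => by split_ifs <;> simp [rp_nonneg]
    rw [fl_succ_sum]
    have step : ∀ a ∈ Icc 1 X, ∑ t ∈ fl X j, (if r ∣ (a :: t).prod then rp (a :: t) else 0) ≤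
        (if r ∣ a then (1 : ℝ) / a else 0) * (∑ t ∈ fl X j, rp t) +
          (1 : ℝ) / a * ∑ t ∈ fl X j, (if r ∣ t.prod then rp t else 0) := fun a _ => by
      rw [mul_sum, mul_sum, ← sum_add_distrib]
      refine sum_le_sum fun t _ => ?_
      have h1 : 0 ≤ (1 : ℝ) / a * rp t := mul_nonneg (by positivity) (rp_nonneg t)
      simp only [List.prod_cons, rp_cons, hr.dvd_mul]
      by_cases ha : r ∣ a <;> by_cases ht : r ∣ t.prod <;>
        simp only [ha, ht, or_self, or_true, true_or, if_true, if_false, zero_mul, mul_zero] <;> linarith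
    refine (sum_le_sum step).trans ?_
    rw [sum_add_distrib, ← sum_mul, ← sum_mul]
    have hH := log_nn X
    refine (add_le_add (mul_le_mul (multiples_sum' hr.pos) (fl_sum0 X j) hv0 (by positivity))
      (mul_le_mul (one_sum X) ih hv1 hH)).trans_eq ?_
    push_cast
    ring

lemma fl_sum2 {X r : ℕ} (hr : r.Prime) : ∀ j : ℕ,
    ∑ l ∈ fl X j, (if r * r ∣ l.prod then rp l else 0) ≤
      (j : ℝ) ^ 2 * (1 + Real.log X) ^ j / ((r : ℝ) * r) := by
  intro j
  induction j with
  | zero => simp [fl, hr.ne_one]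
  | succ j ih =>
    have hv0 : 0 ≤ ∑ t ∈ fl X j, rp t := sum_nonneg fun t _ => rp_nonneg t
    have hv1 : 0 ≤ ∑ t ∈ fl X j, (if r ∣ t.prod then rp t else 0) :=
      sum_nonneg fun t _ => by split_ifs <;> simp [rp_nonneg]
    have hv2 : 0 ≤ ∑ t ∈ fl X j, (if r * r ∣ t.prod then rp t else 0) :=
      sum_nonneg fun t _ => by split_ifs <;> simp [rp_nonneg]
    rw [fl_succ_sum]
    have step : ∀ a ∈ Icc 1 X, ∑ t ∈ fl X j, (if r * r ∣ (a :: t).prod then rp (a :: t) else 0) ≤
        (if r * r ∣ a then (1 : ℝ) / a else 0) * (∑ t ∈ fl X j, rp t) +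
          (if r ∣ a then (1 : ℝ) / a else 0) * (∑ t ∈ fl X j, (if r ∣ t.prod then rp t else 0)) +
          (1 : ℝ) / a * ∑ t ∈ fl X j, (if r * r ∣ t.prod then rp t else 0) := fun a _ => by
      rw [mul_sum, mul_sum, mul_sum, ← sum_add_distrib, ← sum_add_distrib]
      refine sum_le_sum fun t _ => ?_
      have h1 : 0 ≤ (1 : ℝ) / a * rp t := mul_nonneg (by positivity) (rp_nonneg t)
      simp only [List.prod_cons, rp_cons]
      by_cases hd : r * r ∣ a * t.prod
      · rw [if_pos hd]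
        by_cases h2 : r * r ∣ a
        · simp only [h2, (dvd_mul_right r r).trans h2, if_true]
          split_ifs <;> linarith
        · by_cases ha : r ∣ a
          · obtain ⟨b, rfl⟩ := ha
            have ht : r ∣ t.prod := by
              rw [mul_assoc] at hd
              exact (hr.dvd_mul.1 (Nat.dvd_of_mul_dvd_mul_left hr.pos hd)).resolve_left
                fun hb => h2 (Nat.mul_dvd_mul_left r hb)
            simp only [h2, ht, dvd_mul_right, if_true, if_false]
            split_ifs <;> linarith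
          · have hcop : (r * r).Coprime a :=
              (hr.coprime_iff_not_dvd.2 ha).mul_left (hr.coprime_iff_not_dvd.2 ha)
            simp only [h2, ha, hcop.dvd_of_dvd_mul_left hd, if_true, if_false]
            linarith
      · rw [if_neg hd]
        refine add_nonneg (add_nonneg ?_ ?_) ?_ <;> refine mul_nonneg ?_ ?_ <;>
          first | positivity | exact rp_nonneg t | (split_ifs <;> first | positivity | exact rp_nonneg t)
    refine (sum_le_sum step).trans ?_
    rw [sum_add_distrib, sum_add_distrib, ← sum_mul, ← sum_mul, ← sum_mul]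
    set H := 1 + Real.log (X : ℝ)
    have hH : 0 ≤ H := log_nn X
    refine (add_le_add (add_le_add
      (mul_le_mul (multiples_sum' (Nat.mul_pos hr.pos hr.pos)) (fl_sum0 X j) hv0 (by positivity))
      (mul_le_mul (multiples_sum' hr.pos) (fl_sum1 hr j) hv1 (by positivity)))
      (mul_le_mul (one_sum X) ih hv2 hH)).trans ?_
    push_cast
    have hrp : (0 : ℝ) < r := by exact_mod_cast hr.pos
    have e : (1 / ((r : ℝ) * r)) * H * H ^ j + (1 / (r : ℝ)) * H * ((j : ℝ) * H ^ j / r) +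
        H * ((j : ℝ) ^ 2 * H ^ j / ((r : ℝ) * r)) =
        (1 + (j : ℝ) + (j : ℝ) ^ 2) * H ^ (j + 1) / ((r : ℝ) * r) := by field_simp; ring
    rw [e]
    refine div_le_div_of_nonneg_right (mul_le_mul_of_nonneg_right ?_ (by positivity)) (by positivity)
    linarith [(Nat.cast_nonneg j : (0 : ℝ) ≤ _)]

/-- Tuples of length `j` with product at most `Z` and a square of a prime above `N`. -/
lemma bad_count {Z : ℝ} (hZ : 0 ≤ Z) {j N : ℕ} (hN : 1 ≤ N) (S : Finset (List ℕ))
    (hS : ∀ l ∈ S, l.length = j ∧ (∀ x ∈ l, 1 ≤ x) ∧ ((l.prod : ℕ) : ℝ) ≤ Z ∧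
      ∃ r : ℕ, r.Prime ∧ N < r ∧ r * r ∣ l.prod) :
    (S.card : ℝ) ≤ Z * ((j : ℝ) ^ 2 * (1 + Real.log ⌊Z⌋₊) ^ j / N) := by
  set X := ⌊Z⌋₊
  set R := (Ioc N X).filter Nat.Prime
  have hmem : ∀ l ∈ S, ∃ r ∈ R, l ∈ (fl X j).filter (fun l => r * r ∣ l.prod) := by
    intro l hl
    obtain ⟨hlen, h1, hle, r, hr, hNr, hdvd⟩ := hS l hl
    have hpos : 0 < l.prod := Nat.pos_of_ne_zero fun h => by
      rw [List.prod_eq_zero_iff] at h
      have := h1 0 h
      omega
    have hX : l.prod ≤ X := Nat.le_floor hle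
    refine ⟨r, mem_filter.2 ⟨mem_Ioc.2 ⟨hNr, ?_⟩, hr⟩, mem_filter.2 ⟨hlen ▸ mem_fl l fun x hx => ⟨h1 x hx, ?_⟩, hdvd⟩⟩
    · exact (Nat.le_of_dvd hpos ((dvd_mul_right r r).trans hdvd)).trans hX
    · exact (Nat.le_of_dvd hpos (List.dvd_prod hx)).trans hX
  set H := 1 + Real.log X
  have hH : 0 ≤ H := by have := Real.log_natCast_nonneg X; simp only [H]; linarith
  calc (S.card : ℝ) = ∑ l ∈ S, (1 : ℝ) := by simp
    _ ≤ ∑ l ∈ S, Z * (1 / (l.prod : ℕ)) := sum_le_sum fun l hl => by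
        obtain ⟨-, h1, hle, -⟩ := hS l hl
        have hpos : 0 < l.prod := Nat.pos_of_ne_zero fun h => by
          rw [List.prod_eq_zero_iff] at h
          have := h1 0 h
          omega
        rw [mul_one_div, le_div_iff₀ (by exact_mod_cast hpos), one_mul]
        exact hle
    _ ≤ ∑ l ∈ S, ∑ r ∈ R, (if l ∈ fl X j ∧ r * r ∣ l.prod then Z * rp l else 0) := by
        refine sum_le_sum fun l hl => ?_
        obtain ⟨r, hr, hlr⟩ := hmem l hl
        refine le_trans (le_of_eq ?_) (single_le_sum (f := fun r =>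
          if l ∈ fl X j ∧ r * r ∣ l.prod then Z * rp l else 0)
          (fun r _ => by split_ifs <;> first | exact mul_nonneg hZ (rp_nonneg l) | exact le_rfl) hr)
        simp only [if_pos (mem_filter.1 hlr)]
        rfl
    _ ≤ ∑ r ∈ R, Z * ((j : ℝ) ^ 2 * H ^ j / ((r : ℝ) * r)) := by
        rw [sum_comm]
        refine sum_le_sum fun r hr => ?_
        refine le_trans ?_ (mul_le_mul_of_nonneg_left (fl_sum2 (mem_filter.1 hr).2 j) hZ)
        rw [mul_sum, ← sum_filter]
        refine le_trans (le_of_eq (sum_congr rfl fun l hl => ?_)) (sum_le_sum_of_subset_of_nonneg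
          (f := fun l => Z * (if r * r ∣ l.prod then rp l else 0)) (fun l hl => ((mem_filter.1 hl).2).1)
          fun l _ _ => mul_nonneg hZ (by split_ifs <;> simp [rp_nonneg]))
        rw [if_pos ((mem_filter.1 hl).2).2]
    _ = Z * ((j : ℝ) ^ 2 * H ^ j) * ∑ r ∈ R, ((r : ℝ) ^ 2)⁻¹ := by
        rw [mul_sum]; exact sum_congr rfl fun r _ => by ring
    _ ≤ Z * ((j : ℝ) ^ 2 * H ^ j) * (1 / (N : ℝ)) := by
        refine mul_le_mul_of_nonneg_left ?_ (by positivity)
        refine (sum_le_sum_of_subset_of_nonneg (filter_subset _ _) fun _ _ _ => by positivity).trans ?_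
        rcases le_total N X with h | h
        · have h' : (∑ r ∈ Ioc N X, ((r : ℝ) ^ 2)⁻¹) ≤ (N : ℝ)⁻¹ - (X : ℝ)⁻¹ :=
            sum_Ioc_inv_sq_le_sub (by omega) h
          have : 0 ≤ (X : ℝ)⁻¹ := by positivity
          rw [one_div]; linarith
        · rw [Ioc_eq_empty_of_le h, sum_empty]; positivity
    _ = _ := by ring

end Vale.Agent.P031.Lower
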