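import Vale.Agent.P031.Asm.LowerNum

/-!
# Lower bound: the representations attached to good lists
-/

open Finset Filter Topology
open scoped Classical

namespace Vale.Agent.P031.Lower

open Boundary (tup)

/-- Product of shifted entries of a tuple. -/
def tD (ts : List ℕ) : ℕ := (ts.map (· - 1)).prod

/-- The top primes allowed over a cofactor. -/
noncomputable def psOf (Z : ℝ) (D : ℕ) : Finset ℕ := (dyad (Z / D)).filter Normal

/-- The set of primes of one choice. -/
def repSet (p : ℕ) (ts : List ℕ) : Finset ℕ := insert p ts.toFinset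

variable {CS Z : ℝ} {w : ℕ} {l ts : List ℕ}

lemma totient_shiftProd (F : Finset ℕ) (hF : ∀ q ∈ F, q.Prime) :
    0 < (∏ q ∈ F, q) ∧ (∏ q ∈ F, q).totient = shiftProd F := by
  induction F using Finset.induction with
  | empty => simp [shiftProd]
  | @insert a F ha ih =>
    have hp := hF a (mem_insert_self a F)
    have hF' : ∀ q ∈ F, q.Prime := fun q hq => hF q (mem_insert_of_mem hq)
    obtain ⟨h0, he⟩ := ih hF'
    rw [shiftProd] at he ⊢
    rw [prod_insert ha, prod_insert ha]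
    refine ⟨Nat.mul_pos hp.pos h0, ?_⟩
    rw [Nat.totient_mul, Nat.totient_prime hp, he]
    refine hp.coprime_iff_not_dvd.2 fun h => ?_
    obtain ⟨r, hr, hd⟩ := (hp.prime.dvd_finsetProd_iff _).1 h
    exact ha (((Nat.prime_dvd_prime_iff_eq hp (hF' r hr)).1 hd) ▸ hr)

/-- A map is nearly injective if there are few ordered collisions. -/
lemma card_le_image_add {α β : Type*} [DecidableEq α] [DecidableEq β] (S : Finset α) (f : α → β) :
    S.card ≤ (S.image f).card + ((S ×ˢ S).filter fun x => x.1 ≠ x.2 ∧ f x.1 = f x.2).card := by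
  have h : ∀ b ∈ S.image f, ∃ a ∈ S, f a = b := fun b hb => mem_image.1 hb
  rcases S.eq_empty_or_nonempty with rfl | ⟨a₀, ha₀⟩
  · simp
  let g : β → α := fun b => if hb : b ∈ S.image f then (h b hb).choose else a₀
  have hg : ∀ a ∈ S, g (f a) ∈ S ∧ f (g (f a)) = f a := fun a ha => by
    simp only [g, dif_pos (mem_image_of_mem f ha)]
    exact (h _ (mem_image_of_mem f ha)).choose_spec
  refine (le_of_eq (card_filter_add_card_filter_not (s := S) (fun a => g (f a) = a)).symm).trans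
    (add_le_add ?_ ?_)
  · refine card_le_card_of_injOn f (fun a ha => mem_image_of_mem f (mem_filter.1 ha).1) fun a ha b hb hab => ?_
    rw [← (mem_filter.1 ha).2, hab, (mem_filter.1 hb).2]
  · refine card_le_card_of_injOn (fun a => (a, g (f a))) (fun a ha => ?_) fun a _ b _ hab => (Prod.ext_iff.1 hab).1
    obtain ⟨ha, hne⟩ := mem_filter.1 ha
    exact mem_filter.2 ⟨mem_product.2 ⟨ha, (hg a ha).1⟩, fun h => hne h.symm, (hg a ha).2.symm⟩

lemma mem_tupN (hts : ts ∈ tupN l) :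
    ts.map kap = l ∧ ∀ q ∈ ts, Normal q := by
  obtain ⟨h1, h2⟩ := mem_filter.1 hts
  exact ⟨tup_map l ts h1, h2⟩

/-- The level of a prime bounds its logarithm. -/
lemma log_lt_exp {q : ℕ} (hq : q.Prime) : Real.log q < Real.exp ((kap q : ℝ) + 1) := by
  have h1 : 0 < Real.log (q : ℝ) := Real.log_pos (by exact_mod_cast hq.one_lt)
  rw [← Real.exp_log h1]
  exact Real.exp_lt_exp.2 (Nat.lt_floor_add_one _)

lemma tD_pos : ∀ ts : List ℕ, (∀ q ∈ ts, q.Prime) → 0 < tD ts := by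
  intro ts h
  refine Nat.pos_of_ne_zero fun h0 => ?_
  rw [tD, List.prod_eq_zero_iff, List.mem_map] at h0
  obtain ⟨q, hq, he⟩ := h0
  have := (h q hq).two_le
  omega

lemma log_tD {X : ℝ} : ∀ ts : List ℕ, (∀ q ∈ ts, q.Prime ∧ Real.log q ≤ X) →
    Real.log (tD ts) ≤ ts.length * X := by
  intro ts
  induction ts with
  | nil => intro _; simp [tD]
  | cons q ts ih =>
    intro h
    obtain ⟨hq, hqX⟩ := h q (List.mem_cons_self ..)
    have hts : ∀ r ∈ ts, r.Prime ∧ Real.log r ≤ X := fun r hr => h r (List.mem_cons_of_mem _ hr)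
    have hpos := tD_pos ts fun r hr => (hts r hr).1
    have h1 : 1 ≤ q - 1 := by have := hq.two_le; omega
    have e : tD (q :: ts) = (q - 1) * tD ts := by simp [tD]
    have hl : Real.log ((q - 1 : ℕ) : ℝ) ≤ Real.log q :=
      Real.log_le_log (by exact_mod_cast h1) (by exact_mod_cast Nat.sub_le q 1)
    have := ih hts
    rw [e, Nat.cast_mul, Real.log_mul (by exact_mod_cast (show q - 1 ≠ 0 by omega))
      (by exact_mod_cast hpos.ne'), List.length_cons]
    push_cast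
    linarith

lemma D_small (h : LNum CS Z) (hl : l.length ≤ pK Z ∧
      GoodList (LL Z) (pH2 Z) w (lamZ Z ^ (-(6 : ℝ))) l) (hts : ts ∈ tupN l) :
    Real.log (tD ts) ≤ Real.log Z / 10 := by
  obtain ⟨hm, hn⟩ := mem_tupN hts
  set lam := lamZ Z
  set ε := lam ^ (-(6 : ℝ))
  have hlam := h.lam
  obtain ⟨hb, -, hlog0⟩ := log_bounds h
  refine (log_tD (X := Real.exp ((1 - ε) * (LL Z : ℝ) + 1)) ts fun q hq => ?_).trans ?_
  · refine ⟨(hn q hq).1, (log_lt_exp (hn q hq).1).le.trans (Real.exp_le_exp.2 ?_)⟩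
    have := hl.2.2.2.2.2 (kap q) (hm ▸ List.mem_map_of_mem hq)
    linarith
  · have hlen : (ts.length : ℝ) ≤ 20 * lam := by
      refine le_trans ?_ (Nat.floor_le (show 0 ≤ 20 * lam by linarith))
      have : ts.length = l.length := by rw [← hm, List.length_map]
      exact_mod_cast this ▸ hl.1
    have e : Real.exp ((1 - ε) * (LL Z : ℝ) + 1) =
        Real.exp 1 * Real.exp (-(ε * (LL Z : ℝ))) * Real.exp (LL Z : ℝ) := by
      rw [← Real.exp_add, ← Real.exp_add]; congr 1; ring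
    have hεL : 0 < ε * (LL Z : ℝ) := by have := h.cs.gap; simp only [ε, lam]; linarith
    have h2 : Real.exp (-(ε * (LL Z : ℝ))) ≤ 1 / (ε * (LL Z : ℝ)) := by
      rw [Real.exp_neg, one_div]
      exact inv_anti₀ hεL (le_trans (by linarith) (Real.add_one_le_exp _))
    have heps : ε = (lam ^ 6)⁻¹ := by
      simp only [ε]; rw [Real.rpow_neg (by linarith)]; norm_cast
    have h3 : 20 * lam * (Real.exp 1 * (1 / (ε * (LL Z : ℝ)))) ≤ 1 / 20 := by
      have h7 := h.lam7
      have he := Real.exp_one_lt_d9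
      norm_num at he
      have hp : 0 < lam ^ 6 := pow_pos (by linarith) _
      rw [heps, inv_mul_eq_div, one_div_div, ← mul_div_assoc, ← mul_div_assoc,
        div_le_iff₀ (by linarith [h.one_L])]
      have h1 := mul_le_mul_of_nonneg_right (show Real.exp 1 ≤ 3 by linarith) (show 0 ≤ 20 * lam ^ 7 by positivity)
      have : 20 * lam * (Real.exp 1 * lam ^ 6) = Real.exp 1 * (20 * lam ^ 7) := by ring
      linarith
    calc (ts.length : ℝ) * Real.exp ((1 - ε) * (LL Z : ℝ) + 1)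
        ≤ 20 * lam * (Real.exp 1 * (1 / (ε * (LL Z : ℝ))) * Real.exp (LL Z : ℝ)) := by
          rw [e]; gcongr
      _ = 20 * lam * (Real.exp 1 * (1 / (ε * (LL Z : ℝ)))) * Real.exp (LL Z : ℝ) := by ring
      _ ≤ 1 / 20 * (2 * Real.log Z) := mul_le_mul h3 hb (Real.exp_pos _).le (by norm_num)
      _ = Real.log Z / 10 := by ring

/-- The logarithm and level of a top prime. -/
lemma top_facts (h : LNum CS Z) (hl : l.length ≤ pK Z ∧
      GoodList (LL Z) (pH2 Z) w (lamZ Z ^ (-(6 : ℝ))) l) (hts : ts ∈ tupN l) {p : ℕ}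
    (hp : p ∈ dyad (Z / tD ts)) :
    p.Prime ∧ ((p : ℝ) * tD ts ≤ Z) ∧ 4 / 5 * Real.log Z ≤ Real.log p ∧
      LL Z ≤ kap p + 1 ∧ kap p ≤ LL Z := by
  obtain ⟨hp1, hpp, hp2⟩ := mem_filter.1 hp
  have hZ := h.Z2
  have hD : 0 < tD ts := tD_pos ts fun q hq => ((mem_tupN hts).2 q hq).1
  have hD' : (0 : ℝ) < tD ts := by exact_mod_cast hD
  have hle : (p : ℝ) ≤ Z / tD ts := le_trans (by exact_mod_cast (mem_Icc.1 hp1).2) (Nat.floor_le (by positivity))
  have hpD : (p : ℝ) * tD ts ≤ Z := by rwa [le_div_iff₀ hD'] at hle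
  have hpZ : (p : ℝ) ≤ Z := le_trans (le_mul_of_one_le_right (Nat.cast_nonneg _) (by exact_mod_cast hD)) hpD
  obtain ⟨hb, -, hlog0⟩ := log_bounds h
  have hbig : 14 ≤ Real.log Z := by
    have h1 : (40 : ℝ) ≤ (LL Z : ℝ) := by
      have := h.pow100
      have : (10 : ℝ) ^ 100 ≤ lamZ Z ^ 100 := pow_le_pow_left₀ (by norm_num) h.lam 100
      have : (40 : ℝ) ≤ (10 : ℝ) ^ 100 := by norm_num
      linarith
    have := Real.add_one_le_exp (LL Z : ℝ)
    linarith
  have hlp : 4 / 5 * Real.log Z ≤ Real.log p := by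
    have h1 := Real.log_le_log (by positivity) hp2.le
    rw [Real.log_div (by positivity) two_ne_zero, Real.log_div (by linarith) hD'.ne'] at h1
    have h2 := D_small h hl hts
    have h3 := Real.log_two_lt_d9
    norm_num at h3
    linarith
  have hp2' : (2 : ℝ) ≤ p := by exact_mod_cast hpp.two_le
  have hlp0 : 0 < Real.log (p : ℝ) := Real.log_pos (by linarith)
  refine ⟨hpp, hpD, hlp, ?_, Nat.floor_mono (Real.log_le_log hlp0 (Real.log_le_log (by linarith) (by linarith)))⟩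
  have hlow : (LL Z : ℝ) - 1 ≤ Real.log (Real.log p) := by
    rw [← Real.exp_le_exp, Real.exp_log hlp0]
    refine le_trans ?_ hlp
    rw [Real.exp_sub, div_le_iff₀ (Real.exp_pos 1)]
    have he := Real.add_one_le_exp (1 : ℝ)
    have he' := Real.exp_one_gt_d9
    norm_num at he'
    nlinarith
  have h1 : LL Z - 1 ≤ kap p := Nat.le_floor (le_trans (by
    rw [Nat.cast_sub (by exact_mod_cast h.one_L)]; norm_num) hlow)
  omega

lemma rep_ok (h : LNum CS Z) (hl : l.length ≤ pK Z ∧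
      GoodList (LL Z) (pH2 Z) w (lamZ Z ^ (-(6 : ℝ))) l) (hts : ts ∈ tupN l) {p : ℕ}
    (hp : p ∈ psOf Z (tD ts)) :
    RepOK Z w (repSet p ts) p l ∧ shiftProd (repSet p ts) = (p - 1) * tD ts ∧ p ∉ ts ∧ ts.Nodup := by
  obtain ⟨hpd, hpn⟩ := mem_filter.1 hp
  obtain ⟨hpp, hpD, hlp, hlo, hhi⟩ := top_facts h hl hts hpd
  obtain ⟨hm, hn⟩ := mem_tupN hts
  have hnd : (LL Z :: l).Nodup := hl.2.1.imp fun hab => ne_of_gt hab
  have hndl := (List.nodup_cons.1 hnd).2
  rw [← hm] at hndl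
  have hts_nd : ts.Nodup := List.Nodup.of_map kap hndl
  have hlt : ∀ x ∈ l, x + 1 < LL Z := fun x hx => by
    have := hl.2.2.2.2.2 x hx
    have := h.cs.gap
    exact_mod_cast (show (x : ℝ) + 1 < LL Z by linarith)
  have hnot : p ∉ ts := fun hmem => by
    have := hlt _ (hm ▸ List.mem_map_of_mem hmem)
    omega
  have hsp : shiftProd (repSet p ts) = (p - 1) * tD ts := by
    rw [shiftProd, repSet, prod_insert (by simpa using hnot), List.prod_toFinset _ hts_nd]
    rfl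
  refine ⟨⟨hl.2, hl.1, mem_insert_self _ _, fun q hq => ?_, hlo, hhi, fun q hq hqp => ?_, ?_, ?_, hlp⟩,
    hsp, hnot, hts_nd⟩
  · rcases mem_insert.1 hq with rfl | hq
    · exact hpn
    · exact hn q (List.mem_toFinset.1 hq)
  · exact hm ▸ List.mem_map_of_mem (List.mem_toFinset.1 ((mem_insert.1 hq).resolve_left hqp))
  · intro a ha b hb hab
    simp only [repSet, coe_insert, List.coe_toFinset, Set.mem_insert_iff, Set.mem_ofPred_eq] at ha hb
    rcases ha with rfl | ha <;> rcases hb with rfl | hb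
    · rfl
    · have := hlt _ (hm ▸ List.mem_map_of_mem hb); omega
    · have := hlt _ (hm ▸ List.mem_map_of_mem ha); omega
    · exact List.inj_on_of_nodup_map hndl ha hb hab
  · rw [hsp]
    refine le_trans ?_ hpD
    push_cast
    exact mul_le_mul_of_nonneg_right (by exact_mod_cast Nat.sub_le p 1) (Nat.cast_nonneg _)

lemma rep_inj (h : LNum CS Z) {l' ts' : List ℕ} (hl : l.length ≤ pK Z ∧
      GoodList (LL Z) (pH2 Z) w (lamZ Z ^ (-(6 : ℝ))) l) (hl' : l'.length ≤ pK Z ∧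
      GoodList (LL Z) (pH2 Z) w (lamZ Z ^ (-(6 : ℝ))) l') (hts : ts ∈ tupN l) (hts' : ts' ∈ tupN l')
    {p p' : ℕ} (hp : p ∈ psOf Z (tD ts)) (hp' : p' ∈ psOf Z (tD ts'))
    (he : repSet p ts = repSet p' ts') : l = l' ∧ ts = ts' ∧ p = p' := by
  obtain ⟨h1, -, hn1, hd1⟩ := rep_ok h hl hts hp
  obtain ⟨h2, -, hn2, hd2⟩ := rep_ok h hl' hts' hp'
  have hpp : p = p' := h2.top_unique h.cs (he ▸ h1.mem) h1.top_lo
  subst hpp
  have ht : ts.toFinset = ts'.toFinset := by
    have := congrArg (fun F => F.erase p) he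
    simpa [repSet, erase_insert_eq_erase, erase_eq_of_notMem (show p ∉ ts.toFinset by simpa using hn1),
      erase_eq_of_notMem (show p ∉ ts'.toFinset by simpa using hn2)] using this
  have hs : ∀ {l ts : List ℕ}, ts ∈ tupN l → (LL Z :: l).Pairwise (· > ·) →
      ts.Pairwise (fun a b => kap a > kap b) := fun {l ts} hts hg =>
    List.pairwise_map.1 ((mem_tupN hts).1.symm ▸ (List.pairwise_cons.1 hg).2)
  have hts_eq : ts = ts' := (List.perm_of_nodup_nodup_toFinset_eq hd1 hd2 ht).eq_of_pairwise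
    (fun a b _ _ hab hba => absurd hab (not_lt.2 (le_of_lt hba))) (hs hts hl.2.1) (hs hts' hl'.2.1)
  exact ⟨by rw [← (mem_tupN hts).1, ← (mem_tupN hts').1, hts_eq], hts_eq, rfl⟩

lemma sqrt_level (h : LNum CS Z) {x : ℝ} (hx : lamZ Z ^ 100 ≤ x) :
    lamZ Z ^ 50 ≤ x ^ ((1 : ℝ) / 2) := by
  have h0 : 0 ≤ lamZ Z := by linarith [h.lam]
  refine le_trans (le_of_eq ?_) (Real.rpow_le_rpow (pow_nonneg h0 _) hx (by norm_num))
  rw [← Real.rpow_natCast _ 100, ← Real.rpow_mul h0, ← Real.rpow_natCast]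
  norm_num

lemma exp_small {c y : ℝ} (hc : 0 < c) (hy : 0 < y) : Real.exp (-c * y) ≤ 1 / (c * y) := by
  rw [neg_mul, Real.exp_neg, one_div]
  exact inv_anti₀ (mul_pos hc hy) (le_trans (by linarith) (Real.add_one_le_exp _))

/-- Each good list carries weight at least one half. -/
lemma weight (h : LNum CS Z) {CM cA CA : ℝ} (hcA : 0 < cA)
    (hCM : ∀ k : ℕ, |(∑ p ∈ cell k, (1 : ℝ) / p) - 1| ≤ CM * Real.exp (-(k : ℝ)))
    (hAS : ∀ k : ℕ, (∑ q ∈ (cell k).filter (fun q : ℕ => ¬ Normal q), (1 : ℝ) / q) ≤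
      CA * Real.exp (-cA * (k : ℝ) ^ ((1 : ℝ) / 2)))
    (hCS : |CM| + |CA| / cA + 1 ≤ CS)
    (hl : l.length ≤ pK Z ∧ GoodList (LL Z) (pH2 Z) w (lamZ Z ^ (-(6 : ℝ))) l) :
    1 / 2 ≤ ∑ ts ∈ tupN l, 1 / (tD ts : ℝ) := by
  set lam := lamZ Z
  have hlam := h.lam
  have h1 : (1 : ℝ) ≤ lam := by linarith
  have hp50 : 0 < lam ^ 50 := pow_pos (by linarith) _
  set δ := (|CM| + |CA| / cA) / lam ^ 50
  have hδ : 0 ≤ δ := div_nonneg (add_nonneg (abs_nonneg _) (div_nonneg (abs_nonneg _) hcA.le)) hp50.le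
  have hk : ∀ k ∈ l, 1 - δ ≤ ∑ q ∈ (cell k).filter Normal, (1 : ℝ) / q := by
    intro k hk
    have hk' : lam ^ 100 ≤ (k : ℝ) := by
      have h2 := Nat.lt_floor_add_one (lam ^ 200)
      have h3 : ((pH2 Z : ℕ) : ℝ) + 1 ≤ 2 * (k : ℝ) := by exact_mod_cast hl.2.2.1 k hk
      simp only [pH2] at h3
      have h4 : 2 * lam ^ 100 ≤ lam ^ 200 := by
        rw [show (200 : ℕ) = 100 + 100 from rfl, pow_add]
        exact mul_le_mul_of_nonneg_right (le_trans (by linarith) (le_self_pow₀ h1 (by norm_num)))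
          (pow_nonneg (by linarith) _)
      linarith
    have hk50 : lam ^ 50 ≤ (k : ℝ) := le_trans (pow_le_pow_right₀ h1 (by norm_num)) hk'
    have hs := sqrt_level h hk'
    have e1 : |CM| * Real.exp (-(k : ℝ)) ≤ |CM| / lam ^ 50 := by
      rw [div_eq_mul_inv]
      refine mul_le_mul_of_nonneg_left ?_ (abs_nonneg _)
      rw [Real.exp_neg]
      exact inv_anti₀ hp50 (le_trans hk50 (le_trans (by linarith) (Real.add_one_le_exp _)))
    have e2 : |CA| * Real.exp (-cA * (k : ℝ) ^ ((1 : ℝ) / 2)) ≤ |CA| / cA / lam ^ 50 := by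
      refine le_trans (mul_le_mul_of_nonneg_left (le_trans (exp_small hcA (lt_of_lt_of_le hp50 hs))
        (one_div_le_one_div_of_le (mul_pos hcA hp50) (mul_le_mul_of_nonneg_left hs hcA.le))) (abs_nonneg _))
        (le_of_eq ?_)
      field_simp
    have hsplit := sum_filter_add_sum_filter_not (cell k) Normal (fun q => (1 : ℝ) / q)
    have a1 := (abs_le.1 (hCM k)).1
    have a2 := hAS k
    have a3 : CM * Real.exp (-(k : ℝ)) ≤ |CM| * Real.exp (-(k : ℝ)) :=
      mul_le_mul_of_nonneg_right (le_abs_self _) (Real.exp_pos _).le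
    have a4 : CA * Real.exp (-cA * (k : ℝ) ^ ((1 : ℝ) / 2)) ≤ |CA| * Real.exp (-cA * (k : ℝ) ^ ((1 : ℝ) / 2)) :=
      mul_le_mul_of_nonneg_right (le_abs_self _) (Real.exp_pos _).le
    simp only [δ, add_div]
    linarith
  refine le_trans ?_ (tupN_sum hδ l hk)
  have hlen : (l.length : ℝ) ≤ 20 * lam :=
    le_trans (by exact_mod_cast hl.1) (Nat.floor_le (by linarith))
  have : (l.length : ℝ) * δ ≤ 1 / 2 := by
    refine le_trans (mul_le_mul_of_nonneg_right hlen hδ) ?_
    simp only [δ]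
    rw [← mul_div_assoc, div_le_iff₀ hp50]
    have h2 : |CM| + |CA| / cA ≤ lam := by linarith [h.lamCS]
    have h5 : 40 * (lam * lam) ≤ lam ^ 50 := by
      rw [show lam ^ 50 = lam ^ 48 * (lam * lam) by ring]
      exact mul_le_mul_of_nonneg_right (le_trans (by norm_num : (40 : ℝ) ≤ 10 ^ 48)
        (pow_le_pow_left₀ (by norm_num) hlam 48)) (by positivity)
    have := mul_le_mul_of_nonneg_left h2 (show 0 ≤ 20 * lam by linarith)
    linarith
  linarith

/-- Many top primes over each cofactor. -/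
lemma ps_count (h : LNum CS Z) {cA CA Y₀ : ℝ} (hcA : 0 < cA)
    (hAC : ∀ (k : ℕ) (Y : ℝ), 2 ≤ Y →
      (((cell k).filter (fun q : ℕ => (q : ℝ) ≤ Y ∧ ¬ Normal q)).card : ℝ) ≤
        CA * Y / Real.log Y * Real.exp (-cA * (k : ℝ) ^ ((1 : ℝ) / 2)))
    (hY₀ : 2 ≤ Y₀) (hdy : ∀ Y : ℝ, Y₀ ≤ Y → 0.43 * (Y / Real.log Y) ≤ ((dyad Y).card : ℝ))
    (hCS : 100 * (|CA| / cA) + Real.log Y₀ + 1 ≤ CS)
    (hl : l.length ≤ pK Z ∧ GoodList (LL Z) (pH2 Z) w (lamZ Z ^ (-(6 : ℝ))) l) (hts : ts ∈ tupN l) :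
    2 / 5 * (Z / Real.log Z) * (1 / (tD ts : ℝ)) ≤ ((psOf Z (tD ts)).card : ℝ) := by
  have hZ := h.Z2
  obtain ⟨hb, -, hlog0⟩ := log_bounds h
  have hD : 0 < tD ts := tD_pos ts fun q hq => ((mem_tupN hts).2 q hq).1
  have hD' : (0 : ℝ) < tD ts := by exact_mod_cast hD
  set Y := Z / (tD ts : ℝ)
  have hY : 0 < Y := by positivity
  have hlY : Real.log Y = Real.log Z - Real.log (tD ts) := Real.log_div (by linarith) hD'.ne'
  have hsmall := D_small h hl hts
  have hDlog : 0 ≤ Real.log (tD ts : ℝ) := Real.log_natCast_nonneg _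
  have hLbig : Real.log Y₀ ≤ Real.log Y := by
    have h1 := Real.add_one_le_exp (LL Z : ℝ)
    have h2 := Real.quadratic_le_exp_of_nonneg (show (0 : ℝ) ≤ LL Z from Nat.cast_nonneg _)
    have h3 : 40 ≤ (LL Z : ℝ) := by
      have := h.pow100
      have : (10 : ℝ) ^ 100 ≤ lamZ Z ^ 100 := pow_le_pow_left₀ (by norm_num) h.lam 100
      have : (40 : ℝ) ≤ (10 : ℝ) ^ 100 := by norm_num
      linarith
    have h4 := h.CSL
    have h5 : 0 ≤ |CA| / cA := div_nonneg (abs_nonneg _) hcA.le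
    have h6 : 40 * (LL Z : ℝ) ≤ (LL Z : ℝ) ^ 2 := by
      rw [pow_two]; exact mul_le_mul_of_nonneg_right h3 (Nat.cast_nonneg _)
    linarith
  have hYY : Y₀ ≤ Y := (Real.log_le_log_iff (by linarith) hY).1 hLbig
  have h43 := hdy Y hYY
  have hly : 0 < Real.log Y := Real.log_pos (by linarith)
  set E := Real.exp (-cA * (lamZ Z ^ 50))
  have hbad : (((dyad Y).filter fun p => ¬ Normal p).card : ℝ) ≤ 2 * (|CA| * Y / Real.log Y * E) := by
    have hsub : (dyad Y).filter (fun p => ¬ Normal p) ⊆ (Icc (LL Z - 1) (LL Z)).biUnion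
        fun k => (cell k).filter (fun q : ℕ => (q : ℝ) ≤ Y ∧ ¬ Normal q) := fun p hp => by
      obtain ⟨hpd, hpn⟩ := mem_filter.1 hp
      obtain ⟨hpp, -, -, hlo, hhi⟩ := top_facts h hl hts hpd
      have hpY : (p : ℝ) ≤ Y := le_trans (by exact_mod_cast (mem_Icc.1 (mem_filter.1 hpd).1).2) (Nat.floor_le hY.le)
      exact mem_biUnion.2 ⟨kap p, mem_Icc.2 ⟨by omega, hhi⟩,
        mem_filter.2 ⟨mem_cell.2 ⟨hpp, rfl⟩, hpY, hpn⟩⟩
    refine (Nat.cast_le.2 ((card_le_card hsub).trans card_biUnion_le)).trans ?_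
    rw [Nat.cast_sum]
    refine (sum_le_card_nsmul _ _ (|CA| * Y / Real.log Y * E) fun k hk => (hAC k Y (by linarith)).trans ?_).trans ?_
    · refine mul_le_mul (div_le_div_of_nonneg_right (mul_le_mul_of_nonneg_right (le_abs_self _) hY.le) hly.le)
        (Real.exp_le_exp.2 ?_) (Real.exp_pos _).le (by positivity)
      have hk' : lamZ Z ^ 100 ≤ (k : ℝ) := by
        have h1 : LL Z ≤ k + 1 := by have := (mem_Icc.1 hk).1; omega
        have h2 : (LL Z : ℝ) ≤ (k : ℝ) + 1 := by exact_mod_cast h1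
        linarith [h.pow100]
      have := mul_le_mul_of_nonneg_left (sqrt_level h hk') hcA.le
      linarith
    · rw [nsmul_eq_mul, Nat.card_Icc]
      refine mul_le_mul_of_nonneg_right ?_ (by positivity)
      exact_mod_cast (show LL Z + 1 - (LL Z - 1) ≤ 2 by omega)
  have hE : |CA| * E ≤ 0.01 := by
    have h50 : lamZ Z ≤ lamZ Z ^ 50 := le_self_pow₀ (by linarith [h.lam]) (by norm_num)
    have hp50 : 0 < lamZ Z ^ 50 := by linarith [h.lam]
    refine le_trans (mul_le_mul_of_nonneg_left (exp_small hcA hp50) (abs_nonneg _)) ?_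
    rw [mul_one_div, ← div_div, div_le_iff₀ hp50]
    have : 0 ≤ Real.log Y₀ := Real.log_nonneg (by linarith)
    have := h.lamCS
    norm_num
    linarith
  have hsplit : ((psOf Z (tD ts)).card : ℝ) + (((dyad Y).filter fun p => ¬ Normal p).card : ℝ) = (dyad Y).card := by
    exact_mod_cast card_filter_add_card_filter_not (s := dyad Y) Normal
  have hYl : Z / Real.log Z * (1 / (tD ts : ℝ)) ≤ Y / Real.log Y := by
    rw [show Z / Real.log Z * (1 / (tD ts : ℝ)) = Y / Real.log Z by simp only [Y]; field_simp]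
    exact div_le_div_of_nonneg_left hY.le hly (by rw [hlY]; linarith)
  have hq : 0 ≤ Y / Real.log Y := by positivity
  have h5 : 2 * (|CA| * Y / Real.log Y * E) ≤ 0.02 * (Y / Real.log Y) := by
    rw [show 2 * (|CA| * Y / Real.log Y * E) = 2 * (|CA| * E) * (Y / Real.log Y) by ring]
    refine mul_le_mul_of_nonneg_right ?_ hq
    linarith
  norm_num at h43 h5 hsplit hYl ⊢
  linarith

end Vale.Agent.P031.Lower
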