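import Vale.Agent.P031.Asm.PairsCount

/-!
# The pairs behind the main sum give distinct values
-/

open Finset Filter Topology
open scoped Classical

namespace Vale.Agent.P031.Pairs

open Lower (LNum log_bounds pOm)

variable {CS Z : ℝ}

lemma pT_large (h : LNum CS Z) : (LL Z : ℝ) ^ 3 ≤ Real.exp (pT Z : ℝ) := by
  have hl := h.lam
  have hL := h.one_L
  have h3 : 3 * lamZ Z ≤ (pT Z : ℝ) := by
    refine le_trans ?_ h.Tlow
    rw [show (49 : ℕ) = 48 + 1 from rfl, pow_succ]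
    exact mul_le_mul_of_nonneg_right (le_trans (by linarith) (le_self_pow₀ (show (1 : ℝ) ≤ lamZ Z by linarith)
      (show (48 : ℕ) ≠ 0 by norm_num))) (by linarith)
  refine le_trans (le_of_eq ?_) (Real.exp_le_exp.2 h3)
  rw [show 3 * lamZ Z = ((3 : ℕ) : ℝ) * lamZ Z by norm_num, Real.exp_nat_mul, lamZ, Real.exp_log (by linarith)]

lemma small_term (h : LNum CS Z) : Real.exp (9 / 10 * Real.log Z) ≤ tiny Z / 4 := by
  have hZ := h.Z2
  have hl := h.lam
  obtain ⟨hb, hlogZ, hlog0⟩ := log_bounds h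
  obtain ⟨-, -, hLbig⟩ := scale_facts h
  have h5 : lamZ Z ^ 5 ≤ lamZ Z ^ 100 := pow_le_pow_right₀ (by linarith) (by norm_num)
  have h100 := h.pow100
  have h4 : 4 * Real.log Z ≤ Real.exp ((LL Z : ℝ) + 3) := by
    rw [show (LL Z : ℝ) + 3 = 2 + ((LL Z : ℝ) + 1) by ring, Real.exp_add]
    exact mul_le_mul (by linarith [Real.quadratic_le_exp_of_nonneg (show (0 : ℝ) ≤ 2 by norm_num)]) hlogZ
      hlog0.le (Real.exp_pos _).le
  have hq := Real.quadratic_le_exp_of_nonneg (show (0 : ℝ) ≤ LL Z from Nat.cast_nonneg _)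
  have hsq : 1000 * (LL Z : ℝ) ≤ (LL Z : ℝ) ^ 2 := by
    rw [sq]; exact mul_le_mul_of_nonneg_right hLbig (Nat.cast_nonneg _)
  have key : Real.exp (9 / 10 * Real.log Z) * (4 * Real.log Z) ≤ Z * Real.exp (-(lamZ Z ^ 5)) := by
    refine (mul_le_mul_of_nonneg_left h4 (Real.exp_pos _).le).trans ?_
    have e : Z * Real.exp (-(lamZ Z ^ 5)) = Real.exp (Real.log Z + -(lamZ Z ^ 5)) := by
      rw [Real.exp_add, Real.exp_log (show 0 < Z by linarith)]
    rw [← Real.exp_add, e]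
    exact Real.exp_le_exp.2 (by linarith)
  refine le_trans ((le_div_iff₀ (show 0 < 4 * Real.log Z by linarith)).2 key) (le_of_eq ?_)
  rw [tiny]
  field_simp

lemma square_term (h : LNum CS Z) :
    Z * (8 * Real.exp (2 * ((LL Z : ℝ) + 2)) * Real.exp (-Real.exp (pT Z : ℝ))) ≤ tiny Z / 4 := by
  have hZ := h.Z2
  have hl := h.lam
  obtain ⟨-, hlogZ, hlog0⟩ := log_bounds h
  obtain ⟨-, -, hLbig⟩ := scale_facts h
  have h5 : lamZ Z ^ 5 ≤ lamZ Z ^ 100 := pow_le_pow_right₀ (by linarith) (by norm_num)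
  have h100 := h.pow100
  have hT := pT_large h
  have hcube : 1000 * (LL Z : ℝ) ^ 2 ≤ (LL Z : ℝ) ^ 3 := by
    rw [pow_succ' (LL Z : ℝ) 2]; exact mul_le_mul_of_nonneg_right hLbig (sq_nonneg _)
  have hsq : 1000 * (LL Z : ℝ) ≤ (LL Z : ℝ) ^ 2 := by
    rw [sq]; exact mul_le_mul_of_nonneg_right hLbig (Nat.cast_nonneg _)
  have e32 : (32 : ℝ) ≤ Real.exp 7 := by
    linarith [Real.quadratic_le_exp_of_nonneg (show (0 : ℝ) ≤ 7 by norm_num)]
  have key : 32 * Real.log Z * (Real.exp (2 * ((LL Z : ℝ) + 2)) * Real.exp (-Real.exp (pT Z : ℝ))) ≤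
      Real.exp (-(lamZ Z ^ 5)) := by
    refine (mul_le_mul_of_nonneg_right (mul_le_mul e32 hlogZ hlog0.le (Real.exp_pos _).le) (by positivity)).trans ?_
    rw [← Real.exp_add, ← Real.exp_add, ← Real.exp_add]
    exact Real.exp_le_exp.2 (by linarith)
  have := mul_le_mul_of_nonneg_left key (show 0 ≤ Z by linarith)
  rw [tiny, div_mul_eq_mul_div, div_div, le_div_iff₀ (by positivity)]
  linarith

lemma collide_exp (h : LNum CS Z) (hCS : 0 ≤ CS) {k : ℕ} (hk : LL Z ≤ k + 1) (hk' : k ≤ LL Z) :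
    (LL Z : ℝ) - pM Z - 2 * k + CS * collErr (pT Z) (pK Z + 1) (pOm Z) k ≤
      -(LL Z : ℝ) - (lamZ Z ^ 5 + 44 * lamZ Z ^ 2 + 12) := by
  set lam := lamZ Z
  have hl := h.lam
  have he := mul_le_mul_of_nonneg_left (Lower.err_le h k) hCS
  have hk8 : (k : ℝ) ^ ((4 : ℝ) / 5) ≤ (LL Z : ℝ) ^ ((4 : ℝ) / 5) :=
    Real.rpow_le_rpow (Nat.cast_nonneg _) (by exact_mod_cast hk') (by norm_num)
  have hL8 : (1 : ℝ) ≤ (LL Z : ℝ) ^ ((4 : ℝ) / 5) := Real.one_le_rpow h.one_L (by norm_num)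
  have h53 : (1 : ℝ) ≤ lam ^ 53 := one_le_pow₀ (by linarith)
  have h3 : lam ^ 3 ≤ lam ^ 53 := pow_le_pow_right₀ (by linarith) (by norm_num)
  have h2 : lam ^ 2 ≤ lam ^ 53 := pow_le_pow_right₀ (by linarith) (by norm_num)
  have h5 : lam ^ 5 ≤ lam ^ 53 := pow_le_pow_right₀ (by linarith) (by norm_num)
  set U := lam ^ 53 * (LL Z : ℝ) ^ ((4 : ℝ) / 5)
  have u1 : lam ^ 53 ≤ U := le_mul_of_one_le_right (by linarith) hL8
  have u2 : lam ^ 3 * (k : ℝ) ^ ((4 : ℝ) / 5) ≤ U :=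
    mul_le_mul h3 hk8 (Real.rpow_nonneg (Nat.cast_nonneg _) _) (by linarith)
  have h9 : (CS * 41000 + 60) * U ≤ pM Z := by
    rw [← mul_assoc]; exact h.top_err
  have hk1 : (LL Z : ℝ) ≤ (k : ℝ) + 1 := by exact_mod_cast hk
  have hU : 1 ≤ U := h53.trans u1
  have := mul_le_mul_of_nonneg_left u1 hCS
  have := mul_le_mul_of_nonneg_left u2 hCS
  linarith

lemma collide_term (h : LNum CS Z) :
    4 * Z * Real.exp (-(LL Z : ℝ) - (lamZ Z ^ 5 + 44 * lamZ Z ^ 2 + 12)) * Real.exp (42 * lamZ Z ^ 2) ≤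
      tiny Z / 4 := by
  have hZ := h.Z2
  obtain ⟨-, hlogZ, hlog0⟩ := log_bounds h
  have e16 : (16 : ℝ) ≤ Real.exp 11 := by
    linarith [Real.quadratic_le_exp_of_nonneg (show (0 : ℝ) ≤ 11 by norm_num)]
  have key : 16 * Real.log Z * (Real.exp (-(LL Z : ℝ) - (lamZ Z ^ 5 + 44 * lamZ Z ^ 2 + 12)) *
      Real.exp (42 * lamZ Z ^ 2)) ≤ Real.exp (-(lamZ Z ^ 5)) := by
    refine (mul_le_mul_of_nonneg_right (mul_le_mul e16 hlogZ hlog0.le (Real.exp_pos _).le) (by positivity)).trans ?_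
    rw [← Real.exp_add, ← Real.exp_add, ← Real.exp_add]
    exact Real.exp_le_exp.2 (by linarith [sq_nonneg (lamZ Z)])
  have := mul_le_mul_of_nonneg_left key (show 0 ≤ Z by linarith)
  rw [tiny, div_mul_eq_mul_div, div_div, le_div_iff₀ (by positivity)]
  linarith

lemma abnormal_term (h : LNum CS Z) {cA CA CR : ℝ} (hcA : 0 < cA)
    (hCS : (1 + 4 * |CR| + 20 * |CA|) / cA ≤ CS) :
    5 * |CA| * (Z / Real.log Z) * Real.exp (-cA * lamZ Z ^ 50) * Real.exp (4 * |CR| * lamZ Z ^ 2) ≤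
      tiny Z / 4 := by
  have hZ := h.Z2
  obtain ⟨-, -, hlog0⟩ := log_bounds h
  have hl := h.lam
  have h1 : (1 : ℝ) ≤ lamZ Z := by linarith
  have hc : 1 + 4 * |CR| + 20 * |CA| ≤ cA * lamZ Z := by
    have := hCS.trans h.lamCS
    rwa [div_le_iff₀' hcA] at this
  have h50 : (1 + 4 * |CR| + 20 * |CA|) * lamZ Z ^ 5 ≤ cA * lamZ Z ^ 50 := by
    refine (mul_le_mul_of_nonneg_right hc (pow_nonneg (by linarith) _)).trans ?_
    rw [mul_assoc, ← pow_succ']
    exact mul_le_mul_of_nonneg_left (pow_le_pow_right₀ h1 (by norm_num)) hcA.le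
  have h2 := mul_le_mul_of_nonneg_left (pow_le_pow_right₀ h1 (show 2 ≤ 5 by norm_num))
    (show 0 ≤ 4 * |CR| by positivity)
  have h0 := mul_le_mul_of_nonneg_left (one_le_pow₀ (n := 5) h1) (show 0 ≤ 20 * |CA| by positivity)
  have key : 20 * |CA| * (Real.exp (-cA * lamZ Z ^ 50) * Real.exp (4 * |CR| * lamZ Z ^ 2)) ≤
      Real.exp (-(lamZ Z ^ 5)) := by
    refine (mul_le_mul_of_nonneg_right (show 20 * |CA| ≤ Real.exp (20 * |CA|) by
      linarith [Real.add_one_le_exp (20 * |CA|)]) (by positivity)).trans ?_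
    rw [← Real.exp_add, ← Real.exp_add]
    exact Real.exp_le_exp.2 (by linarith)
  have := mul_le_mul_of_nonneg_left key (show 0 ≤ Z / Real.log Z by positivity)
  rw [tiny]
  linarith

end Vale.Agent.P031.Pairs

namespace Vale.Agent.P031

open Pairs in
/-- Module `Pairs`. -/
theorem pairs : PNTStmt → MertensStmt → AbnormalSumStmt → AbnormalCountStmt → CrudeStmt →
    CollCountStmt → PairsStmt := by
  intro _ hM _ hAC hCr hS2 c hc
  obtain ⟨CM, hCM⟩ := hM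
  obtain ⟨cA, CA, hcA, hB⟩ := hAC
  obtain ⟨CR, hR⟩ := hCr
  obtain ⟨C₂, hC₂⟩ := hS2
  set CS := |C₂| + (1 + Real.exp (|CM| + 2)) + (1 + 4 * |CR| + 20 * |CA|) / cA
  have n1 : 0 ≤ |C₂| := abs_nonneg _
  have n2 : 0 ≤ 1 + Real.exp (|CM| + 2) := by positivity
  have n3 : 0 ≤ (1 + 4 * |CR| + 20 * |CA|) / cA := by positivity
  filter_upwards [Lower.eventually_num CS, eventually_ge_atTop 16] with Z h hZ16 y hy hyZ
  have hy0 : 0 ≤ y := le_trans (div_nonneg (by linarith) (by linarith)) hy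
  obtain ⟨-, -, hlog0⟩ := Lower.log_bounds h
  have hcof : ∀ m : ℕ, ∃ H t, m ∈ Mset Z → Cof Z m H t := fun m => by
    by_cases hm : m ∈ Mset Z
    · obtain ⟨H, t, hc⟩ := cof_exists h (by linarith) hm
      exact ⟨H, t, fun _ => hc⟩
    · exact ⟨∅, 0, fun hh => absurd hh hm⟩
  choose hf tf hcof using hcof
  set S := pairSet Z y
  have hfacts : ∀ x ∈ S, x.1 ∈ Mset Z ∧ 0 < x.1 ∧ x.2.Prime ∧ (pval x : ℝ) ≤ Z := fun x hx => by
    obtain ⟨h1, h2, h3, h4⟩ := pair_facts hy0 hx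
    exact ⟨h1, h2, h3, h4.trans hyZ⟩
  set S1 := S.filter fun x => ¬ 4 / 5 * Real.log Z ≤ Real.log x.2
  set R := S.filter fun x => 4 / 5 * Real.log Z ≤ Real.log x.2
  set S2 := R.filter fun x => ¬ Normal x.2
  set R2 := R.filter fun x => Normal x.2
  set S3 := R2.filter fun x => ¬ RoughSqfree (pT Z) (pval x)
  set Good := R2.filter fun x => RoughSqfree (pT Z) (pval x)
  have hR' : ∀ x ∈ R, x ∈ S ∧ 4 / 5 * Real.log Z ≤ Real.log x.2 := fun x hx => mem_filter.1 hx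
  have hR2 : ∀ x ∈ R2, x ∈ S ∧ 4 / 5 * Real.log Z ≤ Real.log x.2 ∧ Normal x.2 := fun x hx =>
    ⟨(hR' x (mem_filter.1 hx).1).1, (hR' x (mem_filter.1 hx).1).2, (mem_filter.1 hx).2⟩
  have b1 : (S1.card : ℝ) ≤ tiny Z / 4 := by
    refine (few_small h (fun m hm => (hcof m hm).small) S1 fun x hx => ?_).trans (small_term h)
    obtain ⟨hx, hl⟩ := mem_filter.1 hx
    exact ⟨(hfacts x hx).1, (hfacts x hx).2.2.1, hl⟩
  have b2 : (S2.card : ℝ) ≤ tiny Z / 4 := by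
    refine (few_abnormal h hcA hB hR (fun m hm => (hcof m hm).totU) S2 fun x hx => ?_).trans
      (abnormal_term h hcA (by linarith))
    obtain ⟨hx, hn⟩ := mem_filter.1 hx
    obtain ⟨f1, -, f3, f4⟩ := hfacts x (hR' x hx).1
    exact ⟨f1, f3, f4, (hR' x hx).2, hn⟩
  have b3 : (S3.card : ℝ) ≤ tiny Z / 4 := by
    refine (few_square h S3 fun x hx => ?_).trans (square_term h)
    obtain ⟨hx, hn⟩ := mem_filter.1 hx
    obtain ⟨-, f2, f3, f4⟩ := hfacts x (hR2 x hx).1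
    exact ⟨f2, f3, f4, hn⟩
  have herr : ∀ k : ℕ, 0 ≤ collErr (pT Z) (pK Z + 1) (Lower.pOm Z) k := fun k => by
    refine mul_nonneg (by positivity) ?_
    have := Real.log_nonneg (show (1 : ℝ) ≤ (Lower.pOm Z : ℝ) + 2 by
      linarith [(Nat.cast_nonneg (Lower.pOm Z) : (0 : ℝ) ≤ _)])
    positivity
  have hG : ∀ x ∈ Good, Cof Z x.1 (hf x.1) (tf x.1) ∧ Normal x.2 ∧ (pval x : ℝ) ≤ Z ∧
      LL Z ≤ kap x.2 + 1 ∧ kap x.2 ≤ LL Z ∧ RoughSqfree (pT Z) (pval x) := fun x hx => by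
    obtain ⟨hx, hsq⟩ := mem_filter.1 hx
    obtain ⟨hxS, hlp, hn⟩ := hR2 x hx
    obtain ⟨f1, f2, f3, f4⟩ := hfacts x hxS
    have hpZ : (x.2 : ℝ) ≤ Z + 1 := by
      have h1 : x.2 ≤ pval x + 1 := by
        have := Nat.le_mul_of_pos_right (x.2 - 1) f2
        simp only [pval]
        omega
      have h2 : (x.2 : ℝ) ≤ (pval x : ℝ) + 1 := by exact_mod_cast h1
      linarith
    obtain ⟨hlo, hhi⟩ := top_of_log h f3 hpZ hlp
    exact ⟨hcof _ f1, hn, f4, hlo, hhi, hsq⟩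
  have b4 : (((Good ×ˢ Good).filter fun x => x.1 ≠ x.2 ∧ pval x.1 = pval x.2).card : ℝ) ≤ tiny Z / 4 := by
    refine (few_collide h (CC := -(LL Z : ℝ) - (lamZ Z ^ 5 + 44 * lamZ Z ^ 2 + 12))
      (le_trans (le_abs_self C₂) (by linarith)) hC₂ (fun k hk hk' => ?_) hf tf Good hG).trans ?_
    · have := collide_exp h (by linarith) hk hk'
      have := mul_le_mul_of_nonneg_right (le_trans (le_abs_self C₂) (show |C₂| ≤ CS by linarith)) (herr k)
      linarith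
    · refine le_trans (mul_le_mul_of_nonneg_left (Lower.commons_sum h hCM (by linarith)) (by positivity)) ?_
      exact collide_term h
  have himg : ((Good.image pval).card : ℝ) ≤ (Vcount y : ℝ) := by
    rw [Nat.cast_le, Vcount, ← Set.ncard_coe_finset]
    refine Set.ncard_le_ncard (fun v hv => ?_) ((Set.finite_Iic ⌊y⌋₊).subset fun v hv => Nat.le_floor hv.2)
    obtain ⟨x, hx, rfl⟩ := mem_image.1 (mem_coe.1 hv)
    obtain ⟨hxS, hlp, -⟩ := hR2 x (mem_filter.1 hx).1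
    obtain ⟨f1, f2, f3, f4⟩ := pair_facts hy0 hxS
    refine ⟨(hcof _ f1).tot x.2 f3 ?_, f4⟩
    have hm := (hcof _ f1).small
    have hm0 : (1 : ℝ) ≤ (x.1 : ℝ) := by exact_mod_cast f2
    have hp2 : (2 : ℝ) ≤ (x.2 : ℝ) := by exact_mod_cast f3.two_le
    have h14 : 4 ≤ Real.log Z := by
      obtain ⟨hb, -, -⟩ := Lower.log_bounds h
      have := Real.add_one_le_exp (LL Z : ℝ)
      linarith [(scale_facts h).2.2]
    have h2m : 2 * (x.1 : ℝ) < (x.2 : ℝ) := by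
      rw [← Real.log_lt_log_iff (by linarith) (by linarith), Real.log_mul two_ne_zero (by linarith)]
      linarith [Real.log_two_lt_d9]
    exact_mod_cast (show (x.1 : ℝ) + 1 < (x.2 : ℝ) by linarith)
  have hgood : (Good.card : ℝ) ≤ ((Good.image pval).card : ℝ) +
      (((Good ×ˢ Good).filter fun x => x.1 ≠ x.2 ∧ pval x.1 = pval x.2).card : ℝ) := by
    exact_mod_cast Lower.card_le_image_add Good pval
  have e1 : (R.card : ℝ) + (S1.card : ℝ) = (S.card : ℝ) := by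
    exact_mod_cast card_filter_add_card_filter_not (s := S) fun x => 4 / 5 * Real.log Z ≤ Real.log (x.2 : ℝ)
  have e2 : (R2.card : ℝ) + (S2.card : ℝ) = (R.card : ℝ) := by
    exact_mod_cast card_filter_add_card_filter_not (s := R) fun x => Normal x.2
  have e3 : (Good.card : ℝ) + (S3.card : ℝ) = (R2.card : ℝ) := by
    exact_mod_cast card_filter_add_card_filter_not (s := R2) fun x => RoughSqfree (pT Z) (pval x)
  have eS : (S.card : ℝ) = mainSum Z y := pairSet_card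
  linarith

end Vale.Agent.P031
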