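import Vale.Agent.P031.Asm.Iface
import Vale.Agent.P031.Exceed
import Vale.Agent.P031.CrudeParts

/-!
# Counting lemmas for the first regularity conditions
-/

open Filter Topology Finset
open scoped Classical

namespace Vale.Agent.P031.RegA

lemma tendsto_LL : Tendsto (fun Z : ℝ => LL Z) atTop atTop :=
  tendsto_nat_floor_atTop.comp (Real.tendsto_log_atTop.comp
    (Real.tendsto_log_atTop.comp (tendsto_atTop_add_const_right atTop 1 tendsto_id)))

lemma tendsto_lamZ : Tendsto lamZ atTop atTop :=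
  Real.tendsto_log_atTop.comp (tendsto_natCast_atTop_atTop.comp tendsto_LL)

/-- Elementary facts about the scale. -/
lemma scale {Z : ℝ} (hZ : 16 ≤ Z) :
    Real.exp (LL Z : ℝ) / 2 ≤ Real.log Z ∧ Real.log Z < Real.exp ((LL Z : ℝ) + 1) ∧
      1 < Real.log Z := by
  have he : Real.exp 1 < 3 := by linarith [Real.exp_one_lt_d9]
  have h1 : 1 < Real.log Z := by
    rw [Real.lt_log_iff_exp_lt (by linarith)]; linarith
  have h2 : 1 < Real.log (Z + 1) := h1.trans_le (Real.log_le_log (by linarith) (by linarith))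
  have h3 : 0 ≤ Real.log (Real.log (Z + 1)) := Real.log_nonneg h2.le
  have h4 : Real.exp (LL Z : ℝ) ≤ Real.log (Z + 1) := by
    rw [← Real.exp_log (show 0 < Real.log (Z + 1) by linarith)]
    exact Real.exp_le_exp.2 (Nat.floor_le h3)
  have h5 : Real.log (Z + 1) < Real.exp ((LL Z : ℝ) + 1) := by
    conv_lhs => rw [← Real.exp_log (show 0 < Real.log (Z + 1) by linarith)]
    exact Real.exp_lt_exp.2 (Nat.lt_floor_add_one _)
  have h6 : Real.log (Z + 1) ≤ Real.log Z + 1 := by
    have : Real.log (Z + 1) ≤ Real.log (2 * Z) := Real.log_le_log (by linarith) (by linarith)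
    rw [Real.log_mul two_ne_zero (by linarith)] at this
    linarith [Real.log_two_lt_d9]
  have h7 : Real.log Z ≤ Real.log (Z + 1) := Real.log_le_log (by linarith) (by linarith)
  exact ⟨by linarith, by linarith, h1⟩

lemma kap_le_LL {Z : ℝ} {q : ℕ} (hq : q.Prime) (h : (q : ℝ) ≤ Z + 1) : kap q ≤ LL Z := by
  have h2 : (2 : ℝ) ≤ q := by exact_mod_cast hq.two_le
  refine Nat.floor_mono (Real.log_le_log (Real.log_pos (by linarith)) ?_)
  exact Real.log_le_log (by linarith) h

lemma bigOm_mul {a b : ℕ} (ha : a ≠ 0) (hb : b ≠ 0) : bigOm (a * b) = bigOm a + bigOm b := by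
  unfold bigOm
  rw [(Nat.perm_primeFactorsList_mul ha hb).length_eq, List.length_append]

lemma bigOm_prime {p : ℕ} (hp : p.Prime) : bigOm p = 1 := by
  simp [bigOm, Nat.primeFactorsList_prime hp]

lemma le_pow_bigOm {n P : ℕ} (hn : n ≠ 0) (h : ∀ q ∈ n.primeFactors, q ≤ P) :
    n ≤ P ^ bigOm n := by
  conv_lhs => rw [← Nat.prod_primeFactorsList hn]
  exact List.prod_le_pow_card _ P fun q hq => h q (by
    rw [Nat.mem_primeFactors_iff_mem_primeFactorsList]; exact hq)

/-- Each odd prime factor gives a factor to the totient. -/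
lemma bigOm_totient (n : ℕ) : 0 < n →
    bigOm n ≤ bigOm n.totient + 1 ∧ (Odd n → bigOm n ≤ bigOm n.totient) := by
  induction n using Nat.strong_induction_on with
  | _ n ih =>
    intro hn
    rcases eq_or_ne n 1 with rfl | h1
    · simp [bigOm]
    set p := n.minFac with hp'
    have hp : p.Prime := Nat.minFac_prime h1
    obtain ⟨m, hm⟩ := Nat.minFac_dvd n
    have hm0 : 0 < m := by
      rcases Nat.eq_zero_or_pos m with h | h
      · rw [h, mul_zero] at hm; omega
      · exact h
    have hlt : m < n := by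
      rw [hm]; exact lt_mul_left hm0 hp.one_lt
    obtain ⟨iha, ihb⟩ := ih m hlt hm0
    have hΩ : bigOm n = 1 + bigOm m := by
      conv_lhs => rw [hm]
      rw [bigOm_mul hp.ne_zero hm0.ne', bigOm_prime hp]
    have hm' : m.totient ≠ 0 := (Nat.totient_pos.2 hm0).ne'
    rw [hΩ]
    by_cases hd : p ∣ m
    · have e : bigOm n.totient = 1 + bigOm m.totient := by
        rw [hm, Nat.totient_mul_of_prime_of_dvd hp hd, bigOm_mul hp.ne_zero hm', bigOm_prime hp]
      rw [e]
      refine ⟨by omega, fun ho => ?_⟩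
      rw [hm] at ho
      have := ihb (Nat.odd_mul.1 ho).2
      omega
    · have e : bigOm n.totient = bigOm (p - 1) + bigOm m.totient := by
        rw [hm, Nat.totient_mul_of_prime_of_not_dvd hp hd,
          bigOm_mul (by have := hp.two_le; omega) hm']
      rw [e]
      rcases eq_or_ne p 2 with h2 | h2
      · have hmo : Odd m := Nat.not_even_iff_odd.1 fun he => hd (h2 ▸ he.two_dvd)
        have := ihb hmo
        refine ⟨by omega, fun ho => ?_⟩
        have h2n : 2 ∣ n := h2 ▸ Nat.minFac_dvd n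
        exact absurd (even_iff_two_dvd.2 h2n) (Nat.not_even_iff_odd.2 ho)
      · have h3 : 1 ≤ bigOm (p - 1) := by
          have := hp.two_le
          unfold bigOm
          rw [Nat.one_le_iff_ne_zero, Ne, List.length_eq_zero_iff, Nat.primeFactorsList_eq_nil]
          omega
        refine ⟨by omega, fun ho => ?_⟩
        rw [hm] at ho
        have := ihb (Nat.odd_mul.1 ho).2
        omega

/-- Few values have many prime factors. -/
lemma omega_tail (hM : MertensStmt) : ∃ C : ℝ, ∀ Z : ℝ, 16 ≤ Z →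
    (((Icc 1 ⌊Z⌋₊).filter fun v => 10 * (LL Z + 1) < bigOm v).card : ℝ) ≤
      Z / Real.log Z * Real.exp (C - ((LL Z : ℝ) + 1) / 2) := by
  obtain ⟨C, hC⟩ := hM
  have hC0 : 0 ≤ C := by
    have h := hC 0
    simp at h
    linarith [abs_nonneg ((∑ p ∈ cell 0, ((p : ℝ))⁻¹) - 1)]
  set ρ : ℝ := (2 : ℝ) ^ ((1 : ℝ) / 4) with hρ
  have hρ1 : 1 ≤ ρ := Real.one_le_rpow (by norm_num) (by norm_num)
  have hρ0 : 0 < ρ := by linarith
  have hρ2 : ρ ≤ 1.2 := by
    have h : ρ ^ (4 : ℕ) = 2 := by
      rw [hρ, ← Real.rpow_natCast, ← Real.rpow_mul (by norm_num)]; norm_num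
    by_contra hc
    have := pow_le_pow_left₀ (by norm_num) (not_le.1 hc).le 4
    rw [h] at this
    norm_num at this
  refine ⟨Real.log 82 + 3 * C + 20, fun Z hZ => ?_⟩
  obtain ⟨-, -, hlogZ⟩ := scale hZ
  set L := LL Z with hL
  set N := ⌊Z⌋₊ with hN
  have hwt : ∀ n, wt (fun _ => ρ) n = ρ ^ bigOm n := fun n => by
    simp [wt, bigOm]
  have hS : ∑ n ∈ Icc 1 N, wt (fun _ => ρ) n / n ≤
      Real.exp (1.2 * ((L : ℝ) + 1) + 3 * C + 20) := by
    set S : Finset ℕ := (range (L + 1)).biUnion cell with hSdef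
    have hSp : ∀ p ∈ S, p.Prime := fun p hp => by
      obtain ⟨s, -, hs⟩ := mem_biUnion.1 hp
      exact (mem_cell.1 hs).1
    refine (euler_sum _ S hSp (fun p hp => ⟨hρ0.le, ?_⟩) (Icc 1 N) fun n hn => ?_).trans ?_
    · have : (2 : ℝ) ≤ p := by exact_mod_cast (hSp p hp).two_le
      linarith
    · refine ⟨(mem_Icc.1 hn).1, fun p hp => mem_biUnion.2 ⟨kap p, ?_, ?_⟩⟩
      · have hpp := (Nat.mem_primeFactors.1 hp).1
        have hpn : (p : ℝ) ≤ N := by
          exact_mod_cast (Nat.le_of_mem_primeFactors hp).trans (mem_Icc.1 hn).2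
        have hNZ : (N : ℝ) ≤ Z := Nat.floor_le (by linarith)
        exact mem_range.2 (Nat.lt_succ_of_le (kap_le_LL hpp (by linarith)))
      · exact mem_cell.2 ⟨(Nat.mem_primeFactors.1 hp).1, rfl⟩
    have hx : ∀ p ∈ S, ρ / (p : ℝ) ≤ 0.6 := fun p hp => by
      have h2 : (2 : ℝ) ≤ p := by exact_mod_cast (hSp p hp).two_le
      rw [div_le_iff₀ (by linarith)]; linarith
    calc ∏ p ∈ S, (1 - ρ / (p : ℝ))⁻¹
        ≤ ∏ p ∈ S, Real.exp (ρ / p + 3.6 * (1 / (p : ℝ) ^ 2)) := by
          refine prod_le_prod (fun p hp => inv_nonneg.2 (by linarith [hx p hp])) fun p hp => ?_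
          set x := ρ / (p : ℝ) with hxd
          have hx0 : 0 ≤ x := by positivity
          have hx1 := hx p hp
          have hx2 : x ^ 2 ≤ 1.44 * (1 / (p : ℝ) ^ 2) := by
            rw [hxd, div_pow, mul_one_div]; gcongr; nlinarith
          have h3 : x / (1 - x) ≤ x + 2.5 * x ^ 2 := by
            rw [div_le_iff₀ (by linarith)]; nlinarith [mul_nonneg hx0 hx0]
          refine le_trans ?_ (Real.exp_le_exp.2
            (show x / (1 - x) ≤ x + 3.6 * (1 / (p : ℝ) ^ 2) by linarith))
          refine le_trans (le_of_eq ?_) (Real.add_one_le_exp _)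
          have : (1 - x) ≠ 0 := by linarith
          field_simp
          ring
      _ = Real.exp (ρ * ∑ p ∈ S, 1 / (p : ℝ) + 3.6 * ∑ p ∈ S, 1 / (p : ℝ) ^ 2) := by
          rw [← Real.exp_sum, sum_add_distrib, mul_sum, mul_sum]; simp [div_eq_mul_inv]
      _ ≤ _ := by
          refine Real.exp_le_exp.2 ?_
          have h1 : ∑ p ∈ S, 1 / (p : ℝ) ≤ ((L : ℝ) + 1) + 2 * C := by
            rw [hSdef, sum_biUnion]
            · refine (sum_le_sum fun s _ =>
                (show ∑ p ∈ cell s, 1 / (p : ℝ) ≤ 1 + C * (1 / 2) ^ s from ?_)).trans ?_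
              · have h := (abs_le.1 (hC s)).2
                have he : Real.exp (-(s : ℝ)) ≤ (1 / 2) ^ s := by
                  rw [show -(s : ℝ) = (s : ℝ) * (-1) by ring, Real.exp_nat_mul]
                  refine pow_le_pow_left₀ (Real.exp_pos _).le ?_ s
                  rw [Real.exp_neg, inv_le_comm₀ (Real.exp_pos 1) (by norm_num)]
                  linarith [Real.add_one_le_exp 1]
                nlinarith [mul_le_mul_of_nonneg_left he hC0]
              · rw [sum_add_distrib, ← mul_sum]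
                simp only [sum_const, card_range, nsmul_eq_mul, mul_one]
                push_cast
                nlinarith [sum_geometric_two_le (L + 1)]
            · intro a _ b _ hab
              rw [Function.onFun, disjoint_left]
              intro p ha hb
              exact hab ((mem_cell.1 ha).2.symm.trans (mem_cell.1 hb).2)
          have h2 := sum_inv_sq_le S
          have h0 : 0 ≤ ∑ p ∈ S, 1 / (p : ℝ) := sum_nonneg fun p _ => by positivity
          nlinarith
  have hsum := Exceed.wt_sum_le (z := fun _ => ρ) (A := 2) (X := Z) (by norm_num)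
    (fun _ => ⟨hρ1, by linarith⟩) (fun p hp => by
      rw [hρ]
      exact Real.rpow_le_rpow (by norm_num) (by exact_mod_cast hp.two_le) (by norm_num))
    (by linarith)
  set B := (Icc 1 N).filter fun v => 10 * (L + 1) < bigOm v with hB
  have h1 : (B.card : ℝ) * ρ ^ (10 * (L + 1)) ≤ ∑ n ∈ Icc 1 N, wt (fun _ => ρ) n := by
    rw [← nsmul_eq_mul]
    refine (card_nsmul_le_sum B _ _ fun n hn => ?_).trans
      (sum_le_sum_of_subset_of_nonneg (filter_subset _ _) fun n _ _ => by rw [hwt]; positivity)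
    rw [hwt]
    exact pow_le_pow_right₀ hρ1 (mem_filter.1 hn).2.le
  have hexp : ρ ^ (10 * (L + 1)) = Real.exp (((L : ℝ) + 1) * (Real.log 2 * (5 / 2))) := by
    rw [hρ, ← Real.rpow_natCast, ← Real.rpow_mul (by norm_num), Real.rpow_def_of_pos (by norm_num)]
    congr 1; push_cast; ring
  have h2 : (B.card : ℝ) * ρ ^ (10 * (L + 1)) * Real.log Z ≤
      82 * Z * Real.exp (1.2 * ((L : ℝ) + 1) + 3 * C + 20) := by
    refine (mul_le_mul_of_nonneg_right h1 (by linarith)).trans (hsum.trans ?_)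
    have := mul_le_mul_of_nonneg_left hS (show (0 : ℝ) ≤ 41 * 2 * Z by linarith)
    linarith
  rw [hexp] at h2
  have hfin : (B.card : ℝ) ≤ Z / Real.log Z * (82 *
      (Real.exp (1.2 * ((L : ℝ) + 1) + 3 * C + 20) /
        Real.exp (((L : ℝ) + 1) * (Real.log 2 * (5 / 2))))) := by
    rw [div_mul_eq_mul_div, le_div_iff₀ (by linarith), ← mul_assoc, mul_div_assoc',
      le_div_iff₀ (Real.exp_pos _)]
    linarith
  refine hfin.trans (mul_le_mul_of_nonneg_left ?_ (div_nonneg (by linarith) (by linarith)))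
  rw [← Real.exp_sub, ← Real.exp_log (show (0 : ℝ) < 82 by norm_num), ← Real.exp_add,
    Real.exp_le_exp, Real.log_exp]
  nlinarith [Real.log_two_gt_d9]

lemma sum_tele (R M : ℕ) (hR : 1 ≤ R) (hRM : R ≤ M) :
    ∑ r ∈ Ioc R M, 1 / (((r : ℝ) - 1) * r) ≤ 1 / (R : ℝ) - 1 / M := by
  induction M, hRM using Nat.le_induction with
  | base => simp
  | succ M hM ih =>
    rw [sum_Ioc_succ_top hM]
    have h1 : (1 : ℝ) ≤ M := by exact_mod_cast hR.trans hM
    have e : 1 / ((((M + 1 : ℕ) : ℝ) - 1) * ((M + 1 : ℕ) : ℝ))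
        = 1 / (M : ℝ) - 1 / ((M + 1 : ℕ) : ℝ) := by
      have : (M : ℝ) ≠ 0 := by linarith
      push_cast
      rw [add_sub_cancel_right, div_sub_div _ _ this (by positivity)]
      ring
    linarith

/-- Few values are divisible by `r²` or `r (r - 1)` for a prime `r` of high level. -/
lemma square_count (N T : ℕ) :
    (((Icc 1 N).filter fun v => ∃ r : ℕ, r.Prime ∧ T < kap r ∧
        (r * r ∣ v ∨ r * (r - 1) ∣ v)).card : ℝ) ≤
      4 * N * Real.exp (-Real.exp (T : ℝ)) := by
  set R := ⌊Real.exp (Real.exp (T : ℝ))⌋₊ with hR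
  have he : (2 : ℝ) ≤ Real.exp (Real.exp (T : ℝ)) := by
    have h1 : (1 : ℝ) ≤ Real.exp (T : ℝ) := Real.one_le_exp (Nat.cast_nonneg T)
    linarith [Real.add_one_le_exp (Real.exp (T : ℝ))]
  have hR1 : 1 ≤ R := Nat.le_floor (by push_cast; linarith)
  set P := (Ioc R (max R (N + 1))).filter Nat.Prime with hP
  have hsub : ((Icc 1 N).filter fun v => ∃ r : ℕ, r.Prime ∧ T < kap r ∧
      (r * r ∣ v ∨ r * (r - 1) ∣ v)) ⊆ P.biUnion fun r =>
        (Ioc 0 N).filter (fun v => r * r ∣ v) ∪ (Ioc 0 N).filter fun v => r * (r - 1) ∣ v := by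
    intro v hv
    obtain ⟨hvI, r, hr, hrT, hd⟩ := mem_filter.1 hv
    obtain ⟨hv1, hv2⟩ := mem_Icc.1 hvI
    have hr2 := hr.two_le
    have hRr : R < r := by
      have h := exp_exp_le (p := r) (s := T + 1) (by omega) hrT
      have : (R : ℝ) < r := by
        refine lt_of_lt_of_le (lt_of_le_of_lt (Nat.floor_le (by linarith)) ?_) h
        push_cast
        gcongr
        linarith
      exact_mod_cast this
    have hrN : r ≤ N + 1 := by
      rcases hd with hd | hd
      · have := Nat.le_of_dvd hv1 (dvd_trans (dvd_mul_right r r) hd); omega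
      · have := Nat.le_of_dvd hv1 (dvd_trans (dvd_mul_left (r - 1) r) hd); omega
    refine mem_biUnion.2 ⟨r, mem_filter.2 ⟨mem_Ioc.2 ⟨hRr, le_max_of_le_right hrN⟩, hr⟩, ?_⟩
    simp only [mem_union, mem_filter, mem_Ioc]
    rcases hd with hd | hd
    · exact Or.inl ⟨⟨hv1, hv2⟩, hd⟩
    · exact Or.inr ⟨⟨hv1, hv2⟩, hd⟩
  have hcard : ∀ d : ℕ, 0 < d →
      (((Ioc 0 N).filter fun v => d ∣ v).card : ℝ) ≤ (N : ℝ) / d := fun d _ => by
    rw [Nat.Ioc_filter_dvd_card_eq_div]; exact Nat.cast_div_le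
  calc _ ≤ ((P.biUnion fun r =>
        (Ioc 0 N).filter (fun v => r * r ∣ v) ∪
          (Ioc 0 N).filter fun v => r * (r - 1) ∣ v).card : ℝ) := by
        exact_mod_cast card_le_card hsub
    _ ≤ ∑ r ∈ P, 2 * (N : ℝ) * (1 / (((r : ℝ) - 1) * r)) := by
        refine (Nat.cast_le.2 card_biUnion_le).trans ?_
        push_cast
        refine sum_le_sum fun r hr => ?_
        have hr2 := (mem_filter.1 hr).2.two_le
        have hr2' : (2 : ℝ) ≤ r := by exact_mod_cast hr2
        refine (Nat.cast_le.2 (card_union_le _ _)).trans ?_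
        push_cast
        have h1 := hcard (r * r) (by positivity)
        have h2 := hcard (r * (r - 1)) (Nat.mul_pos (by omega) (by omega))
        rw [Nat.cast_mul] at h1 h2
        rw [Nat.cast_sub (by omega), Nat.cast_one] at h2
        have h3 : (N : ℝ) / ((r : ℝ) * r) ≤ (N : ℝ) / ((r : ℝ) * ((r : ℝ) - 1)) := by
          refine div_le_div_of_nonneg_left (Nat.cast_nonneg N) (by nlinarith) (by nlinarith)
        have e : (N : ℝ) / ((r : ℝ) * ((r : ℝ) - 1)) = N * (1 / (((r : ℝ) - 1) * r)) := by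
          rw [mul_comm ((r : ℝ) - 1), mul_one_div]
        linarith
    _ ≤ 2 * N * (1 / (R : ℝ)) := by
        rw [← mul_sum]
        refine mul_le_mul_of_nonneg_left ?_ (by positivity)
        refine (sum_le_sum_of_subset_of_nonneg (filter_subset _ _) fun r hr _ => ?_).trans
          ((sum_tele R _ hR1 (le_max_left _ _)).trans (sub_le_self _ (by positivity)))
        have : (1 : ℝ) ≤ r := by
          exact_mod_cast (by have := (mem_Ioc.1 hr).1; omega : 1 ≤ r)
        exact one_div_nonneg.2 (mul_nonneg (by linarith) (by linarith))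
    _ ≤ _ := by
        have h := Nat.lt_floor_add_one (Real.exp (Real.exp (T : ℝ)))
        have hR0 : (1 : ℝ) ≤ R := by exact_mod_cast hR1
        have : 1 / (R : ℝ) ≤ 2 * Real.exp (-Real.exp (T : ℝ)) := by
          rw [Real.exp_neg, ← div_eq_mul_inv, div_le_div_iff₀ (by linarith) (by linarith)]
          linarith
        nlinarith [show (0 : ℝ) ≤ N from Nat.cast_nonneg N]

/-- A set all of whose elements are `(p - 1) m`. -/
lemma pair_count {B M : Finset ℕ} (Pm : ℕ → Finset ℕ) (h : ∀ v ∈ B,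
    ∃ m ∈ M, ∃ p ∈ Pm m, v = (p - 1) * m) :
    (B.card : ℝ) ≤ ∑ m ∈ M, ((Pm m).card : ℝ) := by
  have hsub : B ⊆ M.biUnion fun m => (Pm m).image fun p => (p - 1) * m := fun v hv => by
    obtain ⟨m, hm, p, hp, rfl⟩ := h v hv
    exact mem_biUnion.2 ⟨m, hm, mem_image.2 ⟨p, hp, rfl⟩⟩
  refine (Nat.cast_le.2 ((card_le_card hsub).trans card_biUnion_le)).trans ?_
  push_cast
  exact sum_le_sum fun m _ => by exact_mod_cast card_image_le

end Vale.Agent.P031.RegA
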