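import Vale.Agent.P031.Asm.PairsParts
import Vale.Agent.P031.Asm.Lower
import Vale.Agent.P031.Asm.RegAParts

/-!
# Pairs behind the main sum: the exceptional pairs
-/

open Finset Filter Topology
open scoped Classical

namespace Vale.Agent.P031.Pairs

open Lower (LNum log_bounds commons pOm)

/-- The pairs counted by the main sum. -/
noncomputable def pairSet (Z y : ℝ) : Finset ((_ : ℕ) × ℕ) :=
  (Mset Z).sigma fun m => (range (⌊y / m⌋₊ + 1 + 1)).filter Nat.Prime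

/-- The value of a pair. -/
def pval (x : (_ : ℕ) × ℕ) : ℕ := (x.2 - 1) * x.1

variable {CS Z y : ℝ} {x : (_ : ℕ) × ℕ}

lemma pairSet_card : ((pairSet Z y).card : ℝ) = mainSum Z y := by
  simp only [pairSet, card_sigma, mainSum, Nat.cast_sum, Nat.primeCounting, Nat.primeCounting',
    Nat.count_eq_card_filter_range]

lemma pair_facts (hy : 0 ≤ y) (hx : x ∈ pairSet Z y) :
    x.1 ∈ Mset Z ∧ 0 < x.1 ∧ x.2.Prime ∧ (pval x : ℝ) ≤ y := by
  obtain ⟨hm, hp⟩ := mem_sigma.1 hx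
  obtain ⟨hp1, hpp⟩ := mem_filter.1 hp
  have hm0 : 0 < x.1 := (mem_Icc.1 (mem_filter.1 hm).1).1
  refine ⟨hm, hm0, hpp, ?_⟩
  have h1 : x.2 - 1 ≤ ⌊y / (x.1 : ℝ)⌋₊ := by have := mem_range.1 hp1; omega
  have h2 : ((x.2 - 1 : ℕ) : ℝ) ≤ y / x.1 :=
    le_trans (Nat.cast_le.2 h1) (Nat.floor_le (by positivity))
  rw [le_div_iff₀ (by exact_mod_cast hm0)] at h2
  simpa [pval] using h2

lemma top_of_log (h : LNum CS Z) {p : ℕ} (hp : p.Prime) (hpZ : (p : ℝ) ≤ Z + 1)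
    (hlp : 4 / 5 * Real.log Z ≤ Real.log p) : LL Z ≤ kap p + 1 ∧ kap p ≤ LL Z := by
  refine ⟨?_, RegA.kap_le_LL hp hpZ⟩
  obtain ⟨hb, -, hlog0⟩ := log_bounds h
  have hlp0 : 0 < Real.log (p : ℝ) := Real.log_pos (by exact_mod_cast hp.one_lt)
  have hlow : (LL Z : ℝ) - 1 ≤ Real.log (Real.log p) := by
    rw [← Real.exp_le_exp, Real.exp_log hlp0]
    refine le_trans ?_ hlp
    rw [Real.exp_sub, div_le_iff₀ (Real.exp_pos 1)]
    have he' := Real.exp_one_gt_d9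
    norm_num at he'
    nlinarith
  have h1 : LL Z - 1 ≤ kap p := Nat.le_floor (le_trans (by
    rw [Nat.cast_sub (by exact_mod_cast h.one_L)]; norm_num) hlow)
  omega

/-- Pairs with a small prime. -/
lemma few_small (h : LNum CS Z) (hM : ∀ m ∈ Mset Z, Real.log m ≤ Real.log Z / 10)
    (S : Finset ((_ : ℕ) × ℕ))
    (hS : ∀ x ∈ S, x.1 ∈ Mset Z ∧ x.2.Prime ∧ ¬ 4 / 5 * Real.log Z ≤ Real.log x.2) :
    (S.card : ℝ) ≤ Real.exp (9 / 10 * Real.log Z) := by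
  have hZ := h.Z2
  set A := ⌊Real.exp (Real.log Z / 10)⌋₊
  set B := ⌊Real.exp (4 / 5 * Real.log Z)⌋₊
  have hsub : S ⊆ (Icc 1 A).sigma fun _ => Icc 1 B := fun x hx => by
    obtain ⟨hm, hp, hlp⟩ := hS x hx
    have hm0 := (mem_Icc.1 (mem_filter.1 hm).1).1
    refine mem_sigma.2 ⟨mem_Icc.2 ⟨hm0, Nat.le_floor ?_⟩, mem_Icc.2 ⟨hp.one_le, Nat.le_floor ?_⟩⟩
    · rw [← Real.log_le_iff_le_exp (by exact_mod_cast hm0)]
      exact hM _ hm
    · rw [← Real.log_le_iff_le_exp (by exact_mod_cast hp.pos)]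
      exact (not_le.1 hlp).le
  refine (Nat.cast_le.2 (card_le_card hsub)).trans ?_
  rw [card_sigma, sum_const, smul_eq_mul, Nat.card_Icc, Nat.card_Icc, Nat.cast_mul, Nat.add_sub_cancel,
    Nat.add_sub_cancel]
  refine (mul_le_mul (Nat.floor_le (Real.exp_pos _).le) (Nat.floor_le (Real.exp_pos _).le) (Nat.cast_nonneg _)
    (Real.exp_pos _).le).trans (le_of_eq ?_)
  rw [← Real.exp_add]
  congr 1
  ring

/-- Pairs with an abnormal large prime. -/
lemma few_abnormal (h : LNum CS Z) {cA CA CR : ℝ} (hcA : 0 < cA)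
    (hAC : ∀ (k : ℕ) (Y : ℝ), 2 ≤ Y →
      (((cell k).filter (fun q : ℕ => (q : ℝ) ≤ Y ∧ ¬ Normal q)).card : ℝ) ≤
        CA * Y / Real.log Y * Real.exp (-cA * (k : ℝ) ^ ((1 : ℝ) / 2)))
    (hCR : ∀ (u : ℕ) (M : Finset ℕ), (∀ m ∈ M, IsTotUpTo u m) →
      (∑ m ∈ M, (1 : ℝ) / m) ≤ Real.exp (CR * Real.log ((u : ℝ) + 2) ^ 2))
    (hM : ∀ m ∈ Mset Z, IsTotUpTo (LL Z) m) (S : Finset ((_ : ℕ) × ℕ))
    (hS : ∀ x ∈ S, x.1 ∈ Mset Z ∧ x.2.Prime ∧ (pval x : ℝ) ≤ Z ∧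
      4 / 5 * Real.log Z ≤ Real.log x.2 ∧ ¬ Normal x.2) :
    (S.card : ℝ) ≤ 5 * |CA| * (Z / Real.log Z) *
      Real.exp (-cA * lamZ Z ^ 50) * Real.exp (4 * |CR| * lamZ Z ^ 2) := by
  have hZ := h.Z2
  obtain ⟨-, -, hlog0⟩ := log_bounds h
  set E := Real.exp (-cA * lamZ Z ^ 50)
  have hl := h.lam
  have hfib : ∀ m ∈ Mset Z, ((S.filter fun x => x.1 = m).card : ℝ) ≤
      5 * |CA| * (Z / Real.log Z) * E * (1 / (m : ℝ)) := by
    intro m hm
    rcases (S.filter fun x => x.1 = m).eq_empty_or_nonempty with he | ⟨x₀, hx₀⟩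
    · rw [he, card_empty, Nat.cast_zero]; positivity
    have hm0 : (0 : ℝ) < m := by exact_mod_cast (mem_Icc.1 (mem_filter.1 hm).1).1
    set Y := Z / (m : ℝ) + 1
    have hxY : ∀ x ∈ S.filter (fun x => x.1 = m), x.2.Prime ∧ (x.2 : ℝ) ≤ Y ∧
        4 / 5 * Real.log Z ≤ Real.log x.2 ∧ ¬ Normal x.2 ∧ (x.2 : ℝ) ≤ Z + 1 := fun x hx => by
      obtain ⟨hxS, rfl⟩ := mem_filter.1 hx
      obtain ⟨-, hp, hv, hlp, hn⟩ := hS x hxS
      rw [pval, Nat.cast_mul, Nat.cast_sub hp.one_le, Nat.cast_one] at hv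
      have hp2 : (2 : ℝ) ≤ (x.2 : ℝ) := by exact_mod_cast hp.two_le
      have hm1 : (1 : ℝ) ≤ (x.1 : ℝ) := by exact_mod_cast (mem_Icc.1 (mem_filter.1 hm).1).1
      have : (x.2 : ℝ) - 1 ≤ Z / (x.1 : ℝ) := by rw [le_div_iff₀ hm0]; exact hv
      have := le_mul_of_one_le_right (show 0 ≤ (x.2 : ℝ) - 1 by linarith) hm1
      exact ⟨hp, by simp only [Y]; linarith, hlp, hn, by linarith⟩
    obtain ⟨hp₀, hpY₀, hlp₀, -, -⟩ := hxY x₀ hx₀
    have hp2 : (2 : ℝ) ≤ (x₀.2 : ℝ) := by exact_mod_cast hp₀.two_le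
    have hly : 4 / 5 * Real.log Z ≤ Real.log Y := hlp₀.trans (Real.log_le_log (by linarith) hpY₀)
    have hY2 : Y ≤ 2 * (Z / m) := by simp only [Y] at hpY₀ ⊢; linarith
    have hY : 2 ≤ Y := hp2.trans hpY₀
    have hsub : (S.filter fun x => x.1 = m).image (fun x => x.2) ⊆ (Icc (LL Z - 1) (LL Z)).biUnion
        fun k => (cell k).filter (fun q : ℕ => (q : ℝ) ≤ Y ∧ ¬ Normal q) := fun p hp => by
      obtain ⟨x, hx, rfl⟩ := mem_image.1 hp
      obtain ⟨hpp, hpY, hlp, hn, hpZ⟩ := hxY x hx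
      obtain ⟨hlo, hhi⟩ := top_of_log h hpp hpZ hlp
      exact mem_biUnion.2 ⟨kap x.2, mem_Icc.2 ⟨by omega, hhi⟩,
        mem_filter.2 ⟨mem_cell.2 ⟨hpp, rfl⟩, hpY, hn⟩⟩
    rw [← card_image_of_injOn (f := fun x : (_ : ℕ) × ℕ => x.2) (fun a ha b hb hab => by
      obtain ⟨a1, a2⟩ := a
      obtain ⟨b1, b2⟩ := b
      simp only [coe_filter, Set.mem_ofPred_eq] at ha hb
      simp_all)]
    refine (Nat.cast_le.2 ((card_le_card hsub).trans card_biUnion_le)).trans ?_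
    rw [Nat.cast_sum]
    refine (sum_le_card_nsmul _ _ (5 / 2 * |CA| * (Z / Real.log Z) * E * (1 / (m : ℝ))) fun k hk =>
      (hAC k Y hY).trans ?_).trans ?_
    · have hk' : lamZ Z ^ 100 ≤ (k : ℝ) := by
        have h1 : LL Z ≤ k + 1 := by have := (mem_Icc.1 hk).1; omega
        have h2 : (LL Z : ℝ) ≤ (k : ℝ) + 1 := by exact_mod_cast h1
        linarith [h.pow100]
      have hE : Real.exp (-cA * (k : ℝ) ^ ((1 : ℝ) / 2)) ≤ E := Real.exp_le_exp.2 (by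
        have := mul_le_mul_of_nonneg_left (Lower.sqrt_level h hk') hcA.le
        linarith)
      calc CA * Y / Real.log Y * Real.exp (-cA * (k : ℝ) ^ ((1 : ℝ) / 2))
          ≤ |CA| * (2 * (Z / m)) / (4 / 5 * Real.log Z) * E := by
            refine mul_le_mul (div_le_div₀ (by positivity) (mul_le_mul (le_abs_self _) hY2 (by linarith)
              (abs_nonneg _)) (by positivity) hly) hE (Real.exp_pos _).le (by positivity)
        _ = _ := by field_simp; ring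
    · rw [nsmul_eq_mul, Nat.card_Icc]
      refine (mul_le_mul_of_nonneg_right (show ((LL Z + 1 - (LL Z - 1) : ℕ) : ℝ) ≤ 2 by
        exact_mod_cast (show LL Z + 1 - (LL Z - 1) ≤ 2 by omega)) (by positivity)).trans (le_of_eq ?_)
      ring
  rw [card_eq_sum_card_fiberwise (fun x hx => (hS x hx).1), Nat.cast_sum]
  refine (sum_le_sum hfib).trans ?_
  rw [← mul_sum]
  refine mul_le_mul_of_nonneg_left ((hCR (LL Z) _ hM).trans (Real.exp_le_exp.2 ?_)) (by positivity)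
  have hL := h.one_L
  have hlam : Real.log ((LL Z : ℝ) + 2) ≤ 2 * lamZ Z := by
    have h3 : Real.log ((LL Z : ℝ) + 2) ≤ Real.log (3 * (LL Z : ℝ)) := Real.log_le_log (by linarith) (by linarith)
    rw [Real.log_mul (by norm_num) (by linarith)] at h3
    have := Real.log_le_sub_one_of_pos (show (0 : ℝ) < 3 by norm_num)
    simp only [lamZ] at hl ⊢
    linarith
  have h0 : 0 ≤ Real.log ((LL Z : ℝ) + 2) := Real.log_nonneg (by linarith)
  have h2 := pow_le_pow_left₀ h0 hlam 2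
  have h3 := mul_le_mul_of_nonneg_left h2 (abs_nonneg CR)
  have h4 := mul_le_mul_of_nonneg_right (le_abs_self CR) (sq_nonneg (Real.log ((LL Z : ℝ) + 2)))
  linarith

/-- Pairs whose value has a large square factor. -/
lemma few_square (h : LNum CS Z) (S : Finset ((_ : ℕ) × ℕ))
    (hS : ∀ x ∈ S, 0 < x.1 ∧ x.2.Prime ∧ (pval x : ℝ) ≤ Z ∧ ¬ RoughSqfree (pT Z) (pval x)) :
    (S.card : ℝ) ≤
      Z * (8 * Real.exp (2 * ((LL Z : ℝ) + 2)) * Real.exp (-Real.exp (pT Z : ℝ))) := by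
  have hZ := h.Z2
  obtain ⟨-, hlogZ, hlog0⟩ := log_bounds h
  set E := Real.exp (Real.exp (pT Z : ℝ))
  set N := ⌊E⌋₊
  have hE : 1 ≤ E := Real.one_le_exp (Real.exp_pos _).le
  have hN : 1 ≤ N := Nat.le_floor (by exact_mod_cast hE)
  rw [← card_image_of_injOn (f := fun x : (_ : ℕ) × ℕ => [x.2 - 1, x.1]) (fun a ha b hb hab => by
    obtain ⟨a1, a2⟩ := a
    obtain ⟨b1, b2⟩ := b
    have h1 := (hS _ ha).2.1.one_le
    have h2 := (hS _ hb).2.1.one_le
    simp only [List.cons.injEq, and_true] at hab h1 h2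
    obtain ⟨e1, rfl⟩ := hab
    obtain rfl : a2 = b2 := by omega
    rfl)]
  refine (Lower.bad_count (Z := Z) (j := 2) (by linarith) hN _ fun l hl => ?_).trans ?_
  · obtain ⟨x, hx, rfl⟩ := mem_image.1 hl
    obtain ⟨hm, hp, hv, hsq⟩ := hS x hx
    have hprod : [x.2 - 1, x.1].prod = pval x := by simp [pval]
    refine ⟨rfl, fun z hz => ?_, by rw [hprod]; exact hv, ?_⟩
    · have := hp.two_le
      simp only [List.mem_cons, List.not_mem_nil, or_false] at hz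
      rcases hz with rfl | rfl <;> omega
    · simp only [RoughSqfree, not_forall, not_not] at hsq
      obtain ⟨r, hr1, hr2, hr3⟩ := hsq
      refine ⟨r, hr1, ?_, hprod ▸ hr3⟩
      have h1 := exp_exp_le (Nat.le_add_left 1 (pT Z)) hr2
      have h2 : E < Real.exp (Real.exp ((pT Z + 1 : ℕ) : ℝ)) :=
        Real.exp_lt_exp.2 (Real.exp_lt_exp.2 (by exact_mod_cast Nat.lt_succ_self _))
      have h3 : (N : ℝ) < r := lt_of_le_of_lt (Nat.floor_le (by linarith)) (lt_of_lt_of_le h2 h1)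
      exact_mod_cast h3
  · refine mul_le_mul_of_nonneg_left ?_ (by linarith)
    have hfz : (1 : ℝ) ≤ (⌊Z⌋₊ : ℝ) := by exact_mod_cast Nat.le_floor (show ((1 : ℕ) : ℝ) ≤ Z by norm_num; linarith)
    have hlf : 0 ≤ Real.log (⌊Z⌋₊ : ℝ) := Real.log_nonneg hfz
    have h1 : 1 + Real.log ⌊Z⌋₊ ≤ Real.exp ((LL Z : ℝ) + 2) := by
      have h2 := Real.log_le_log (by linarith) (Nat.floor_le (show 0 ≤ Z by linarith))
      have h3 : Real.exp ((LL Z : ℝ) + 2) = Real.exp ((LL Z : ℝ) + 1) * Real.exp 1 := by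
        rw [← Real.exp_add]; congr 1; ring
      have h4 : 2 ≤ Real.exp (1 : ℝ) := by linarith [Real.add_one_le_exp (1 : ℝ)]
      have h5 := mul_le_mul_of_nonneg_left h4 (Real.exp_pos ((LL Z : ℝ) + 1)).le
      have h6 := Real.one_le_exp (show (0 : ℝ) ≤ (LL Z : ℝ) + 1 by positivity)
      linarith
    have hNu : 1 / (N : ℝ) ≤ 2 * Real.exp (-Real.exp (pT Z : ℝ)) := by
      have hN' : (1 : ℝ) ≤ N := by exact_mod_cast hN
      have := Nat.lt_floor_add_one E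
      rw [Real.exp_neg, ← div_eq_mul_inv, div_le_div_iff₀ (by linarith) (Real.exp_pos _)]
      simp only [E, N] at *
      linarith
    have h2 := pow_le_pow_left₀ (by linarith) h1 2
    rw [← Real.exp_nat_mul] at h2
    rw [div_eq_mul_one_div]
    refine (mul_le_mul (mul_le_mul_of_nonneg_left h2 (by positivity)) hNu (by positivity)
      (by positivity)).trans (le_of_eq ?_)
    push_cast
    ring

/-- Pairs sharing their value. -/
lemma few_collide (h : LNum CS Z) {CC C₂ : ℝ} (hC₂ : C₂ ≤ CS)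
    (hS2 : ∀ (T K W k : ℕ), C₂ ≤ (T : ℝ) → K ≤ T → T < k →
      ∀ (β X : ℝ) (P : Finset (Rep × Rep)), 3 ≤ X →
      (∀ p ∈ P, CollPair T K W k β p ∧ (p.1.val : ℝ) ≤ X) →
      (P.card : ℝ) ≤ X * Real.exp (β - 2 * (k : ℝ) + C₂ * collErr T K W k))
    (hexp : ∀ k : ℕ, LL Z ≤ k + 1 → k ≤ LL Z →
      (LL Z : ℝ) - pM Z - 2 * k + C₂ * collErr (pT Z) (pK Z + 1) (pOm Z) k ≤ CC)
    (hf : ℕ → Finset ℕ) (tf : ℕ → ℕ) (S : Finset ((_ : ℕ) × ℕ))
    (hS : ∀ x ∈ S, Cof Z x.1 (hf x.1) (tf x.1) ∧ Normal x.2 ∧ (pval x : ℝ) ≤ Z ∧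
      LL Z ≤ kap x.2 + 1 ∧ kap x.2 ≤ LL Z ∧ RoughSqfree (pT Z) (pval x)) :
    (((S ×ˢ S).filter fun x => x.1 ≠ x.2 ∧ pval x.1 = pval x.2).card : ℝ) ≤
      4 * Z * Real.exp CC * ∑ C ∈ commons Z, 1 / (shiftProd C : ℝ) := by
  have hZ := h.Z2
  have hTL := h.cs.LT
  set All := (S ×ˢ S).filter fun x => x.1 ≠ x.2 ∧ pval x.1 = pval x.2
  set P := All.filter fun x => kap x.2.2 ≤ kap x.1.2
  set F : ((_ : ℕ) × ℕ) → Finset ℕ := fun x => insert x.2 (hf x.1)
  set key : ((_ : ℕ) × ℕ) × ((_ : ℕ) × ℕ) → Rep × Rep := fun x =>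
    ((F x.1 \ F x.2, tf x.1.1), (F x.2 \ F x.1, tf x.2.1))
  have hmemP : ∀ x ∈ P, x.1 ∈ S ∧ x.2 ∈ S ∧ x.1 ≠ x.2 ∧ pval x.1 = pval x.2 ∧ kap x.2.2 ≤ kap x.1.2 :=
    fun x hx => by
    obtain ⟨hx, ht⟩ := mem_filter.1 hx
    obtain ⟨hm, hne, hv⟩ := mem_filter.1 hx
    obtain ⟨h1, h2⟩ := mem_product.1 hm
    exact ⟨h1, h2, hne, hv, ht⟩
  have hpnot : ∀ x ∈ S, x.2 ∉ hf x.1 := fun x hx hm => by
    obtain ⟨hc, -, -, hlo, -, -⟩ := hS x hx
    have := hc.low _ hm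
    omega
  have hsp : ∀ x ∈ S, shiftProd (F x) * tf x.1 = pval x := fun x hx => by
    rw [pval, shiftProd, prod_insert (hpnot x hx), mul_assoc]
    conv_rhs => rw [(hS x hx).1.eq]
    rfl
  have hFpr : ∀ x ∈ S, ∀ q ∈ F x, Normal q ∧ pT Z < kap q ∧ kap q ≤ LL Z := fun x hx q hq => by
    obtain ⟨hc, hn, -, hlo, hhi, -⟩ := hS x hx
    rcases mem_insert.1 hq with rfl | hq
    · exact ⟨hn, by omega, hhi⟩
    · have := hc.low q hq
      exact ⟨(hc.normal q hq).1, (hc.normal q hq).2, by omega⟩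
  have huniq : ∀ x ∈ S, ∀ q ∈ F x, LL Z ≤ kap q + 1 → q = x.2 := fun x hx q hq hk => by
    rcases mem_insert.1 hq with rfl | hq
    · rfl
    · have := (hS x hx).1.low q hq
      omega
  have htopA : ∀ x ∈ P, x.1.2 ∈ F x.1 \ F x.2 := fun x hx => by
    obtain ⟨h1, h2, hne, hv, -⟩ := hmemP x hx
    refine mem_sdiff.2 ⟨mem_insert_self _ _, fun hm => hne ?_⟩
    have hpe := huniq _ h2 _ hm (hS _ h1).2.2.2.1
    have hp1 := (hS _ h1).2.1.1.two_le
    obtain ⟨⟨m, p⟩, ⟨m', p'⟩⟩ := x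
    simp only at hpe hp1
    subst hpe
    simp only [pval] at hv
    obtain rfl : m = m' := Nat.eq_of_mul_eq_mul_left (show 0 < p - 1 by omega) hv
    rfl
  have hCP : ∀ x ∈ P, CollPair (pT Z) (pK Z + 1) (pOm Z) (kap x.1.2) ((LL Z : ℝ) - pM Z) (key x) ∧
      F x.1 ∩ F x.2 ∈ commons Z ∧
      ((key x).1.val : ℝ) ≤ Z * (1 / (shiftProd (F x.1 ∩ F x.2) : ℝ)) ∧ 3 ≤ ((key x).1.val : ℝ) := by
    intro x hx
    obtain ⟨h1, h2, -, hv, hord⟩ := hmemP x hx
    obtain ⟨hc1, hn1, hv1, hlo1, hhi1, hsq⟩ := hS _ h1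
    obtain ⟨hc2, hn2, -, hlo2, hhi2, -⟩ := hS _ h2
    have hA := htopA x hx
    set A := F x.1 \ F x.2
    set B := F x.2 \ F x.1
    set C := F x.1 ∩ F x.2
    have hCp : 0 < shiftProd C := Lower.shiftProd_pos fun q hq => (hFpr _ h1 q (mem_inter.1 hq).1).1.1
    have eA : shiftProd C * (shiftProd A * tf x.1.1) = pval x.1 := by
      rw [← mul_assoc, ← hsp _ h1, mul_comm (shiftProd C), ← Lower.shiftProd_union (disjoint_sdiff_inter _ _),
        sdiff_union_inter]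
    have eB : shiftProd C * (shiftProd B * tf x.2.1) = pval x.2 := by
      rw [show C = F x.2 ∩ F x.1 from inter_comm _ _, ← mul_assoc, ← hsp _ h2,
        mul_comm (shiftProd (F x.2 ∩ F x.1)), ← Lower.shiftProd_union (disjoint_sdiff_inter _ _), sdiff_union_inter]
    have hcard : ∀ z : (_ : ℕ) × ℕ, z ∈ S → (F z).card ≤ pK Z + 1 := fun z hz => by
      have := (hS z hz).1.card
      exact (card_insert_le _ _).trans (by omega)
    have htop : ∀ z ∈ S, ∀ T' ⊆ F z, topS T' ≤ kap z.2 := fun z hz T' hT' => Finset.sup_le fun q hq => by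
      rcases mem_insert.1 (hT' hq) with rfl | hq
      · exact le_rfl
      · have := (hS z hz).1.low q hq
        have := (hS z hz).2.2.2.1
        omega
    have hdvd : shiftProd A * tf x.1.1 ∣ pval x.1 := ⟨shiftProd C, by rw [mul_comm, eA]⟩
    have hpv : 0 < pval x.1 := by
      have := hn1.1.two_le
      exact Nat.mul_pos (by omega) hc1.pos
    refine ⟨⟨⟨_, hA⟩, (card_le_card sdiff_subset).trans (hcard _ h1),
      (card_le_card sdiff_subset).trans (hcard _ h2), disjoint_sdiff_sdiff,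
      fun q hq => ⟨(hFpr _ h1 q (mem_sdiff.1 hq).1).1, (hFpr _ h1 q (mem_sdiff.1 hq).1).2.1⟩,
      fun q hq => ⟨(hFpr _ h2 q (mem_sdiff.1 hq).1).1.1, (hFpr _ h2 q (mem_sdiff.1 hq).1).2.1⟩,
      hc1.tpos, hc2.tpos, hc1.tsm, hc2.tsm, le_antisymm (htop _ h1 _ sdiff_subset) (le_sup hA),
      (htop _ h2 _ sdiff_subset).trans hord, hc1.bud _ _ sdiff_subset, ?_, ?_, ?_⟩, ?_, ?_, ?_⟩
    · exact Nat.eq_of_mul_eq_mul_left hCp (eA.trans (hv.trans eB.symm))
    · exact fun r hr hk hd => hsq r hr hk (hd.trans hdvd)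
    · refine (RegB.bigOm_le_of_dvd hdvd hpv).trans ?_
      rw [pval, RegA.bigOm_mul (by have := hn1.1.two_le; omega) hc1.pos.ne']
      have := hn1.2.1
      have := hc1.om
      have hK : 2 ≤ pK Z + 1 := by have := hc1.card; omega
      have := Nat.mul_le_mul_right (LL Z + 1) (Nat.mul_le_mul_left 20 hK)
      simp only [pOm]
      omega
    · refine mem_filter.2 ⟨mem_powerset.2 fun q hq => ?_, (card_le_card inter_subset_left).trans (hcard _ h1)⟩
      obtain ⟨hq1, hq2, hq3⟩ := hFpr _ h1 q (mem_inter.1 hq).1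
      exact mem_biUnion.2 ⟨kap q, mem_Ioc.2 ⟨hq2, hq3⟩, mem_cell.2 ⟨hq1.1, rfl⟩⟩
    · rw [mul_one_div, le_div_iff₀ (by exact_mod_cast hCp)]
      refine le_trans (le_of_eq ?_) hv1
      rw [← eA]
      simp only [key, Rep.val]
      push_cast
      ring
    · simp only [key, Rep.val]
      have h4 := Lower.three_le (q := x.1.2) (by omega)
      have h5 : x.1.2 - 1 ≤ shiftProd A * tf x.1.1 := Nat.le_of_dvd (Nat.mul_pos (Lower.shiftProd_pos
        fun q hq => (hFpr _ h1 q (mem_sdiff.1 hq).1).1.1) hc1.tpos)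
        (Dvd.dvd.mul_right (dvd_prod_of_mem (fun q => q - 1) hA) _)
      exact_mod_cast (show 3 ≤ shiftProd A * tf x.1.1 by omega)
  set Pk : ℕ → Finset ℕ → Finset (((_ : ℕ) × ℕ) × ((_ : ℕ) × ℕ)) := fun k C =>
    P.filter fun x => kap x.1.2 = k ∧ F x.1 ∩ F x.2 = C
  have hpk : ∀ k ∈ Icc (LL Z - 1) (LL Z), ∀ C ∈ commons Z,
      ((Pk k C).card : ℝ) ≤ Z * (1 / (shiftProd C : ℝ)) * Real.exp CC := by
    intro k hk C hC
    obtain ⟨hk1, hk2⟩ := mem_Icc.1 hk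
    rcases (Pk k C).eq_empty_or_nonempty with he | ⟨x₀, hx₀⟩
    · rw [he, card_empty, Nat.cast_zero]; positivity
    have hinj : Set.InjOn key (Pk k C) := by
      intro a ha b hb hab
      obtain ⟨haP, -, haC⟩ := mem_filter.1 ha
      obtain ⟨hbP, -, hbC⟩ := mem_filter.1 hb
      simp only [key, Prod.ext_iff] at hab
      obtain ⟨⟨eA, et⟩, eB, et'⟩ := hab
      have rec1 : ∀ u v : (_ : ℕ) × ℕ, u ∈ S → v ∈ S → F u = F v → tf u.1 = tf v.1 → u = v := by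
        intro u v hu hv' eF et
        have hp : u.2 = v.2 := huniq v hv' u.2 (eF ▸ mem_insert_self _ _) (hS u hu).2.2.2.1
        have hm : u.1 = v.1 := by
          rw [(hS u hu).1.eq, (hS v hv').1.eq, et]
          have := congrArg (fun G => G.erase u.2) eF
          simp only [F] at this
          rw [erase_insert (hpnot u hu), hp, erase_insert (hpnot v hv')] at this
          rw [this]
        exact Sigma.ext hm (heq_of_eq hp)
      obtain ⟨a1, a2, -⟩ := hmemP a haP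
      obtain ⟨b1, b2, -⟩ := hmemP b hbP
      refine Prod.ext (rec1 _ _ a1 b1 ?_ et) (rec1 _ _ a2 b2 ?_ et')
      · rw [← sdiff_union_inter (F a.1) (F a.2), ← sdiff_union_inter (F b.1) (F b.2), eA, haC, hbC]
      · rw [← sdiff_union_inter (F a.2) (F a.1), ← sdiff_union_inter (F b.2) (F b.1), eB,
          inter_comm (F a.2), inter_comm (F b.2), haC, hbC]
    have hQ : ∀ q ∈ (Pk k C).image key, CollPair (pT Z) (pK Z + 1) (pOm Z) k ((LL Z : ℝ) - pM Z) q ∧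
        (q.1.val : ℝ) ≤ Z * (1 / (shiftProd C : ℝ)) ∧ 3 ≤ (q.1.val : ℝ) := fun q hq => by
      obtain ⟨x, hx, rfl⟩ := mem_image.1 hq
      obtain ⟨hxP, rfl, rfl⟩ := mem_filter.1 hx
      obtain ⟨h1, -, h3, h4⟩ := hCP x hxP
      exact ⟨h1, h3, h4⟩
    obtain ⟨-, q1, q2⟩ := hQ _ (mem_image_of_mem key hx₀)
    rw [← card_image_of_injOn hinj]
    refine (hS2 _ _ _ k (hC₂.trans h.CT) h.K1 (by omega) _ _ _ (q2.trans q1)
      fun q hq => ⟨(hQ q hq).1, (hQ q hq).2.1⟩).trans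
      (mul_le_mul_of_nonneg_left (Real.exp_le_exp.2 (hexp k (by omega) hk2)) (by positivity))
  have hcov : P ⊆ (Icc (LL Z - 1) (LL Z)).biUnion fun k => (commons Z).biUnion fun C => Pk k C := by
    intro x hx
    obtain ⟨h1, -⟩ := hmemP x hx
    obtain ⟨-, hC, -⟩ := hCP x hx
    have hlo := (hS _ h1).2.2.2.1
    have hhi := (hS _ h1).2.2.2.2.1
    simp only [mem_biUnion, mem_Icc]
    exact ⟨kap x.1.2, ⟨by omega, hhi⟩, _, hC, mem_filter.2 ⟨hx, rfl, rfl⟩⟩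
  have hP : (P.card : ℝ) ≤ 2 * Z * Real.exp CC * ∑ C ∈ commons Z, 1 / (shiftProd C : ℝ) := by
    refine (Nat.cast_le.2 ((card_le_card hcov).trans card_biUnion_le)).trans ?_
    rw [Nat.cast_sum]
    refine (sum_le_card_nsmul _ _ (Z * Real.exp CC * ∑ C ∈ commons Z, 1 / (shiftProd C : ℝ)) fun k hk => ?_).trans ?_
    · refine (Nat.cast_le.2 card_biUnion_le).trans ?_
      rw [Nat.cast_sum, mul_sum]
      refine sum_le_sum fun C hC => (hpk k hk C hC).trans_eq ?_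
      ring
    · rw [nsmul_eq_mul, Nat.card_Icc]
      refine (mul_le_mul_of_nonneg_right (show ((LL Z + 1 - (LL Z - 1) : ℕ) : ℝ) ≤ 2 by
        exact_mod_cast (show LL Z + 1 - (LL Z - 1) ≤ 2 by omega)) (by positivity)).trans (le_of_eq ?_)
      ring
  have hsub : All ⊆ P ∪ P.image Prod.swap := fun x hx => by
    rcases le_total (kap x.2.2) (kap x.1.2) with ht | ht
    · exact mem_union_left _ (mem_filter.2 ⟨hx, ht⟩)
    · refine mem_union_right _ (mem_image.2 ⟨x.swap, mem_filter.2 ⟨?_, ht⟩, Prod.swap_swap x⟩)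
      obtain ⟨hm, hne, hv⟩ := mem_filter.1 hx
      obtain ⟨h1, h2⟩ := mem_product.1 hm
      exact mem_filter.2 ⟨mem_product.2 ⟨h2, h1⟩, hne.symm, hv.symm⟩
  have hAll : (All.card : ℝ) ≤ P.card + P.card := by
    exact_mod_cast (card_le_card hsub).trans ((card_union_le _ _).trans (Nat.add_le_add_left card_image_le _))
  linarith

end Vale.Agent.P031.Pairs
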