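import Vale.Agent.P031.Asm.RegBParts

/-!
# Shape of the head: the values without it are negligible

A value whose preimage has a head prime with three nearly equal levels below it, or with a budget
above its level, carries a budget; the rest satisfies the shape conditions.
-/

open Filter Topology Finset
open scoped Classical

namespace Vale.Agent.P031.RegB

/-- A prime of level above `lo` carrying the budget `β` with at most `K` normal primes. -/
def Heavy (T K lo : ℕ) (β : ℕ → ℝ) (n : ℕ) : Prop :=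
  ∃ q ∈ n.primeFactors, lo < kap q ∧ ∃ S ⊆ n.primeFactors.filter (fun r => r ≤ q),
    (∀ r ∈ S, Normal r) ∧ S.card ≤ K ∧ topS S = kap q ∧ β (kap q) ≤ budS T S

lemma log_Z_le {Z : ℝ} (hZ : 3 ≤ Z) : Real.log Z ≤ Real.exp ((LL Z : ℝ) + 1) ∧
    0 < Real.log Z ∧ Real.log (Real.log Z) ≤ (LL Z : ℝ) + 1 := by
  have h1 : 0 < Real.log Z := Real.log_pos (by linarith)
  have h2 : Real.log Z ≤ Real.log (Z + 1) := Real.log_le_log (by linarith) (by linarith)
  have h3 : Real.log (Real.log (Z + 1)) ≤ (LL Z : ℝ) + 1 := (Nat.lt_floor_add_one _).le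
  exact ⟨h2.trans ((Real.log_le_iff_le_exp (by linarith)).1 h3), h1,
    (Real.log_le_log h1 h2).trans h3⟩

lemma kap_le_LL {Z : ℝ} {n q : ℕ} (hn : 0 < n) (hq : q ∈ n.primeFactors)
    (hv : (n.totient : ℝ) ≤ Z) : kap q ≤ LL Z := by
  have hqp := Nat.prime_of_mem_primeFactors hq
  have h : q - 1 ≤ n.totient := by
    refine Nat.le_of_dvd (Nat.totient_pos.2 hn) ?_
    have := Crude.shiftProd_dvd hn (singleton_subset_iff.2 hq)
    simpa [shiftProd] using this
  have h' : (q : ℝ) ≤ Z + 1 := by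
    have : ((q - 1 : ℕ) : ℝ) ≤ n.totient := by exact_mod_cast h
    rw [Nat.cast_sub hqp.one_le] at this
    push_cast at this
    linarith
  refine Nat.floor_le_floor (Real.log_le_log (Real.log_pos (by exact_mod_cast hqp.one_lt)) ?_)
  exact Real.log_le_log (by exact_mod_cast hqp.pos) h'

lemma maxP_facts {Z : ℝ} {n : ℕ} (hb : BaseReg Z n) :
    maxP n ∈ n.primeFactors ∧ ∀ q ∈ n.primeFactors, q ≤ maxP n ∧ kap q ≤ kap (maxP n) := by
  obtain ⟨hn, -, -, -, -, -, -, hp, hd, -⟩ := hb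
  refine ⟨Nat.mem_primeFactors.2 ⟨hp, hd, hn.ne'⟩, fun q hq => ?_⟩
  have h : q ≤ maxP n := le_sup (f := id) hq
  exact ⟨h, Crude.kap_mono (Nat.prime_of_mem_primeFactors hq).two_le h⟩

lemma top_level {Z : ℝ} (hZ : 3 ≤ Z) (hL : 1 ≤ LL Z) {n : ℕ} (hb : BaseReg Z n) :
    (LL Z : ℝ) - lamZ Z - 8 ≤ kap (maxP n) := by
  obtain ⟨-, -, -, -, -, -, -, hp, -, hlog⟩ := hb
  have hL1 : (1 : ℝ) ≤ LL Z := by exact_mod_cast hL
  have hlogp : 0 < Real.log (maxP n : ℝ) := Real.log_pos (by exact_mod_cast hp.one_lt)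
  have h1 := Real.log_le_log (div_pos (Real.log_pos (by linarith : (1 : ℝ) < Z)) (by positivity)) hlog
  rw [Real.log_div (Real.log_pos (by linarith : (1 : ℝ) < Z)).ne' (by positivity)] at h1
  have h2 : (LL Z : ℝ) ≤ Real.log (Real.log Z) + 1 := by
    have h : Real.log (Z + 1) ≤ 2 * Real.log Z := by
      rw [show 2 * Real.log Z = Real.log (Z * Z) by rw [Real.log_mul] <;> linarith]
      exact Real.log_le_log (by linarith) (by nlinarith)
    have h' := Real.log_le_log (Real.log_pos (by linarith : (1 : ℝ) < Z + 1)) h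
    rw [Real.log_mul (by norm_num) (Real.log_pos (by linarith : (1 : ℝ) < Z)).ne'] at h'
    have h'' : (LL Z : ℝ) ≤ Real.log (Real.log (Z + 1)) := by
      refine Nat.floor_le ?_
      by_contra hc
      push Not at hc
      have : LL Z = 0 := Nat.floor_eq_zero.2 (by linarith)
      omega
    linarith [Real.log_two_lt_d9]
  have h3 : Real.log (30 * ((LL Z : ℝ) + 1)) ≤ lamZ Z + 5.2 := by
    refine (Real.log_le_log (by positivity) (show 30 * ((LL Z : ℝ) + 1) ≤ 60 * LL Z by linarith)).trans ?_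
    rw [Real.log_mul (by norm_num) (by linarith), lamZ]
    have : Real.log 60 ≤ 5.2 := by
      refine (Real.log_le_log (by norm_num) (show (60 : ℝ) ≤ 2 ^ 6 by norm_num)).trans ?_
      rw [Real.log_pow]
      push_cast
      linarith [Real.log_two_lt_d9]
    linarith
  have h4 : Real.log (Real.log (maxP n : ℝ)) < (kap (maxP n) : ℝ) + 1 := Nat.lt_floor_add_one _
  linarith

lemma ninety_le {Z : ℝ} (hL : 1 ≤ LL Z) :
    90 * ((LL Z : ℝ) + 1) ≤ Real.exp (lamZ Z + 8) ∧ (LL Z : ℝ) = Real.exp (lamZ Z) := by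
  have hL0 : (1 : ℝ) ≤ LL Z := by exact_mod_cast hL
  have he : (LL Z : ℝ) = Real.exp (lamZ Z) := by rw [lamZ, Real.exp_log (by linarith)]
  refine ⟨?_, he⟩
  rw [Real.exp_add, ← he, mul_comm (LL Z : ℝ) (Real.exp 8)]
  have h8 : (180 : ℝ) ≤ Real.exp 8 := by
    have := pow_le_pow_left₀ (by norm_num) Real.exp_one_gt_d9.le 8
    rw [← Real.exp_nat_mul] at this
    norm_num at this
    linarith
  nlinarith

/-- Values with a heavy regular preimage are rare. -/
theorem heavy_count {C₁ C₂ B G : ℝ}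
    (h₁ : ∀ (T K k : ℕ), C₁ ≤ (T : ℝ) → K ≤ T → T < k → ∀ (β : ℝ) (M : Finset ℕ),
      (∀ m ∈ M, 0 < m ∧ Smooth k m ∧ ∃ S : Finset ℕ, (∀ q ∈ S, Normal q) ∧ S.card ≤ K ∧
        topS S = k ∧ shiftProd S ∣ m ∧ β ≤ budS T S) →
      (∑ m ∈ M, (1 : ℝ) / m) ≤ Real.exp ((k : ℝ) - β + C₁ * profErr T K k))
    (h₂ : ∀ (T K k : ℕ), C₂ ≤ (T : ℝ) → K ≤ T → T < k → ∀ (β X : ℝ) (M : Finset ℕ),
      3 ≤ X → (k : ℝ) ≤ Real.log (Real.log X) →
      (∀ m ∈ M, 0 < m ∧ (m : ℝ) ≤ X ∧ ∃ S : Finset ℕ, (∀ q ∈ S, Normal q) ∧ S.card ≤ K ∧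
        topS S = k ∧ shiftProd S ∣ m ∧ β ≤ budS T S) →
      (M.card : ℝ) ≤ X * Real.exp (-β + C₂ * profErr T K k))
    {Z : ℝ} (hZ : 3 ≤ Z) (hL : 1 ≤ LL Z)
    (hcrude : Crude.Bd (IsTotUpTo (LL Z)) (Real.exp B)) (hB : 0 ≤ B)
    {T K lo : ℕ} (hC₁ : C₁ ≤ T) (hC₂ : C₂ ≤ T) (hK : K ≤ T) (hTlo : T ≤ lo) (hlo : pT Z ≤ lo)
    {β : ℕ → ℝ} (hgain : ∀ k : ℕ, lo < k → k ≤ LL Z →
      C₁ * profErr T K k + G ≤ β k - k ∧ C₂ * profErr T K k + G ≤ β k - k)
    (V : Finset ℕ)
    (hV : ∀ v ∈ V, ∃ n : ℕ, n.totient = v ∧ BaseReg Z n ∧ Heavy T K lo β n) :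
    (V.card : ℝ) ≤ Z / Real.log Z * Real.exp (B + 2 * lamZ Z + 20 - G) := by
  obtain ⟨hlogle, hlog0, -⟩ := log_Z_le hZ
  obtain ⟨h90, heL⟩ := ninety_le hL
  have hlam : 0 ≤ lamZ Z := Real.log_nonneg (by exact_mod_cast hL)
  choose! nf hφ hbase hheavy using hV
  choose! qf hqf hloq Sf hSf hnorm hcard htop hbud using hheavy
  have hkL : ∀ v ∈ V, kap (qf v) ≤ LL Z := fun v hv =>
    kap_le_LL (hbase v hv).1 (hqf v hv) (hbase v hv).2.1
  set E : ℝ := Real.exp (B + lamZ Z + 19 - G) with hE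
  have hfib : ∀ k ∈ Ioc lo (LL Z),
      ((V.filter (fun v => kap (qf v) = k)).card : ℝ) ≤ Z / Real.log Z * E := by
    intro k hk
    obtain ⟨hk1, hk2⟩ := mem_Ioc.1 hk
    obtain ⟨hg1, hg2⟩ := hgain k hk1 hk2
    set Vk := V.filter (fun v => kap (qf v) = k)
    set Vc := Vk.filter (fun v => qf v = maxP (nf v))
    set Vm := Vk.filter (fun v => ¬ qf v = maxP (nf v))
    have hsplit : Vk.card = Vc.card + Vm.card := (card_filter_add_card_filter_not _).symm
    have hmemk : ∀ v ∈ Vk, v ∈ V ∧ kap (qf v) = k := fun v hv => mem_filter.1 hv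
    have hcnt : (Vc.card : ℝ) ≤ Z / Real.log Z * Real.exp (lamZ Z + 11 - G) := by
      rcases Vc.eq_empty_or_nonempty with h0 | ⟨v₀, hv₀⟩
      · rw [h0]; simp only [card_empty, Nat.cast_zero]; positivity
      have hkk : (LL Z : ℝ) - lamZ Z - 8 ≤ k := by
        obtain ⟨hv₀', hq0⟩ := mem_filter.1 hv₀
        obtain ⟨hv₀'', hk0⟩ := hmemk v₀ hv₀'
        have h := top_level hZ hL (hbase v₀ hv₀'')
        rwa [← hq0, hk0] at h
      have hkX : (k : ℝ) ≤ Real.log (Real.log (Z + 1)) := by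
        refine le_trans (Nat.cast_le.2 hk2) (Nat.floor_le ?_)
        by_contra hc
        push Not at hc
        have : LL Z = 0 := Nat.floor_eq_zero.2 (by linarith)
        omega
      refine (h₂ T K k hC₂ hK (hTlo.trans_lt hk1) (β k) (Z + 1) Vc (by linarith) hkX
        fun v hv => ?_).trans ?_
      · obtain ⟨hv', -⟩ := mem_filter.1 hv
        obtain ⟨hvV, hkv⟩ := hmemk v hv'
        have hb := hbase v hvV
        refine ⟨?_, ?_, Sf v, hnorm v hvV, hcard v hvV, (htop v hvV).trans hkv, ?_, ?_⟩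
        · rw [← hφ v hvV]; exact Nat.totient_pos.2 hb.1
        · rw [← hφ v hvV]; linarith [hb.2.1]
        · have := Crude.shiftProd_dvd hb.1 ((hSf v hvV).trans (filter_subset _ _))
          rwa [hφ v hvV] at this
        · exact hkv ▸ hbud v hvV
      · calc (Z + 1) * Real.exp (-β k + C₂ * profErr T K k)
            ≤ (2 * Z) * Real.exp (-(k : ℝ) - G) :=
              mul_le_mul (by linarith) (Real.exp_le_exp.2 (by linarith)) (Real.exp_pos _).le
                (by linarith)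
          _ = Z / Real.log Z * (2 * Real.log Z * Real.exp (-(k : ℝ) - G)) := by field_simp
          _ ≤ Z / Real.log Z * (Real.exp 1 * Real.exp ((LL Z : ℝ) + 1) *
              Real.exp (-(k : ℝ) - G)) := by
              refine mul_le_mul_of_nonneg_left (mul_le_mul_of_nonneg_right (mul_le_mul ?_ hlogle
                hlog0.le (Real.exp_pos 1).le) (Real.exp_pos _).le) (div_nonneg (by linarith) hlog0.le)
              linarith [Real.add_one_le_exp (1 : ℝ)]
          _ ≤ Z / Real.log Z * Real.exp (lamZ Z + 11 - G) := by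
              refine mul_le_mul_of_nonneg_left ?_ (div_nonneg (by linarith) hlog0.le)
              rw [← Real.exp_add, ← Real.exp_add]
              exact Real.exp_le_exp.2 (by linarith)
    have hmid : (Vm.card : ℝ) ≤ Z / Real.log Z * Real.exp (B + lamZ Z + 8 - G) := by
      have hQ₂ : Crude.Bd (fun m => 0 < m ∧ Smooth k m ∧ ∃ S : Finset ℕ, (∀ q ∈ S, Normal q) ∧
          S.card ≤ K ∧ topS S = k ∧ shiftProd S ∣ m ∧ β k ≤ budS T S) (Real.exp (-G)) :=
        fun M hM => (h₁ T K k hC₁ hK (hTlo.trans_lt hk1) (β k) M hM).trans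
          (Real.exp_le_exp.2 (by linarith))
      have hP : 0 < Real.log Z / (30 * ((LL Z : ℝ) + 1)) := by positivity
      refine (count_middle hP (show (0 : ℝ) ≤ Z by linarith) hcrude hQ₂ Vm fun v hv => ?_).trans ?_
      · obtain ⟨hv', hne⟩ := mem_filter.1 hv
        obtain ⟨hvV, hkv⟩ := hmemk v hv'
        have hb := hbase v hvV
        obtain ⟨hn, hle, -, -, -, hsq, -, hp, -, hlogp⟩ := hbase v hvV
        rw [← hφ v hvV]
        refine ⟨hle, ?_⟩
        set n := nf v
        obtain ⟨hpm, hmax⟩ := maxP_facts hb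
        obtain ⟨a, b, ha0, hb0, hnab, hab, haf, hbf⟩ := split_part hn (fun r => r ≤ qf v)
        have hpb : maxP n ∈ b.primeFactors := by
          refine (hbf _).2 ⟨hpm, fun h => hne ?_⟩
          exact le_antisymm (hmax _ (hqf v hvV)).1 h
        obtain ⟨c, d, hc0, hd0, hbcd, hcd, hcf, hdf⟩ := split_part hb0 (fun r => r = maxP n)
        have hcp : c = maxP n := by
          have hcs : c.primeFactors = {maxP n} := by
            ext r; simp only [hcf, mem_singleton]
            exact ⟨fun h => h.2, fun h => ⟨h ▸ hpb, h⟩⟩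
          have hce : c = maxP n ^ c.factorization (maxP n) := by
            conv_lhs => rw [← Nat.prod_factorization_pow_eq_self hc0.ne']
            rw [Finsupp.prod, Nat.support_factorization, hcs, prod_singleton]
          have he1 : 1 ≤ c.factorization (maxP n) :=
            hp.factorization_pos_of_dvd hc0.ne'
              (Nat.dvd_of_mem_primeFactors (by rw [hcs]; exact mem_singleton_self _))
          have he2 : c.factorization (maxP n) ≤ 1 := by
            by_contra hc2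
            push Not at hc2
            refine hsq (maxP n) hp (lt_of_le_of_lt hlo ((hloq v hvV).trans_le (hmax _ (hqf v hvV)).2)) ?_
            have h2 : maxP n * maxP n ∣ c := by
              rw [← pow_two, hce]; exact pow_dvd_pow _ hc2
            exact h2.trans (hnab ▸ (dvd_mul_of_dvd_right (hbcd ▸ dvd_mul_right c d) a))
          rw [hce, le_antisymm he2 he1, pow_one]
        refine ⟨maxP n, d.totient, a.totient, hp, hlogp, Nat.totient_pos.2 hd0,
          Nat.totient_pos.2 ha0, ⟨d, hd0, rfl, fun r hr => ?_⟩,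
          ⟨Nat.totient_pos.2 ha0, Crude.totient_smooth ha0 fun r hr => ?_, Sf v, hnorm v hvV,
            hcard v hvV, (htop v hvV).trans hkv,
            Crude.shiftProd_dvd ha0 fun r hr => (haf r).2 (mem_filter.1 (hSf v hvV hr)), hkv ▸ hbud v hvV⟩, ?_⟩
        · rw [hdf, hbf] at hr
          exact kap_le_LL hn hr.1.1 hle
        · obtain ⟨hr1, hr2⟩ := (haf r).1 hr
          exact hkv ▸ Crude.kap_mono (Nat.prime_of_mem_primeFactors hr1).two_le hr2
        · rw [hab, hcd, hcp, Nat.totient_prime hp]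
          ring
      · calc 3 * Z / (Real.log Z / (30 * ((LL Z : ℝ) + 1))) * (Real.exp B * Real.exp (-G))
            = Z / Real.log Z * (90 * ((LL Z : ℝ) + 1) * (Real.exp B * Real.exp (-G))) := by
              field_simp; ring
          _ ≤ Z / Real.log Z * (Real.exp (lamZ Z + 8) * (Real.exp B * Real.exp (-G))) :=
              mul_le_mul_of_nonneg_left (mul_le_mul_of_nonneg_right h90 (by positivity))
                (div_nonneg (by linarith) hlog0.le)
          _ = _ := by rw [← Real.exp_add, ← Real.exp_add]; ring_nf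
    rw [hsplit, Nat.cast_add]
    refine (add_le_add hcnt hmid).trans ?_
    rw [← mul_add]
    refine mul_le_mul_of_nonneg_left ?_ (div_nonneg (by linarith) hlog0.le)
    set e := Real.exp (B + lamZ Z + 18 - G)
    have e1 : Real.exp (lamZ Z + 11 - G) ≤ e := Real.exp_le_exp.2 (by linarith)
    have e2 : Real.exp (B + lamZ Z + 8 - G) ≤ e := Real.exp_le_exp.2 (by linarith)
    have e3 : 2 * e ≤ E := by
      rw [hE, show B + lamZ Z + 19 - G = 1 + (B + lamZ Z + 18 - G) by ring, Real.exp_add]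
      exact mul_le_mul_of_nonneg_right (by linarith [Real.add_one_le_exp (1 : ℝ)]) (Real.exp_pos _).le
    linarith
  calc (V.card : ℝ)
      = ∑ k ∈ Ioc lo (LL Z), ((V.filter (fun v => kap (qf v) = k)).card : ℝ) := by
        rw [← Nat.cast_sum, ← card_eq_sum_card_fiberwise fun v hv =>
          mem_Ioc.2 ⟨hloq v hv, hkL v hv⟩]
    _ ≤ ∑ _k ∈ Ioc lo (LL Z), Z / Real.log Z * E := sum_le_sum hfib
    _ = ((LL Z - lo : ℕ) : ℝ) * (Z / Real.log Z * E) := by simp
    _ ≤ Real.exp (lamZ Z) * (Z / Real.log Z * E) := by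
        refine mul_le_mul_of_nonneg_right ?_ (mul_nonneg (div_nonneg (by linarith) hlog0.le)
          (Real.exp_pos _).le)
        rw [← heL]; exact_mod_cast Nat.sub_le _ _
    _ ≤ _ := by
        rw [← mul_assoc, mul_comm (Real.exp (lamZ Z)), mul_assoc, hE, ← Real.exp_add]
        exact mul_le_mul_of_nonneg_left (Real.exp_le_exp.2 (by linarith))
          (div_nonneg (by linarith) hlog0.le)

/-- The budget of three nearly equal levels. -/
noncomputable def β₃ (A : ℕ) (k : ℕ) : ℝ := 1.024 * (k : ℝ) - 1.28 * ((A : ℝ) + 1)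

/-- The budget of a level with the allowed margin. -/
noncomputable def βn (k : ℕ) : ℝ := (k : ℝ) + (k : ℝ) ^ ((9 : ℝ) / 10)

/-- A regular preimage without heavy primes has the shape. -/
theorem shape_of {Z : ℝ} (hZ : 3 ≤ Z) (hx : 100 ≤ lamZ Z)
    (hAT : (pA Z : ℝ) + 1 ≤ 4 / 5 * (pT Z : ℝ)) (hTL : (pT Z : ℝ) + lamZ Z + 9 ≤ (LL Z : ℝ))
    (hsmall : 1 + 24 * ((LL Z : ℝ) + 1) * Real.exp ((pT Z : ℝ) + 1) ≤ Real.exp (LL Z : ℝ))
    {n : ℕ} (hb : BaseReg Z n)
    (h3 : ¬ Heavy (pA Z) 3 (pT Z) (β₃ (pA Z)) n)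
    (hnest : ¬ Heavy (pT Z) (pK Z) (pH Z) βn n) : ShapeReg Z n := by
  obtain ⟨hn, hle, hlarge, hOm, -, hsq, hnorm, hp, -, -⟩ := id hb
  obtain ⟨hpm, hmax⟩ := maxP_facts hb
  have hT1 : 1 ≤ pT Z := by
    rcases Nat.eq_zero_or_pos (pT Z) with h | h
    · rw [h] at hAT; norm_num at hAT; linarith [(pA Z).cast_nonneg (α := ℝ)]
    · exact h
  have hT : (0 : ℝ) ≤ pT Z := Nat.cast_nonneg _
  have hL : 1 ≤ LL Z := by
    have : (1 : ℝ) ≤ LL Z := by linarith
    exact_mod_cast this
  have hheadnorm : ∀ r ∈ headOf Z n, Normal r := fun r hr => by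
    obtain ⟨h1, h2⟩ := mem_filter.1 hr
    refine hnorm r h1 (lt_of_le_of_lt ?_ h2)
    have : (pA Z : ℝ) ≤ pT Z := by linarith
    exact_mod_cast this
  have hdec : Decays (headOf Z n) := by
    intro q hq
    by_contra hc
    push Not at hc
    set F := (headOf Z n).filter (fun r => r ≤ q ∧ (4 : ℝ) / 5 * kap q < kap r)
    have hk : pT Z < kap q := (mem_filter.1 hq).2
    have hk0 : (0 : ℝ) < kap q := by exact_mod_cast (lt_of_le_of_lt (Nat.zero_le _) hk)
    have hqF : q ∈ F := mem_filter.2 ⟨hq, le_rfl, by linarith⟩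
    obtain ⟨S₂, hS₂, hc₂⟩ := exists_subset_card_eq (s := F.erase q) (n := 2)
      (by rw [card_erase_of_mem hqF]; omega)
    have hSF : insert q S₂ ⊆ F := insert_subset hqF (hS₂.trans (erase_subset _ _))
    have hcS : (insert q S₂).card = 3 := by
      rw [card_insert_of_notMem (fun h => notMem_erase q F (hS₂ h)), hc₂]
    refine h3 ⟨q, (mem_filter.1 hq).1, hk, insert q S₂, fun r hr => ?_, fun r hr =>
      hheadnorm r (mem_filter.1 (hSF hr)).1, hcS.le, ?_, ?_⟩
    · obtain ⟨hr1, hr2, -⟩ := mem_filter.1 (hSF hr)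
      exact mem_filter.2 ⟨(mem_filter.1 hr1).1, hr2⟩
    · refine le_antisymm (Finset.sup_le fun r hr => ?_) (le_sup (f := kap) (mem_insert_self q S₂))
      obtain ⟨hr1, hr2, -⟩ := mem_filter.1 (hSF hr)
      exact Crude.kap_mono (Nat.prime_of_mem_primeFactors (mem_filter.1 hr1).1).two_le hr2
    · set v := ⌊(4 : ℝ) / 5 * kap q⌋₊
      refine le_trans ?_ (Crude.budS_lower (T := pA Z) (v := v) ⟨q, mem_insert_self q S₂⟩
        (fun r hr => ?_) hcS)
      · have := (Nat.lt_floor_add_one ((4 : ℝ) / 5 * kap q)).le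
        simp only [β₃]
        linarith
      · have h := (mem_filter.1 (hSF hr)).2.2
        exact_mod_cast lt_of_le_of_lt (Nat.floor_le (by positivity)) h
  have hlam : 0 ≤ lamZ Z := by linarith
  have hkL : ∀ r ∈ headOf Z n, kap r ≤ LL Z := fun r hr =>
    kap_le_LL hn (mem_filter.1 hr).1 hle
  have hcardK : (headOf Z n).card ≤ pK Z := by
    set j := ⌈5 * lamZ Z⌉₊ + 1
    refine (decay_card hdec hkL (fun r hr => ?_) (j := j) ?_).trans (Nat.le_floor ?_)
    · exact le_trans hT1 (mem_filter.1 hr).2.le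
    · rw [pow_succ, (ninety_le hL).2]
      have h45 : (4 : ℝ) / 5 ≤ Real.exp (-(1 / 5)) := by linarith [Real.add_one_le_exp (-(1 / 5) : ℝ)]
      have h5 : ((4 : ℝ) / 5) ^ ⌈5 * lamZ Z⌉₊ ≤ Real.exp (-lamZ Z) := by
        refine (pow_le_pow_left₀ (by norm_num) h45 _).trans ?_
        rw [← Real.exp_nat_mul]
        refine Real.exp_le_exp.2 ?_
        linarith [Nat.le_ceil (5 * lamZ Z)]
      have := mul_le_mul_of_nonneg_right h5 (Real.exp_pos (lamZ Z)).le
      rw [← Real.exp_add, neg_add_cancel, Real.exp_zero] at this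
      linarith
    · have := Nat.ceil_lt_add_one (show (0 : ℝ) ≤ 5 * lamZ Z by positivity)
      simp only [j]
      push_cast
      linarith
  have hk₀ : pT Z < kap (maxP n) := by
    have := top_level hZ hL hb
    have : (pT Z : ℝ) < kap (maxP n) := by linarith
    exact_mod_cast this
  have hph : maxP n ∈ headOf Z n := mem_filter.2 ⟨hpm, hk₀⟩
  refine ⟨hcardK, ?_, fun q hq hqH => ?_, ?_⟩
  · -- the largest prime is large
    obtain ⟨a, b, ha0, hb0, hnab, hab, haf, hbf⟩ := split_part hn (fun r => pT Z < kap r)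
    have hva : Real.log (a.totient : ℝ) ≤ ((pK Z : ℝ)) * Real.log (maxP n : ℝ) := by
      have haP : a ≤ maxP n ^ (headOf Z n).card := by
        conv_lhs => rw [← Nat.prod_factorization_pow_eq_self ha0.ne']
        have hset : a.primeFactors = headOf Z n := by
          ext r; rw [haf, headOf, mem_filter]
        rw [Finsupp.prod, Nat.support_factorization, hset]
        refine prod_le_pow_card _ _ _ fun r hr => ?_
        have hr' := mem_filter.1 hr
        have hrp := Nat.prime_of_mem_primeFactors hr'.1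
        have h1 : a.factorization r ≤ 1 := by
          by_contra hc
          push Not at hc
          refine hsq r hrp hr'.2 ?_
          rw [← pow_two, hnab]
          exact dvd_mul_of_dvd_left ((pow_dvd_pow r hc).trans (Nat.ordProj_dvd a r)) b
        exact (pow_le_pow_right₀ hrp.one_le h1).trans (by rw [pow_one]; exact (hmax r hr'.1).1)
      have h1 : Real.log (a.totient : ℝ) ≤ Real.log ((maxP n : ℝ) ^ (headOf Z n).card) :=
        Real.log_le_log (by exact_mod_cast Nat.totient_pos.2 ha0)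
          (by exact_mod_cast (Nat.totient_le a).trans haP)
      rw [Real.log_pow] at h1
      exact h1.trans (mul_le_mul_of_nonneg_right (by exact_mod_cast hcardK)
        (Real.log_natCast_nonneg _))
    have hvb : Real.log (b.totient : ℝ) ≤ 10 * ((LL Z : ℝ) + 1) * Real.exp ((pT Z : ℝ) + 1) := by
      refine (log_smooth_le (T := pT Z) (Crude.totient_smooth hb0 fun r hr => ?_)).trans
        (mul_le_mul_of_nonneg_right ?_ (Real.exp_pos _).le)
      · exact not_lt.1 ((hbf r).1 hr).2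
      · have := bigOm_le_of_dvd (a := b.totient) (Dvd.intro_left _ hab.symm) (Nat.totient_pos.2 hn)
        exact_mod_cast this.trans hOm
    obtain ⟨hlogle, hlog0, hll⟩ := log_Z_le hZ
    have hlv : Real.log Z - 2 * Real.log (Real.log Z) ≤ Real.log (n.totient : ℝ) := by
      have h := Real.log_le_log (by positivity) hlarge.le
      rw [Real.log_div (by linarith) (by positivity), Real.log_pow] at h
      push_cast at h
      exact h
    rw [hab, Nat.cast_mul, Real.log_mul (by exact_mod_cast (Nat.totient_pos.2 ha0).ne')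
      (by exact_mod_cast (Nat.totient_pos.2 hb0).ne')] at hlv
    have hexp : Real.exp (LL Z : ℝ) ≤ Real.log Z + 1 := by
      have h1 : Real.exp (LL Z : ℝ) ≤ Real.log (Z + 1) := by
        have hll1 : 0 < Real.log (Z + 1) := Real.log_pos (by linarith)
        rw [← Real.le_log_iff_exp_le hll1]
        refine Nat.floor_le ?_
        by_contra hc
        push Not at hc
        have : LL Z = 0 := Nat.floor_eq_zero.2 (by linarith)
        omega
      have h2 : Real.log (Z + 1) ≤ Real.log Z + 1 := by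
        have : Real.log (Z + 1) ≤ Real.log (Z * Real.exp 1) :=
          Real.log_le_log (by linarith) (by nlinarith [Real.add_one_le_exp (1 : ℝ)])
        rwa [Real.log_mul (by linarith) (Real.exp_pos 1).ne', Real.log_exp] at this
      linarith
    have h2L : 2 * ((LL Z : ℝ) + 1) ≤ 2 * ((LL Z : ℝ) + 1) * Real.exp ((pT Z : ℝ) + 1) :=
      le_mul_of_one_le_right (by positivity) (Real.one_le_exp (by positivity))
    have hlp := Real.log_natCast_nonneg (maxP n)
    rw [div_le_iff₀ (by positivity)]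
    nlinarith
  · -- nested budgets
    by_contra hc
    push Not at hc
    refine hnest ⟨q, (mem_filter.1 hq).1, hqH, (headOf Z n).filter (fun r => r ≤ q),
      fun r hr => mem_filter.2 ⟨(mem_filter.1 (mem_filter.1 hr).1).1, (mem_filter.1 hr).2⟩,
      fun r hr => hheadnorm r (mem_filter.1 hr).1, (card_filter_le _ _).trans hcardK, ?_, hc.le⟩
    refine le_antisymm (Finset.sup_le fun r hr => ?_) (le_sup (f := kap) (mem_filter.2 ⟨hq, le_rfl⟩))
    obtain ⟨hr1, hr2⟩ := mem_filter.1 hr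
    exact Crude.kap_mono (Nat.prime_of_mem_primeFactors (mem_filter.1 hr1).1).two_le hr2
  · -- the budget of the head
    set E := (headOf Z n).erase (maxP n)
    have htop : topS (headOf Z n) = kap (maxP n) :=
      le_antisymm (Finset.sup_le fun r hr => (hmax r (mem_filter.1 hr).1).2) (le_sup (f := kap) hph)
    have hlamS : ∀ s ∈ Ioc (pT Z) (topS (headOf Z n)),
        lamS (headOf Z n) s = lamS E s + 1 := by
      intro s hs
      rw [lamS, lamS, ← insert_erase hph, filter_insert, if_pos (htop ▸ (mem_Ioc.1 hs).2),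
        card_insert_of_notMem (by simp)]
    rw [budS, sum_congr rfl fun s hs => by rw [hlamS s hs]]
    have h := decay_budget (hdec.mono (erase_subset _ _) : Decays E) (k := topS E)
      (fun r hr => le_sup (f := kap) hr) (pT Z) (topS (headOf Z n))
    have : (0 : ℝ) ≤ (LL Z : ℝ) ^ ((4 : ℝ) / 5) := by positivity
    linarith

lemma gains {C₁ C₂ x : ℝ} {A T H K : ℕ} (hx : 1000 ≤ x)
    (hC : 40000 * (|C₁| + |C₂| + 1) ≤ x) (hA : (A : ℝ) ≤ x ^ 20) (hT : (T : ℝ) ≤ x ^ 50)
    (hT' : x ^ 50 < (T : ℝ) + 1) (hH' : x ^ 100 < (H : ℝ) + 1) (hK : (K : ℝ) ≤ 20 * x) :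
    (∀ k : ℕ, T < k → C₁ * profErr A 3 k + x ^ 6 ≤ β₃ A k - k ∧
      C₂ * profErr A 3 k + x ^ 6 ≤ β₃ A k - k) ∧
    ∀ k : ℕ, H < k → C₁ * profErr T K k + x ^ 6 ≤ βn k - k ∧
      C₂ * profErr T K k + x ^ 6 ≤ βn k - k := by
  have hx1 : (1 : ℝ) ≤ x := by linarith
  have hx0 : (0 : ℝ) < x := by linarith
  set D := |C₁| + |C₂| + 1
  have hD1 : C₁ ≤ D := by linarith [le_abs_self C₁, abs_nonneg C₂]
  have hD2 : C₂ ≤ D := by linarith [le_abs_self C₂, abs_nonneg C₁]
  have hD0 : 1 ≤ D := by linarith [abs_nonneg C₁, abs_nonneg C₂]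
  have hpw : ∀ (k : ℕ) (a b : ℕ), x ^ a ≤ (k : ℝ) → a = 10 * b →
      (k : ℝ) ^ ((4 : ℝ) / 5) * x ^ b ≤ (k : ℝ) ^ ((9 : ℝ) / 10) ∧
      x ^ (9 * b) ≤ (k : ℝ) ^ ((9 : ℝ) / 10) ∧
      (k : ℝ) ^ ((9 : ℝ) / 10) * x ^ b ≤ k := by
    intro k a b hk hab
    have hk0 : (0 : ℝ) < k := lt_of_lt_of_le (pow_pos hx0 _) hk
    have hb : x ^ b ≤ (k : ℝ) ^ ((1 : ℝ) / 10) := by
      have h := Real.rpow_le_rpow (pow_nonneg hx0.le a) hk (show (0 : ℝ) ≤ 1 / 10 by norm_num)
      rwa [← Real.rpow_natCast x a, ← Real.rpow_mul hx0.le,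
        show ((a : ℕ) : ℝ) * (1 / 10) = (b : ℝ) by subst hab; push_cast; ring,
        Real.rpow_natCast] at h
    refine ⟨?_, ?_, ?_⟩
    · refine (mul_le_mul_of_nonneg_left hb (by positivity)).trans (le_of_eq ?_)
      rw [← Real.rpow_add hk0]; norm_num
    · rw [mul_comm, pow_mul]
      refine (pow_le_pow_left₀ (by positivity) hb 9).trans (le_of_eq ?_)
      rw [← Real.rpow_natCast ((k : ℝ) ^ ((1 : ℝ) / 10)) 9, ← Real.rpow_mul hk0.le]; norm_num
    · refine (mul_le_mul_of_nonneg_left hb (by positivity)).trans (le_of_eq ?_)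
      rw [← Real.rpow_add hk0]; norm_num
  constructor
  · intro k hk
    have hk' : x ^ 50 ≤ (k : ℝ) := by
      have : (T : ℝ) + 1 ≤ k := by exact_mod_cast hk
      linarith
    obtain ⟨h1, -, h3⟩ := hpw k 50 5 hk' rfl
    set u := (k : ℝ) ^ ((4 : ℝ) / 5)
    have hu0 : 0 ≤ u := by positivity
    have hu : u * x ≤ k := by
      have : u * x ≤ u * x ^ 5 * x ^ 5 := by
        rw [mul_assoc, ← pow_add]
        exact mul_le_mul_of_nonneg_left (le_self_pow₀ hx1 (by norm_num)) hu0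
      exact this.trans ((mul_le_mul_of_nonneg_right h1 (by positivity)).trans h3)
    have hA' : (A : ℝ) * x ≤ k :=
      (mul_le_mul_of_nonneg_right hA hx0.le).trans (by
        rw [← pow_succ]; exact (pow_le_pow_right₀ hx1 (by norm_num)).trans hk')
    have h6 : x ^ 6 * x ≤ k := by
      rw [← pow_succ]; exact (pow_le_pow_right₀ hx1 (by norm_num)).trans hk'
    have h0 : (1 : ℝ) * x ≤ k := by
      rw [one_mul]; exact (le_self_pow₀ hx1 (by norm_num)).trans hk'
    have hk0 : (0 : ℝ) ≤ k := Nat.cast_nonneg k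
    have hsum : D * profErr A 3 k + x ^ 6 + 1.28 * ((A : ℝ) + 1) ≤ 0.024 * k := by
      rw [profErr]
      norm_num
      refine le_of_mul_le_mul_right ?_ hx0
      have e1 := mul_le_mul_of_nonneg_left (show ((A : ℝ) + u + 1) * x ≤ 3 * k by linarith)
        (show (0 : ℝ) ≤ D * 64 by linarith)
      have e2 := mul_le_mul_of_nonneg_right hC hk0
      have e3 := mul_le_mul_of_nonneg_right hD0 hk0
      nlinarith
    have hp0 : 0 ≤ profErr A 3 k := by unfold profErr; positivity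
    have := mul_le_mul_of_nonneg_right hD1 hp0
    have := mul_le_mul_of_nonneg_right hD2 hp0
    simp only [β₃]
    constructor <;> linarith
  · intro k hk
    have hk' : x ^ 100 ≤ (k : ℝ) := by
      have : (H : ℝ) + 1 ≤ k := by exact_mod_cast hk
      linarith
    obtain ⟨h1, h2, -⟩ := hpw k 100 10 hk' rfl
    set w := (k : ℝ) ^ ((9 : ℝ) / 10)
    set u := (k : ℝ) ^ ((4 : ℝ) / 5)
    have hu0 : 0 ≤ u := by positivity
    have hK3 : ((K : ℝ) + 1) ^ 3 ≤ 10000 * x ^ 3 := by
      refine (pow_le_pow_left₀ (by positivity) (show (K : ℝ) + 1 ≤ 21 * x by linarith) 3).trans ?_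
      rw [mul_pow]; exact mul_le_mul_of_nonneg_right (by norm_num) (by positivity)
    have hw0 : 0 ≤ w := by positivity
    have hs : ((T : ℝ) + u + 1) * x ^ 10 ≤ 3 * w := by
      have e1 : (T : ℝ) * x ^ 10 ≤ w := (mul_le_mul_of_nonneg_right hT (by positivity)).trans
        (by rw [← pow_add]; exact (pow_le_pow_right₀ hx1 (by norm_num)).trans h2)
      have e2 : 1 * x ^ 10 ≤ w := by
        rw [one_mul]; exact (pow_le_pow_right₀ hx1 (by norm_num)).trans h2
      linarith
    have hx6 : x ^ 6 * x ≤ w := by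
      rw [← pow_succ]; exact (pow_le_pow_right₀ hx1 (by norm_num)).trans h2
    have hsum : D * profErr T K k + x ^ 6 ≤ w := by
      rw [profErr]
      refine le_of_mul_le_mul_right ?_ hx0
      have e1 : ((K : ℝ) + 1) ^ 3 * ((T : ℝ) + u + 1) * x ^ 7 ≤ 30000 * w := by
        calc ((K : ℝ) + 1) ^ 3 * ((T : ℝ) + u + 1) * x ^ 7
            ≤ 10000 * x ^ 3 * ((T : ℝ) + u + 1) * x ^ 7 := by gcongr
          _ = 10000 * (((T : ℝ) + u + 1) * x ^ 10) := by ring
          _ ≤ _ := by linarith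
      have e2 : ((K : ℝ) + 1) ^ 3 * ((T : ℝ) + u + 1) * x ≤
          ((K : ℝ) + 1) ^ 3 * ((T : ℝ) + u + 1) * x ^ 7 :=
        mul_le_mul_of_nonneg_left (le_self_pow₀ hx1 (by norm_num)) (by positivity)
      have e3 := mul_le_mul_of_nonneg_left (e2.trans e1) (show (0 : ℝ) ≤ D by linarith)
      have e4 := mul_le_mul_of_nonneg_right hC hw0
      have e5 := mul_le_mul_of_nonneg_right hx hw0
      nlinarith
    have hp0 : 0 ≤ profErr T K k := by unfold profErr; positivity
    have := mul_le_mul_of_nonneg_right hD1 hp0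
    have := mul_le_mul_of_nonneg_right hD2 hp0
    simp only [βn]
    constructor <;> linarith

end RegB

open RegB in
/-- Outside a negligible set, the shape conditions follow from the first group. -/
theorem regB (_hM : MertensStmt) (hS : ExceedSumStmt) (hN : ExceedCountStmt) (hC : CrudeStmt) :
    RegBStmt := by
  obtain ⟨C₁, h₁⟩ := hS
  obtain ⟨C₂, h₂⟩ := hN
  obtain ⟨Cc, hc⟩ := hC
  have hLL : Tendsto (fun Z : ℝ => (LL Z : ℝ)) atTop atTop :=
    tendsto_natCast_atTop_atTop.comp (tendsto_nat_floor_atTop.comp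
      (Real.tendsto_log_atTop.comp (Real.tendsto_log_atTop.comp
        (tendsto_atTop_add_const_right _ 1 tendsto_id))))
  have hlamT : Tendsto lamZ atTop atTop := Real.tendsto_log_atTop.comp hLL
  have hbig : ∀ᶠ x : ℝ in atTop, 2000 ≤ x ∧ 40000 * (|C₁| + |C₂| + |Cc| + 1) ≤ x ∧
      4 * x ^ 50 ≤ Real.exp x :=
    (eventually_ge_atTop _).and ((eventually_ge_atTop _).and
      ((Real.tendsto_exp_div_pow_atTop 50).eventually_ge_atTop 4 |>.mp
        ((eventually_gt_atTop (0 : ℝ)).mono fun x hx h => by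
          rwa [le_div_iff₀ (pow_pos hx 50)] at h)))
  filter_upwards [eventually_ge_atTop (3 : ℝ), hlamT.eventually hbig,
    hLL.eventually_ge_atTop 1] with Z hZ hx hL
  obtain ⟨hx1000, hxC, hxe⟩ := hx
  have hL' : 1 ≤ LL Z := by exact_mod_cast hL
  set x := lamZ Z
  have hx1 : (1 : ℝ) ≤ x := by linarith
  have hx0 : (0 : ℝ) ≤ x := by linarith
  have heL : (LL Z : ℝ) = Real.exp x := (ninety_le hL').2
  have hpow : ∀ a b : ℕ, a ≤ b → x ^ a ≤ x ^ b := fun a b h => pow_le_pow_right₀ hx1 h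
  have hA : (pA Z : ℝ) ≤ x ^ 20 ∧ x ^ 20 < (pA Z : ℝ) + 1 :=
    ⟨Nat.floor_le (by positivity), Nat.lt_floor_add_one _⟩
  have hT : (pT Z : ℝ) ≤ x ^ 50 ∧ x ^ 50 < (pT Z : ℝ) + 1 :=
    ⟨Nat.floor_le (by positivity), Nat.lt_floor_add_one _⟩
  have hH : (pH Z : ℝ) ≤ x ^ 100 ∧ x ^ 100 < (pH Z : ℝ) + 1 :=
    ⟨Nat.floor_le (by positivity), Nat.lt_floor_add_one _⟩
  have hK : (pK Z : ℝ) ≤ 20 * x := Nat.floor_le (by positivity)
  have hx2 : x * x = x ^ 2 := (pow_two x).symm
  have h1x : x ≤ x ^ 20 := le_self_pow₀ hx1 (by norm_num)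
  have h2050 : 4 * x ^ 20 ≤ x ^ 50 := by
    have := hpow 21 50 (by norm_num)
    rw [pow_succ] at this
    nlinarith [pow_nonneg hx0 20]
  have hAT : (pA Z : ℝ) + 1 ≤ 4 / 5 * (pT Z : ℝ) := by linarith
  have hTL : (pT Z : ℝ) + x + 9 ≤ (LL Z : ℝ) := by linarith
  have hsmall : 1 + 24 * ((LL Z : ℝ) + 1) * Real.exp ((pT Z : ℝ) + 1) ≤
      Real.exp (LL Z : ℝ) := by
    have h49 : (49 : ℝ) ≤ Real.exp 49 := by linarith [Real.add_one_le_exp (49 : ℝ)]
    have he : (1 : ℝ) ≤ Real.exp ((pT Z : ℝ) + 1) := Real.one_le_exp (by positivity)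
    have hLE := mul_le_mul hL he zero_le_one (Nat.cast_nonneg _)
    calc 1 + 24 * ((LL Z : ℝ) + 1) * Real.exp ((pT Z : ℝ) + 1)
        ≤ 49 * Real.exp x * Real.exp ((pT Z : ℝ) + 1) := by
          rw [← heL]
          have := mul_le_mul_of_nonneg_right hL (show (0 : ℝ) ≤ Real.exp ((pT Z : ℝ) + 1) by positivity)
          nlinarith
      _ ≤ Real.exp 49 * Real.exp x * Real.exp ((pT Z : ℝ) + 1) :=
          mul_le_mul_of_nonneg_right (mul_le_mul_of_nonneg_right h49 (Real.exp_pos x).le)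
            (Real.exp_pos _).le
      _ ≤ Real.exp (LL Z : ℝ) := by
          rw [← Real.exp_add, ← Real.exp_add]
          exact Real.exp_le_exp.2 (by linarith)
  obtain ⟨hg3, hgn⟩ := gains (C₁ := C₁) (C₂ := C₂) (by linarith)
    (by linarith [abs_nonneg Cc, abs_nonneg C₁, abs_nonneg C₂]) hA.1 hT.1 hT.2 hH.2 hK
  set B : ℝ := |Cc| * (3 * x) ^ 2
  have hcrude : Crude.Bd (IsTotUpTo (LL Z)) (Real.exp B) := fun M hM => by
    refine (hc (LL Z) M hM).trans (Real.exp_le_exp.2 ?_)
    refine mul_le_mul (le_abs_self Cc) (pow_le_pow_left₀ (Real.log_nonneg (by linarith)) ?_ 2)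
      (sq_nonneg _) (abs_nonneg Cc)
    refine (Real.log_le_log (by positivity) (show (LL Z : ℝ) + 2 ≤ 3 * LL Z by linarith)).trans ?_
    rw [Real.log_mul (by norm_num) (by linarith)]
    have := Real.log_le_sub_one_of_pos (show (0 : ℝ) < 3 by norm_num)
    change Real.log 3 + x ≤ 3 * x
    linarith
  have hB : 0 ≤ B := by positivity
  have hAT' : pA Z ≤ pT Z := by
    have : (pA Z : ℝ) ≤ pT Z := by linarith [(pT Z).cast_nonneg (α := ℝ)]
    exact_mod_cast this
  have hTH : pT Z ≤ pH Z := Nat.floor_mono (hpow 50 100 (by norm_num))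
  have h3A : 3 ≤ pA Z := Nat.le_floor (by push_cast; linarith)
  have hKT : pK Z ≤ pT Z := Nat.floor_mono (by
    have := hpow 2 50 (by norm_num)
    nlinarith)
  have hCA : ∀ C : ℝ, |C| ≤ |C₁| + |C₂| → C ≤ (pA Z : ℝ) := fun C hC' => by
    linarith [le_abs_self C, abs_nonneg Cc]
  set V := (valueSet Z).filter (fun v => ∃ n : ℕ, n.totient = v ∧ BaseReg Z n ∧ ¬ ShapeReg Z n)
  set V₃ := V.filter (fun v => ∃ n : ℕ, n.totient = v ∧ BaseReg Z n ∧
    Heavy (pA Z) 3 (pT Z) (β₃ (pA Z)) n)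
  set Vn := V.filter (fun v => ∃ n : ℕ, n.totient = v ∧ BaseReg Z n ∧
    Heavy (pT Z) (pK Z) (pH Z) βn n)
  have hcov : V ⊆ V₃ ∪ Vn := by
    intro v hv
    obtain ⟨n, hn1, hn2, hn3⟩ := (mem_filter.1 hv).2
    by_cases h3 : Heavy (pA Z) 3 (pT Z) (β₃ (pA Z)) n
    · exact mem_union_left _ (mem_filter.2 ⟨hv, n, hn1, hn2, h3⟩)
    by_cases hn : Heavy (pT Z) (pK Z) (pH Z) βn n
    · exact mem_union_right _ (mem_filter.2 ⟨hv, n, hn1, hn2, hn⟩)
    exact absurd (shape_of hZ (by linarith) hAT hTL hsmall hn2 h3 hn) hn3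
  have hb3 := heavy_count h₁ h₂ hZ hL' hcrude hB (hCA C₁ (by linarith [abs_nonneg C₂]))
    (hCA C₂ (by linarith [abs_nonneg C₁])) h3A hAT' le_rfl (fun k hk _ => hg3 k hk) V₃
    fun v hv => (mem_filter.1 hv).2
  have hTA : (pA Z : ℝ) ≤ pT Z := by exact_mod_cast hAT'
  have hbn := heavy_count h₁ h₂ hZ hL' hcrude hB
    ((hCA C₁ (by linarith [abs_nonneg C₂])).trans hTA)
    ((hCA C₂ (by linarith [abs_nonneg C₁])).trans hTA) hKT hTH hTH (fun k hk _ => hgn k hk) Vn
    fun v hv => (mem_filter.1 hv).2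
  have hcard : (V.card : ℝ) ≤ (V₃.card : ℝ) + Vn.card := by
    exact_mod_cast (card_le_card hcov).trans (card_union_le _ _)
  have hlog0 := (log_Z_le hZ).2.1
  refine hcard.trans ((add_le_add hb3 hbn).trans ?_)
  rw [← mul_add, tiny]
  refine mul_le_mul_of_nonneg_left ?_ (div_nonneg (by linarith) hlog0.le)
  rw [← two_mul]
  have h2 : (2 : ℝ) ≤ Real.exp 1 := by linarith [Real.add_one_le_exp (1 : ℝ)]
  refine (mul_le_mul_of_nonneg_right h2 (Real.exp_pos _).le).trans ?_
  rw [← Real.exp_add]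
  refine Real.exp_le_exp.2 ?_
  have e1 : B ≤ x ^ 3 := by
    have := mul_le_mul_of_nonneg_right (show 9 * |Cc| ≤ x by
      linarith [abs_nonneg C₁, abs_nonneg C₂, abs_nonneg Cc]) (sq_nonneg x)
    simp only [B]
    nlinarith
  have e2 := hpow 3 5 (by norm_num)
  have e3 : 5 * x ^ 5 ≤ x ^ 6 := by
    rw [pow_succ x 5]; nlinarith [pow_nonneg hx0 5]
  have e4 : x ≤ x ^ 5 := le_self_pow₀ hx1 (by norm_num)
  change 1 + (B + 2 * x + 20 - x ^ 6) ≤ -(x ^ 5)
  linarith

end Vale.Agent.P031
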