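import Vale.Agent.P031.Asm.LowerNum
import Vale.Agent.P031.Asm.RegB

/-!
# Pairs behind the main sum: one cofactor
-/

open Finset Filter Topology
open scoped Classical

namespace Vale.Agent.P031.Pairs

open Lower (LNum log_bounds)

variable {CS Z : ℝ}

/-- What is used from a cofactor `m` of a good number, with head `H` and smooth part `t`. -/
structure Cof (Z : ℝ) (m : ℕ) (H : Finset ℕ) (t : ℕ) : Prop where
  pos : 0 < m
  eq : m = shiftProd H * t
  tpos : 0 < t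
  tsm : Smooth (pT Z) t
  normal : ∀ q ∈ H, Normal q ∧ pT Z < kap q
  low : ∀ q ∈ H, kap q + 2 ≤ LL Z
  card : H.card + 1 ≤ pK Z
  bud : ∀ p : ℕ, ∀ S ⊆ insert p H, budS (pT Z) S ≤ (LL Z : ℝ) - pM Z
  totU : IsTotUpTo (LL Z) m
  small : Real.log m ≤ Real.log Z / 10
  tot : ∀ p : ℕ, p.Prime → m + 1 < p → ∃ n : ℕ, 0 < n ∧ n.totient = (p - 1) * m
  om : bigOm m ≤ 10 * (LL Z + 1)

lemma scale_facts (h : LNum CS Z) :
    (pT Z : ℝ) + 11 * lamZ Z + 10 ≤ (LL Z : ℝ) ∧ 2 ≤ 10 * lamZ Z ∧ 1000 ≤ (LL Z : ℝ) := by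
  have hl := h.lam
  have hp := h.pow100
  have hT : (pT Z : ℝ) ≤ lamZ Z ^ 50 := Nat.floor_le (pow_nonneg (by linarith) _)
  have h1 : lamZ Z ≤ lamZ Z ^ 50 := le_self_pow₀ (by linarith) (by norm_num)
  have h2 : (1000 : ℝ) ≤ lamZ Z ^ 50 :=
    le_trans (by norm_num) (pow_le_pow_left₀ (by norm_num) hl 50)
  have h3 : 1000 * lamZ Z ^ 50 ≤ lamZ Z ^ 100 := by
    rw [show (100 : ℕ) = 50 + 50 from rfl, pow_add]
    exact mul_le_mul_of_nonneg_right h2 (by linarith)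
  exact ⟨by linarith, by linarith, by linarith⟩

/-- Budget of a subset of the head with another top. -/
lemma budget_le {T p P : ℕ} {H S : Finset ℕ} (hP : P ∉ H) (hH : ∀ q ∈ H, kap q ≤ kap P)
    (hS : S ⊆ insert p H) : budS T S ≤ budS T (insert P H) := by
  have hnn : ∀ s, 0 ≤ Qf s := Boundary.Qf_nonneg
  have hcount : ∀ s, lamS S s ≤ lamS H s + 1 := fun s => by
    refine (card_le_card (show S.filter (fun q => s ≤ kap q) ⊆
      insert p (H.filter (fun q => s ≤ kap q)) from fun q hq => ?_)).trans (card_insert_le _ _)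
    obtain ⟨h1, h2⟩ := mem_filter.1 hq
    rcases mem_insert.1 (hS h1) with rfl | h
    · exact mem_insert_self _ _
    · exact mem_insert_of_mem (mem_filter.2 ⟨h, h2⟩)
  have hpos : ∀ s ∈ Ioc T (topS S), 1 ≤ lamS S s := fun s hs => by
    obtain ⟨h1, h2⟩ := mem_Ioc.1 hs
    have hne : S.Nonempty := by
      by_contra he
      rw [not_nonempty_iff_eq_empty] at he
      simp [he, topS] at h2
      omega
    obtain ⟨q, hq, hqe⟩ := exists_mem_eq_sup _ hne kap
    exact card_pos.2 ⟨q, mem_filter.2 ⟨hq, h2.trans hqe.le⟩⟩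
  calc budS T S
      ≤ ∑ s ∈ (Ioc T (topS S)).filter (fun s => s ≤ kap P), Qf (lamS S s) := by
        rw [budS, ← sum_filter_add_sum_filter_not (Ioc T (topS S)) (fun s => s ≤ kap P), add_le_iff_nonpos_right]
        refine sum_nonpos fun s hs => ?_
        obtain ⟨hs, hsP⟩ := mem_filter.1 hs
        have h0 : lamS H s = 0 := card_eq_zero.2 (filter_eq_empty_iff.2 fun q hq hsq => hsP (hsq.trans (hH q hq)))
        refine le_trans (Boundary.Qf_mono (hpos s hs) (show lamS S s ≤ 1 by have := hcount s; omega)) ?_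
        simp [Qf]
    _ ≤ ∑ s ∈ (Ioc T (topS S)).filter (fun s => s ≤ kap P), Qf (lamS (insert P H) s) := by
        refine sum_le_sum fun s hs => ?_
        obtain ⟨hs, hsP⟩ := mem_filter.1 hs
        refine Boundary.Qf_mono (hpos s hs) ((hcount s).trans (le_of_eq ?_))
        rw [lamS, lamS, filter_insert, if_pos hsP, card_insert_of_notMem fun h => hP (mem_filter.1 h).1]
    _ ≤ budS T (insert P H) := by
        refine sum_le_sum_of_subset_of_nonneg (fun s hs => ?_) fun s _ _ => hnn _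
        obtain ⟨hs, hsP⟩ := mem_filter.1 hs
        exact mem_Ioc.2 ⟨(mem_Ioc.1 hs).1, hsP.trans (le_sup (mem_insert_self P H))⟩

lemma cof_exists (h : LNum CS Z) (hZ : 3 ≤ Z) {m : ℕ} (hm : m ∈ Mset Z) : ∃ H t, Cof Z m H t := by
  obtain ⟨-, n, ⟨⟨hb, hshape⟩, hlow, hbud⟩, rfl⟩ := mem_filter.1 hm
  obtain ⟨hn, hφ, -, hom, -, hsq, hnor, hPp, hPd, -⟩ := id hb
  obtain ⟨hTL, hlam2, hLbig⟩ := scale_facts h
  obtain ⟨hPpf, hPmax⟩ := RegB.maxP_facts hb
  have hL1 : 1 ≤ LL Z := by exact_mod_cast h.one_L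
  have hPT : pT Z < kap (maxP n) := by
    have := RegB.top_level hZ hL1 hb
    have := h.lam
    exact_mod_cast (show (pT Z : ℝ) < kap (maxP n) by linarith)
  set P := maxP n
  set k := n / P
  have hk0 : 0 < k := Nat.div_pos (Nat.le_of_dvd hn hPd) hPp.pos
  have hkn : k ∣ n := Nat.div_dvd_of_dvd hPd
  have hPk : ¬ P ∣ k := fun hd => hsq P hPp hPT ((Nat.dvd_div_iff_mul_dvd hPd).1 hd)
  set H := (headOf Z n).erase P
  have hH : ∀ q ∈ H, q ≠ P ∧ q ∈ n.primeFactors ∧ pT Z < kap q := fun q hq =>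
    ⟨ne_of_mem_erase hq, (mem_filter.1 (mem_of_mem_erase hq)).1, (mem_filter.1 (mem_of_mem_erase hq)).2⟩
  have hHk : H ⊆ k.primeFactors := fun q hq => by
    obtain ⟨hne, hpf, -⟩ := hH q hq
    obtain ⟨hqp, hqd, -⟩ := Nat.mem_primeFactors.1 hpf
    refine Nat.mem_primeFactors.2 ⟨hqp, (hqp.dvd_mul.1 (show q ∣ P * k by
      rwa [Nat.mul_div_cancel' hPd])).resolve_left fun hd => hne ((Nat.prime_dvd_prime_iff_eq hqp hPp).1 hd), hk0.ne'⟩
  obtain ⟨n', hn', he, -, hsub⟩ := Boundary.split_set H hk0 hHk fun q hq hd =>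
    hsq q (Nat.mem_primeFactors.1 (hH q hq).2.1).1 (hH q hq).2.2 (hd.trans hkn)
  have hhead : headOf Z n = insert P H := (insert_erase (mem_filter.2 ⟨hPpf, hPT⟩)).symm
  have hlow' : ∀ q ∈ H, (kap q : ℝ) ≤ (LL Z : ℝ) - 10 * lamZ Z := fun q hq =>
    le_trans (by exact_mod_cast (le_sup hq : kap q ≤ topS H)) hlow
  have hlam := h.lam
  set u := ⌊(LL Z : ℝ) - 10 * lamZ Z⌋₊
  have hu : Smooth u k := fun r hr => by
    refine Nat.le_floor ?_
    by_cases hrT : pT Z < kap r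
    · obtain ⟨hrp, hrd, -⟩ := Nat.mem_primeFactors.1 hr
      exact hlow' r (mem_erase.2 ⟨fun e => hPk (e ▸ hrd), mem_filter.2
        ⟨Nat.mem_primeFactors.2 ⟨hrp, hrd.trans hkn, hn.ne'⟩, hrT⟩⟩)
    · have : (kap r : ℝ) ≤ pT Z := by exact_mod_cast not_lt.1 hrT
      linarith
  have hom' : bigOm k.totient ≤ 10 * (LL Z + 1) :=
    (RegB.bigOm_le_of_dvd (Nat.totient_dvd_of_dvd hkn) (Nat.totient_pos.2 hn)).trans hom
  refine ⟨H, n'.totient, Nat.totient_pos.2 hk0, he, Nat.totient_pos.2 hn', ?_, fun q hq => ⟨?_, (hH q hq).2.2⟩,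
    fun q hq => ?_, ?_, fun p S hS => ?_, ⟨k, hk0, rfl, fun r hr => ?_⟩, ?_, fun p hp hmp => ?_, hom'⟩
  · refine Crude.totient_smooth hn' fun r hr => ?_
    obtain ⟨h1, h2⟩ := mem_sdiff.1 (hsub hr)
    obtain ⟨hrp, hrd, -⟩ := Nat.mem_primeFactors.1 h1
    by_contra hc
    exact h2 (mem_erase.2 ⟨fun e => hPk (e ▸ hrd), mem_filter.2
      ⟨Nat.mem_primeFactors.2 ⟨hrp, hrd.trans hkn, hn.ne'⟩, not_le.1 hc⟩⟩)
  · refine hnor q (hH q hq).2.1 (lt_of_le_of_lt ?_ (hH q hq).2.2)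
    exact Nat.floor_mono (pow_le_pow_right₀ (by linarith) (by norm_num))
  · have := hlow' q hq
    exact_mod_cast (show (kap q : ℝ) + 2 ≤ LL Z by linarith)
  · have := hshape.1
    rwa [hhead, card_insert_of_notMem (notMem_erase _ _)] at this
  · refine (budget_le (notMem_erase P _) (fun q hq => (hPmax q (hH q hq).2.1).2) hS).trans ?_
    rwa [← hhead]
  · obtain ⟨hrp, hrd, -⟩ := Nat.mem_primeFactors.1 hr
    exact RegB.kap_le_LL hn (Nat.mem_primeFactors.2 ⟨hrp, hrd.trans hkn, hn.ne'⟩) hφ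
  · refine (RegB.log_smooth_le (Crude.totient_smooth hk0 hu)).trans ?_
    obtain ⟨hb', -, hlog0⟩ := log_bounds h
    have hu1 : (u : ℝ) ≤ (LL Z : ℝ) - 10 * lamZ Z := Nat.floor_le (by linarith [Nat.cast_nonneg (α := ℝ) (pT Z)])
    have e : (LL Z : ℝ) = Real.exp (lamZ Z) := (Real.exp_log (by linarith)).symm
    have h1 : Real.exp ((u : ℝ) + 1) ≤ Real.exp 1 * Real.exp (LL Z : ℝ) / (LL Z : ℝ) ^ 10 := by
      rw [le_div_iff₀ (pow_pos (by linarith) _), ← Real.exp_add]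
      conv_lhs => rw [e, ← Real.exp_nat_mul, ← Real.exp_add]
      refine Real.exp_le_exp.2 ?_
      push_cast
      rw [← e] at *
      linarith
    have h2 : (bigOm k.totient : ℝ) ≤ 20 * (LL Z : ℝ) := by
      have : (bigOm k.totient : ℝ) ≤ 10 * ((LL Z : ℝ) + 1) := by exact_mod_cast hom'
      linarith
    refine (mul_le_mul h2 h1 (Real.exp_pos _).le (by linarith)).trans ?_
    rw [mul_div_assoc', div_le_iff₀ (pow_pos (by linarith) _)]
    have h3 : (1200 : ℝ) ≤ (LL Z : ℝ) ^ 9 := le_trans (by norm_num) (pow_le_pow_left₀ (by norm_num) hLbig 9)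
    have h4 := mul_le_mul (show Real.exp 1 ≤ 3 by linarith [Real.exp_one_lt_d9]) hb' (Real.exp_pos _).le (by norm_num)
    have h5 := mul_le_mul_of_nonneg_left h4 (show 0 ≤ 20 * (LL Z : ℝ) by linarith)
    have h6 := mul_le_mul_of_nonneg_left h3 (show 0 ≤ Real.log Z * (LL Z : ℝ) by positivity)
    have e10 : (LL Z : ℝ) ^ 10 = (LL Z : ℝ) * (LL Z : ℝ) ^ 9 := by ring
    rw [e10]
    linarith
  · refine ⟨p * k, Nat.mul_pos hp.pos hk0, ?_⟩
    rw [Nat.totient_mul (hp.coprime_iff_not_dvd.2 fun hd => ?_), Nat.totient_prime hp]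
    · rfl
    · have := Nat.le_of_dvd (Nat.totient_pos.2 hk0) (Nat.totient_dvd_of_dvd hd)
      rw [Nat.totient_prime hp] at this
      have : p - 1 ≤ mOf n := this
      omega

end Vale.Agent.P031.Pairs
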