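import Vale.Agent.P031.Asm.RegAParts

/-!
# Assembly, first regularity conditions
-/

open Filter Topology Finset
open scoped Classical

namespace Vale.Agent.P031.RegA

open Crude

lemma sum_biUnion_le' {ι : Type*} {s : Finset ι} {t : ι → Finset ℕ} {f : ℕ → ℝ}
    (hf : ∀ m ∈ s.biUnion t, 0 ≤ f m) :
    ∑ m ∈ s.biUnion t, f m ≤ ∑ i ∈ s, ∑ m ∈ t i, f m := by
  induction s using Finset.induction_on with
  | empty => simp
  | insert a s ha ih =>
    rw [biUnion_insert, sum_insert ha]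
    have h := sum_union_inter (f := f) (s₁ := t a) (s₂ := s.biUnion t)
    have h0 : 0 ≤ ∑ m ∈ t a ∩ s.biUnion t, f m :=
      sum_nonneg fun m hm => hf m (by rw [biUnion_insert]; exact mem_union_left _ (mem_inter.1 hm).1)
    have := ih fun m hm => hf m (by rw [biUnion_insert]; exact mem_union_right _ hm)
    linarith

/-- The four negligible sets cover the values without a preimage satisfying `BaseReg`. -/
lemma cases_of_not_base {Z : ℝ} (hZ : 16 ≤ Z)
    (hlvl : ∀ p : ℕ, p.Prime → Real.log Z / (30 * ((LL Z : ℝ) + 1)) ≤ Real.log p → pT Z < kap p)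
    (hlog : Real.log Z / (30 * ((LL Z : ℝ) + 1)) ≤
      (Real.log Z - 2 * Real.log (Real.log Z)) / (10 * ((LL Z : ℝ) + 1) + 1))
    {v : ℕ} (hv : v ∈ valueSet Z) (hb : ∀ n : ℕ, n.totient = v → ¬ BaseReg Z n) :
    (v : ℝ) ≤ Z / Real.log Z ^ 2 ∨ 10 * (LL Z + 1) < bigOm v ∨
    (∃ r : ℕ, r.Prime ∧ pT Z < kap r ∧ (r * r ∣ v ∨ r * (r - 1) ∣ v)) ∨
    ∃ p m : ℕ, p.Prime ∧ Real.log Z / (30 * ((LL Z : ℝ) + 1)) ≤ Real.log p ∧ v = (p - 1) * m ∧
      ((pA Z < kap p ∧ ¬ Normal p ∧ IsTotUpTo (LL Z) m ∧ (m : ℝ) ≤ Z) ∨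
        ∃ q e w : ℕ, q ∈ band (pA Z) (LL Z) ∧ ¬ Normal q ∧ (e = q - 1 ∨ e = q) ∧ m = e * w ∧
          IsTotUpTo (LL Z) w ∧ (w : ℝ) ≤ Z) := by
  obtain ⟨hvI, n, hn0, hnv⟩ := mem_filter.1 hv
  obtain ⟨hv1, hv2⟩ := mem_Icc.1 hvI
  have hvZ : (v : ℝ) ≤ Z := le_trans (by exact_mod_cast hv2) (Nat.floor_le (by linarith))
  by_cases h0 : (v : ℝ) ≤ Z / Real.log Z ^ 2
  · exact Or.inl h0
  refine Or.inr ?_
  by_cases h1 : 10 * (LL Z + 1) < bigOm v
  · exact Or.inl h1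
  refine Or.inr ?_
  by_cases h2 : RoughSqfree (pT Z) v
  swap
  · unfold RoughSqfree at h2
    push Not at h2
    obtain ⟨r, hr, hrT, hd⟩ := h2
    exact Or.inl ⟨r, hr, hrT, Or.inl hd⟩
  by_cases h3 : RoughSqfree (pT Z) n
  swap
  · unfold RoughSqfree at h3
    push Not at h3
    obtain ⟨r, hr, hrT, hd⟩ := h3
    refine Or.inl ⟨r, hr, hrT, Or.inr ?_⟩
    have h := Nat.totient_dvd_of_dvd hd
    rw [Nat.totient_mul_of_prime_of_dvd hr dvd_rfl, Nat.totient_prime hr, hnv] at h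
    exact h
  refine Or.inr ?_
  -- the largest prime
  obtain ⟨-, hlogZlt, hlogZ⟩ := scale hZ
  have hne : n.primeFactors.Nonempty := by
    rw [Nat.nonempty_primeFactors]
    by_contra hn1
    have : n = 1 := by omega
    rw [this, Nat.totient_one] at hnv
    rw [← hnv] at h0
    apply h0
    rw [le_div_iff₀ (by positivity), Nat.cast_one, one_mul]
    have hs : Real.log Z ≤ √Z := by
      have := Real.log_le_sub_one_of_pos (show 0 < √(√Z) by positivity)
      rw [Real.log_sqrt (Real.sqrt_nonneg Z), Real.log_sqrt (by linarith)] at this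
      nlinarith [Real.mul_self_sqrt (Real.sqrt_nonneg Z), Real.sqrt_nonneg (√Z),
        sq_nonneg (√(√Z) - 2)]
    nlinarith [Real.mul_self_sqrt (show 0 ≤ Z by linarith)]
  obtain ⟨hpP, hpd, -⟩ : (maxP n).Prime ∧ maxP n ∣ n ∧ n ≠ 0 := by
    obtain ⟨x, hx, hx'⟩ := exists_mem_eq_sup _ hne (id : ℕ → ℕ)
    have : maxP n ∈ n.primeFactors := by unfold maxP; rw [hx']; exact hx
    exact Nat.mem_primeFactors.1 this
  set p := maxP n with hp
  have hmax : ∀ q ∈ n.primeFactors, q ≤ p := fun q hq => le_sup (f := id) hq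
  have hΩ : bigOm n ≤ 10 * (LL Z + 1) + 1 :=
    ((bigOm_totient n hn0).1).trans (by rw [hnv]; omega)
  have hlp : Real.log Z / (30 * ((LL Z : ℝ) + 1)) ≤ Real.log p := by
    refine hlog.trans ?_
    rw [div_le_iff₀ (by positivity)]
    have hnp : (n : ℝ) ≤ (p : ℝ) ^ (10 * (LL Z + 1) + 1) := by
      exact_mod_cast (le_pow_bigOm hn0.ne' hmax).trans (Nat.pow_le_pow_right hpP.pos hΩ)
    have hvn : (v : ℝ) ≤ n := by exact_mod_cast hnv ▸ Nat.totient_le n
    have hvpos : (0 : ℝ) < v := by exact_mod_cast hv1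
    have h := Real.log_le_log hvpos (hvn.trans hnp)
    rw [Real.log_pow] at h
    have h4 : Real.log Z - 2 * Real.log (Real.log Z) ≤ Real.log v := by
      have := Real.log_le_log (show 0 < Z / Real.log Z ^ 2 by positivity) (not_le.1 h0).le
      rw [Real.log_div (by linarith) (by positivity), Real.log_pow] at this
      exact_mod_cast this
    push_cast at h
    linarith
  -- the failing condition is normality
  obtain ⟨q, hq, hqA, hqN⟩ : ∃ q ∈ n.primeFactors, pA Z < kap q ∧ ¬ Normal q := by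
    by_contra hc
    push Not at hc
    exact hb n hnv ⟨hn0, by rw [hnv]; exact hvZ, by rw [hnv]; exact not_le.1 h0,
      by rw [hnv]; omega, by rw [hnv]; exact h2, h3, fun q hq h => hc q hq h, hpP, hpd, hlp⟩
  obtain ⟨n1, hn1⟩ := hpd
  have hn10 : 0 < n1 := by
    rcases Nat.eq_zero_or_pos n1 with h | h
    · rw [h, mul_zero] at hn1; omega
    · exact h
  have hnd : ¬ p ∣ n1 := fun h => h3 p hpP (hlvl p hpP hlp) (hn1 ▸ Nat.mul_dvd_mul_left p h)
  have hv' : v = (p - 1) * n1.totient := by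
    rw [← hnv, hn1, Nat.totient_mul_of_prime_of_not_dvd hpP hnd]
  have hprime_le : ∀ r ∈ n.primeFactors, (r : ℝ) ≤ Z + 1 := by
    intro r hr
    obtain ⟨hrp, hrd, -⟩ := Nat.mem_primeFactors.1 hr
    have h : r - 1 ≤ v := Nat.le_of_dvd hv1 (hnv ▸ Nat.totient_prime hrp ▸
      Nat.totient_dvd_of_dvd hrd)
    have : (r : ℝ) ≤ v + 1 := by exact_mod_cast (by omega : r ≤ v + 1)
    linarith
  have hsmooth : ∀ {d : ℕ}, d ∣ n → Smooth (LL Z) d := fun {d} hd r hr => by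
    have hr' := Nat.primeFactors_mono hd hn0.ne' hr
    exact kap_le_LL (Nat.mem_primeFactors.1 hr').1 (hprime_le r hr')
  have hle : (n1.totient : ℝ) ≤ Z := by
    refine le_trans ?_ hvZ
    rw [hv']
    exact_mod_cast Nat.le_mul_of_pos_left _ (by have := hpP.two_le; omega)
  refine ⟨p, n1.totient, hpP, hlp, hv', ?_⟩
  rcases eq_or_ne q p with rfl | hqp
  · exact Or.inl ⟨hqA, hqN, ⟨n1, hn10, rfl, hsmooth (Dvd.intro_left p hn1.symm)⟩, hle⟩
  · refine Or.inr ?_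
    obtain ⟨hqP, hqd, -⟩ := Nat.mem_primeFactors.1 hq
    rw [hn1] at hqd
    obtain ⟨n2, hn2⟩ := (hqP.dvd_mul.1 hqd).resolve_left fun h =>
      hqp ((Nat.prime_dvd_prime_iff_eq hqP hpP).1 h)
    have hn20 : 0 < n2 := by
      rcases Nat.eq_zero_or_pos n2 with h | h
      · rw [h, mul_zero] at hn2; omega
      · exact h
    have hd2 : n2 ∣ n := ⟨p * q, by rw [hn1, hn2]; ring⟩
    have hw : (n2.totient : ℝ) ≤ Z := le_trans (by
      exact_mod_cast Nat.le_of_dvd (Nat.totient_pos.2 hn10)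
        (Nat.totient_dvd_of_dvd (Dvd.intro_left q hn2.symm))) hle
    have hband : q ∈ band (pA Z) (LL Z) :=
      mem_band.2 ⟨hqP, hqA, kap_le_LL hqP (hprime_le q hq)⟩
    by_cases hq2 : q ∣ n2
    · exact ⟨q, q, n2.totient, hband, hqN, Or.inr rfl,
        by rw [hn2, Nat.totient_mul_of_prime_of_dvd hqP hq2], ⟨n2, hn20, rfl, hsmooth hd2⟩, hw⟩
    · exact ⟨q, q - 1, n2.totient, hband, hqN, Or.inl rfl,
        by rw [hn2, Nat.totient_mul_of_prime_of_not_dvd hqP hq2], ⟨n2, hn20, rfl, hsmooth hd2⟩, hw⟩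

/-- The values with an abnormal prime in a preimage. -/
lemma abnormal_total (hA : AbnormalCountStmt) (hS : AbnormalSumStmt) (hG : CrudeStmt) :
    ∃ c C : ℝ, 0 < c ∧ 0 ≤ C ∧ ∀ᶠ y₀ : ℝ in atTop, ∀ Z : ℝ, 16 ≤ Z → ∀ A L : ℕ,
      ∀ B : Finset ℕ, (∀ v ∈ B, (v : ℝ) ≤ Z ∧ 0 < v ∧
        ∃ p m : ℕ, p.Prime ∧ y₀ ≤ Real.log p ∧ v = (p - 1) * m ∧
          ((A < kap p ∧ kap p ≤ L ∧ ¬ Normal p ∧ IsTotUpTo L m ∧ (m : ℝ) ≤ Z) ∨
            ∃ q e w : ℕ, q ∈ band A L ∧ ¬ Normal q ∧ (e = q - 1 ∨ e = q) ∧ m = e * w ∧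
              IsTotUpTo L w ∧ (w : ℝ) ≤ Z)) →
      (B.card : ℝ) ≤ C * Z / y₀ * ((L : ℝ) + 1) *
        Real.exp (C * Real.log ((L : ℝ) + 2) ^ 2 - c * Real.sqrt A) := by
  obtain ⟨c₁, C₁, hc₁, hA⟩ := hA
  obtain ⟨c₂, C₂, hc₂, hS⟩ := hS
  obtain ⟨C₃, hG⟩ := hG
  obtain ⟨x₀, hπ⟩ := eventually_atTop.1 (Chebyshev.eventually_primeCounting_le (ε := 1) one_pos)
  set c := min c₁ c₂ with hc
  set K := 2 * |C₁| + 18 * |C₂| with hK
  refine ⟨c, max (|C₃|) K, lt_min hc₁ hc₂, le_max_of_le_left (abs_nonneg _), ?_⟩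
  filter_upwards [eventually_ge_atTop (max 1 (Real.log (max x₀ 2)))] with y₀ hy₀
  intro Z hZ A L B hB
  have hy1 : 1 ≤ y₀ := (le_max_left _ _).trans hy₀
  set W := (Icc 1 ⌊Z⌋₊).filter (IsTotUpTo L) with hW
  have hW1 : ∑ w ∈ W, (1 : ℝ) / w ≤ Real.exp (|C₃| * Real.log ((L : ℝ) + 2) ^ 2) :=
    (hG L W fun m hm => (mem_filter.1 hm).2).trans (Real.exp_le_exp.2
      (mul_le_mul_of_nonneg_right (le_abs_self _) (sq_nonneg _)))
  set Q := (band A L).filter fun q => ¬ Normal q with hQ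
  set Pc : ℕ → Finset ℕ := fun m => (Icc 2 (⌊Z / m⌋₊ + 1)).filter
    fun p => p.Prime ∧ y₀ ≤ Real.log p with hPc
  set Pa : ℕ → Finset ℕ := fun m => (Pc m).filter
    fun p => A < kap p ∧ kap p ≤ L ∧ ¬ Normal p with hPa
  have hx : ∀ m : ℕ, 0 < m → (Pc m).Nonempty →
      x₀ ≤ Z / m + 1 ∧ 2 ≤ Z / m + 1 ∧ Z / m + 1 ≤ 2 * (Z / m) ∧
        y₀ ≤ Real.log (Z / m + 1) := by
    rintro m hm ⟨p, hp⟩
    simp only [hPc, mem_filter, mem_Icc] at hp
    obtain ⟨⟨hp2, hpm⟩, -, hpy⟩ := hp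
    have h0 : (0 : ℝ) ≤ Z / m := by positivity
    have hp' : (p : ℝ) ≤ Z / m + 1 := by
      have := Nat.floor_le h0
      have : (p : ℝ) ≤ (⌊Z / m⌋₊ : ℝ) + 1 := by exact_mod_cast hpm
      linarith
    have hp2' : (2 : ℝ) ≤ p := by exact_mod_cast hp2
    refine ⟨?_, by linarith, by linarith, hpy.trans (Real.log_le_log (by linarith) hp')⟩
    have h := ((le_max_right _ _).trans hy₀).trans hpy
    rw [Real.log_le_log_iff (by positivity) (by linarith)] at h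
    exact (le_max_left _ _).trans (h.trans hp')
  have hPa' : ∀ m : ℕ, 0 < m → ((Pa m).card : ℝ) ≤
      (L : ℝ) * (2 * |C₁|) * Z / y₀ * Real.exp (-c * Real.sqrt A) * (1 / m) := by
    intro m hm
    rcases (Pa m).eq_empty_or_nonempty with he | hne
    · rw [he, card_empty, Nat.cast_zero]; positivity
    obtain ⟨-, hY2, hY, hlY⟩ := hx m hm (hne.mono (filter_subset _ _))
    have hsub : Pa m ⊆ (Ioc A L).biUnion fun k =>
        (cell k).filter fun q : ℕ => (q : ℝ) ≤ Z / m + 1 ∧ ¬ Normal q := by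
      intro p hp
      simp only [hPa, hPc, mem_filter, mem_Icc] at hp
      obtain ⟨⟨⟨-, hpm⟩, hpp, -⟩, h1, h2, h3⟩ := hp
      refine mem_biUnion.2 ⟨kap p, mem_Ioc.2 ⟨h1, h2⟩, mem_filter.2 ⟨mem_cell.2 ⟨hpp, rfl⟩, ?_, h3⟩⟩
      have : (p : ℝ) ≤ (⌊Z / m⌋₊ : ℝ) + 1 := by exact_mod_cast hpm
      linarith [Nat.floor_le (show (0 : ℝ) ≤ Z / m by positivity)]
    refine (Nat.cast_le.2 ((card_le_card hsub).trans card_biUnion_le)).trans ?_
    push_cast
    refine (sum_le_sum fun k hk => (hA k (Z / m + 1) hY2).trans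
      (show _ ≤ |C₁| * (2 * (Z / m)) / y₀ * Real.exp (-c * Real.sqrt A) from ?_)).trans ?_
    · have hkA : Real.sqrt A ≤ (k : ℝ) ^ ((1 : ℝ) / 2) := by
        rw [← Real.sqrt_eq_rpow]
        exact Real.sqrt_le_sqrt (by exact_mod_cast (mem_Ioc.1 hk).1.le)
      refine mul_le_mul ?_ (Real.exp_le_exp.2 ?_) (Real.exp_pos _).le (by positivity)
      · refine div_le_div₀ (by positivity) ?_ (by linarith) hlY
        exact mul_le_mul (le_abs_self _) hY (by linarith) (abs_nonneg _)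
      · rw [neg_mul, neg_mul, neg_le_neg_iff]
        exact mul_le_mul (min_le_left _ _) hkA (Real.sqrt_nonneg _) hc₁.le
    · simp only [sum_const, nsmul_eq_mul, Nat.card_Ioc]
      have : ((L - A : ℕ) : ℝ) ≤ L := by exact_mod_cast Nat.sub_le L A
      refine (mul_le_mul_of_nonneg_right this (by positivity)).trans (le_of_eq ?_)
      ring
  have hPc' : ∀ m : ℕ, 0 < m → ((Pc m).card : ℝ) ≤ 6 * Z / y₀ * (1 / m) := by
    intro m hm
    rcases (Pc m).eq_empty_or_nonempty with he | hne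
    · rw [he, card_empty, Nat.cast_zero]; positivity
    obtain ⟨hx0, hY2, hY, hlY⟩ := hx m hm hne
    have h1 : (Pc m).card ≤ Nat.primeCounting ⌊Z / (m : ℝ) + 1⌋₊ := by
      rw [Nat.primeCounting, Nat.primeCounting', Nat.count_eq_card_filter_range]
      refine card_le_card fun p hp => ?_
      simp only [hPc, mem_filter, mem_Icc] at hp
      rw [mem_filter, mem_range, Nat.floor_add_one (by positivity)]
      exact ⟨by omega, hp.2.1⟩
    refine (Nat.cast_le.2 h1).trans ((hπ _ hx0).trans ?_)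
    have hl4 : Real.log 4 + 1 ≤ 3 := by
      rw [show (4 : ℝ) = 2 ^ 2 by norm_num, Real.log_pow]; push_cast
      linarith [Real.log_two_lt_d9]
    refine (div_le_div₀ (show 0 ≤ 3 * (2 * (Z / m)) by positivity) ?_ (by linarith) hlY).trans
      (le_of_eq (by ring))
    exact mul_le_mul hl4 hY (by linarith) (by norm_num)
  set M₁ := W with hM₁
  set E : ℕ → Finset ℕ := fun q => {q - 1, q} with hE
  set B₁ := B.filter fun v => ∃ m ∈ W, ∃ p ∈ Pa m, v = (p - 1) * m with hB₁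
  set M₂ := W.biUnion fun w => Q.biUnion fun q => (E q).image fun e => e * w with hM₂
  have hBsub : ∀ v ∈ B, v ∈ B₁ ∨ ∃ m ∈ M₂, ∃ p ∈ Pc m, v = (p - 1) * m := by
    intro v hv
    obtain ⟨hvZ, hv0, p, m, hp, hpy, rfl, h⟩ := hB v hv
    have hm0 : 0 < m := Nat.pos_of_mul_pos_left hv0
    have hpm : p ∈ Pc m := by
      simp only [hPc, mem_filter, mem_Icc]
      refine ⟨⟨hp.two_le, ?_⟩, hp, hpy⟩
      have : ((p - 1 : ℕ) : ℝ) ≤ Z / m := by
        rw [le_div_iff₀ (by exact_mod_cast hm0)]; exact_mod_cast hvZ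
      have := Nat.le_floor this
      omega
    rcases h with ⟨h1, h2, h3, h4, h5⟩ | ⟨q, e, w, h1, h2, h3, rfl, h4, h5⟩
    · refine Or.inl (mem_filter.2 ⟨hv, m, mem_filter.2 ⟨mem_Icc.2 ⟨hm0, Nat.le_floor h5⟩, h4⟩, p,
        mem_filter.2 ⟨hpm, h1, h2, h3⟩, rfl⟩)
    · refine Or.inr ⟨e * w, ?_, p, hpm, rfl⟩
      refine mem_biUnion.2 ⟨w, mem_filter.2 ⟨mem_Icc.2 ⟨Nat.pos_of_mul_pos_left hm0,
        Nat.le_floor h5⟩, h4⟩, mem_biUnion.2 ⟨q, mem_filter.2 ⟨h1, h2⟩, ?_⟩⟩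
      exact mem_image.2 ⟨e, by simp [hE, h3], rfl⟩
  have hc1 : (B₁.card : ℝ) ≤
      (L : ℝ) * (2 * |C₁|) * Z / y₀ * Real.exp (-c * Real.sqrt A) * ∑ w ∈ W, 1 / (w : ℝ) := by
    refine (pair_count Pa fun v hv => (mem_filter.1 hv).2).trans ?_
    rw [mul_sum]
    exact sum_le_sum fun m hm => hPa' m (mem_Icc.1 (mem_filter.1 hm).1).1
  have hQsum : ∑ q ∈ Q, 1 / (q : ℝ) ≤ (L : ℝ) * (|C₂| * Real.exp (-c * Real.sqrt A)) := by
    have hsub : Q ⊆ (Ioc A L).biUnion fun k => (cell k).filter fun q : ℕ => ¬ Normal q := by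
      intro q hq
      obtain ⟨hqb, hqn⟩ := mem_filter.1 hq
      obtain ⟨hp, h1, h2⟩ := mem_band.1 hqb
      exact mem_biUnion.2 ⟨kap q, mem_Ioc.2 ⟨h1, h2⟩, mem_filter.2 ⟨mem_cell.2 ⟨hp, rfl⟩, hqn⟩⟩
    refine (sum_le_sum_of_subset_of_nonneg hsub fun q _ _ => by positivity).trans ?_
    rw [sum_biUnion]
    · refine (sum_le_sum fun k hk => (hS k).trans
        (show _ ≤ |C₂| * Real.exp (-c * Real.sqrt A) from ?_)).trans ?_
      · have hkA : Real.sqrt A ≤ (k : ℝ) ^ ((1 : ℝ) / 2) := by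
          rw [← Real.sqrt_eq_rpow]
          exact Real.sqrt_le_sqrt (by exact_mod_cast (mem_Ioc.1 hk).1.le)
        refine mul_le_mul (le_abs_self _) (Real.exp_le_exp.2 ?_) (Real.exp_pos _).le (abs_nonneg _)
        rw [neg_mul, neg_mul, neg_le_neg_iff]
        exact mul_le_mul (min_le_right _ _) hkA (Real.sqrt_nonneg _) hc₂.le
      · simp only [sum_const, nsmul_eq_mul, Nat.card_Ioc]
        exact mul_le_mul_of_nonneg_right (by exact_mod_cast Nat.sub_le L A) (by positivity)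
    · intro a _ b _ hab
      rw [Function.onFun, disjoint_left]
      intro p ha hb
      exact hab ((mem_cell.1 (mem_filter.1 ha).1).2.symm.trans (mem_cell.1 (mem_filter.1 hb).1).2)
  have hc2 : ((B.filter fun v => v ∉ B₁).card : ℝ) ≤
      18 * Z / y₀ * ((∑ w ∈ W, 1 / (w : ℝ)) * ∑ q ∈ Q, 1 / (q : ℝ)) := by
    refine (pair_count (M := M₂) Pc fun v hv => (hBsub v (mem_filter.1 hv).1).resolve_left
      (mem_filter.1 hv).2).trans ?_
    have hpos : ∀ w ∈ W, ∀ q ∈ Q, ∀ e ∈ E q, 0 < e * w := by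
      intro w hw q hq e he
      have := (mem_band.1 (mem_filter.1 hq).1).1.two_le
      simp only [hE, mem_insert, mem_singleton] at he
      exact Nat.mul_pos (by omega) (mem_Icc.1 (mem_filter.1 hw).1).1
    refine (sum_le_sum fun m hm => hPc' m ?_).trans ?_
    · obtain ⟨w, hw, hm⟩ := mem_biUnion.1 hm
      obtain ⟨q, hq, hm⟩ := mem_biUnion.1 hm
      obtain ⟨e, he, rfl⟩ := mem_image.1 hm
      exact hpos w hw q hq e he
    rw [← mul_sum]
    have hsum : ∑ m ∈ M₂, 1 / (m : ℝ) ≤ 3 * ((∑ w ∈ W, 1 / (w : ℝ)) * ∑ q ∈ Q, 1 / (q : ℝ)) := by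
      refine (sum_biUnion_le' fun m _ => by positivity).trans ?_
      rw [sum_mul, mul_sum]
      refine sum_le_sum fun w hw => ?_
      refine (sum_biUnion_le' fun m _ => by positivity).trans ?_
      rw [mul_sum, mul_sum]
      refine sum_le_sum fun q hq => ?_
      refine (sum_image_le_of_nonneg fun m _ => by positivity).trans ?_
      have hq2 := (mem_band.1 (mem_filter.1 hq).1).1.two_le
      have hq2' : (2 : ℝ) ≤ q := by exact_mod_cast hq2
      have h1 : (1 : ℝ) / ((q - 1 : ℕ) : ℝ) ≤ 2 * (1 / q) := by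
        rw [Nat.cast_sub (by omega), Nat.cast_one, mul_one_div,
          div_le_div_iff₀ (by linarith) (by linarith)]
        linarith
      have hne : q - 1 ≠ q := by omega
      simp only [hE, sum_pair hne]
      push_cast
      have e1 : 1 / (((q - 1 : ℕ) : ℝ) * w) = 1 / (w : ℝ) * (1 / ((q - 1 : ℕ) : ℝ)) := by
        rw [one_div_mul_one_div, mul_comm]
      have e2 : 1 / ((q : ℝ) * w) = 1 / (w : ℝ) * (1 / q) := by
        rw [one_div_mul_one_div, mul_comm]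
      rw [e1, e2]
      nlinarith [show 0 ≤ 1 / (w : ℝ) by positivity]
    refine (mul_le_mul_of_nonneg_left hsum (by positivity)).trans (le_of_eq ?_)
    ring
  have hcard : (B.card : ℝ) ≤ B₁.card + (B.filter fun v => v ∉ B₁).card := by
    have : B ⊆ B₁ ∪ B.filter fun v => v ∉ B₁ := fun v hv => by
      by_cases h : v ∈ B₁ <;> simp [h, hv]
    exact_mod_cast (card_le_card this).trans (card_union_le _ _)
  refine hcard.trans ((add_le_add hc1 hc2).trans ?_)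
  have hsW0 : 0 ≤ ∑ w ∈ W, 1 / (w : ℝ) := sum_nonneg fun _ _ => by positivity
  calc (L : ℝ) * (2 * |C₁|) * Z / y₀ * Real.exp (-c * Real.sqrt A) * (∑ w ∈ W, 1 / (w : ℝ))
        + 18 * Z / y₀ * ((∑ w ∈ W, 1 / (w : ℝ)) * ∑ q ∈ Q, 1 / (q : ℝ))
      ≤ (L : ℝ) * (2 * |C₁|) * Z / y₀ * Real.exp (-c * Real.sqrt A) * (∑ w ∈ W, 1 / (w : ℝ))
        + 18 * Z / y₀ * ((∑ w ∈ W, 1 / (w : ℝ)) *
          ((L : ℝ) * (|C₂| * Real.exp (-c * Real.sqrt A)))) := by gcongr
    _ = K * Z / y₀ * (L : ℝ) * (Real.exp (-c * Real.sqrt A) * ∑ w ∈ W, 1 / (w : ℝ)) := by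
        rw [hK]; ring
    _ ≤ K * Z / y₀ * (L : ℝ) *
          (Real.exp (-c * Real.sqrt A) * Real.exp (|C₃| * Real.log ((L : ℝ) + 2) ^ 2)) := by gcongr
    _ ≤ max (|C₃|) K * Z / y₀ * ((L : ℝ) + 1) *
          Real.exp (max (|C₃|) K * Real.log ((L : ℝ) + 2) ^ 2 - c * Real.sqrt A) := by
        rw [← Real.exp_add]
        have : -c * Real.sqrt A + |C₃| * Real.log ((L : ℝ) + 2) ^ 2
            ≤ max (|C₃|) K * Real.log ((L : ℝ) + 2) ^ 2 - c * Real.sqrt A := by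
          nlinarith [le_max_left (|C₃|) K, sq_nonneg (Real.log ((L : ℝ) + 2))]
        gcongr
        · exact le_max_right _ _
        · linarith

/-- The abnormal prime saving beats the polynomial losses. -/
lemma abn_size {c C lam L sA : ℝ} (hc : 0 < c) (hC : 0 ≤ C) (hlam : 30 ≤ lam)
    (hL : 1000 ≤ L) (hlL : Real.log (L + 1) ≤ lam + 1) (hlC : C ≤ lam)
    (hsq : lam ^ 10 / 2 ≤ sA) (hlam2 : (6 * C + 40) * (2 / c) + 2 ≤ lam) :
    C * 30 * (L + 1) ^ 2 * Real.exp (C * Real.log (L + 2) ^ 2 - c * sA) ≤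
      Real.exp (-(lam ^ 5)) / 4 := by
  have h5 : lam ≤ lam ^ 5 := le_self_pow₀ (by linarith) (by norm_num)
  have h25 : lam ^ 2 ≤ lam ^ 5 := pow_le_pow_right₀ (by linarith) (by norm_num)
  have hl2 : Real.log (L + 2) ≤ lam + 2 := by
    have h1 := Real.log_le_sub_one_of_pos (show 0 < (L + 2) / (L + 1) by positivity)
    rw [Real.log_div (by linarith) (by linarith)] at h1
    have h2 : (L + 2) / (L + 1) - 1 ≤ 1 := by
      rw [sub_le_iff_le_add, div_le_iff₀ (by linarith)]; linarith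
    linarith
  have hsq2 : C * Real.log (L + 2) ^ 2 ≤ 4 * C * lam ^ 5 := by
    have h1 : Real.log (L + 2) ^ 2 ≤ (2 * lam) ^ 2 :=
      pow_le_pow_left₀ (Real.log_nonneg (by linarith)) (by linarith) 2
    have h2 := mul_le_mul_of_nonneg_left h1 hC
    have h3 := mul_le_mul_of_nonneg_left h25 (show 0 ≤ 4 * C by linarith)
    linarith
  have hpre : C * 30 * (L + 1) ^ 2 * 4 ≤ Real.exp (C + 119 + 2 * (lam + 1)) := by
    have hC1 : C * 30 * 4 ≤ Real.exp (C + 119) := by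
      have h2 : (120 : ℝ) ≤ Real.exp 119 := by linarith [Real.add_one_le_exp (119 : ℝ)]
      have h3 := mul_le_mul (Real.add_one_le_exp C) h2 (by norm_num) (Real.exp_pos C).le
      rw [← Real.exp_add] at h3
      linarith
    have hL2 : (L + 1) ^ 2 ≤ Real.exp (2 * (lam + 1)) := by
      rw [show 2 * (lam + 1) = (2 : ℕ) * (lam + 1) by norm_num, Real.exp_nat_mul]
      refine pow_le_pow_left₀ (by linarith) ?_ 2
      rw [← Real.exp_log (show 0 < L + 1 by linarith)]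
      exact Real.exp_le_exp.2 hlL
    rw [Real.exp_add]
    calc C * 30 * (L + 1) ^ 2 * 4 = C * 30 * 4 * (L + 1) ^ 2 := by ring
      _ ≤ _ := mul_le_mul hC1 hL2 (by positivity) (Real.exp_pos _).le
  have hmain : (6 * C + 40) * lam ^ 5 ≤ c * sA := by
    have h1 : (6 * C + 40) * (2 / c) ≤ lam ^ 5 := by linarith
    rw [← mul_div_assoc, div_le_iff₀ hc] at h1
    have h2 := mul_le_mul_of_nonneg_right
      (show 6 * C + 40 ≤ lam ^ 5 * (c / 2) by linarith) (show 0 ≤ lam ^ 5 by positivity)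
    have h3 : c * (lam ^ 10 / 2) ≤ c * sA := mul_le_mul_of_nonneg_left hsq hc.le
    have e : lam ^ 5 * (c / 2) * lam ^ 5 = c * (lam ^ 10 / 2) := by ring
    linarith
  rw [le_div_iff₀ (by norm_num : (0 : ℝ) < 4)]
  calc C * 30 * (L + 1) ^ 2 * Real.exp (C * Real.log (L + 2) ^ 2 - c * sA) * 4
      = C * 30 * (L + 1) ^ 2 * 4 * Real.exp (C * Real.log (L + 2) ^ 2 - c * sA) := by ring
    _ ≤ Real.exp (C + 119 + 2 * (lam + 1)) *
        Real.exp (C * Real.log (L + 2) ^ 2 - c * sA) := by gcongr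
    _ ≤ _ := by
        rw [← Real.exp_add, Real.exp_le_exp]
        have h1 : C + 119 + 2 * (lam + 1) ≤ 9 * lam ^ 5 := by linarith
        have h2 : 0 ≤ C * lam ^ 5 := by positivity
        linarith

/-- The size relations used at scale `Z`. -/
lemma eventually_sizes {c : ℝ} (hc : 0 < c) (C : ℝ) (hC : 0 ≤ C) :
    ∀ᶠ Z : ℝ in atTop, 16 ≤ Z ∧
      (∀ p : ℕ, p.Prime → Real.log Z / (30 * ((LL Z : ℝ) + 1)) ≤ Real.log p → pT Z < kap p) ∧
      Real.log Z / (30 * ((LL Z : ℝ) + 1)) ≤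
        (Real.log Z - 2 * Real.log (Real.log Z)) / (10 * ((LL Z : ℝ) + 1) + 1) ∧
      8 ≤ Real.log Z * Real.exp (-(lamZ Z ^ 5)) ∧
      C - ((LL Z : ℝ) + 1) / 2 ≤ -(lamZ Z ^ 5) - Real.log 4 ∧
      4 * Real.log Z * Real.exp (-Real.exp (pT Z : ℝ)) ≤ Real.exp (-(lamZ Z ^ 5)) / 4 ∧
      C * 30 * ((LL Z : ℝ) + 1) ^ 2 *
          Real.exp (C * Real.log ((LL Z : ℝ) + 2) ^ 2 - c * Real.sqrt (pA Z)) ≤
        Real.exp (-(lamZ Z ^ 5)) / 4 := by
  have hbig : ∀ (k : ℕ) (a : ℝ), 0 < a → ∀ᶠ t : ℝ in atTop, t ^ k ≤ a * Real.exp t := by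
    intro k a ha
    have h := (Real.isLittleO_pow_exp_atTop (n := k)).def ha
    filter_upwards [h] with t ht
    rw [Real.norm_eq_abs, Real.norm_eq_abs, abs_of_pos (Real.exp_pos t)] at ht
    exact (le_abs_self _).trans ht
  filter_upwards [eventually_ge_atTop (16 : ℝ),
    tendsto_lamZ.eventually (hbig 50 (1 / 20) (by norm_num)),
    tendsto_lamZ.eventually_ge_atTop (C + 30), tendsto_LL.eventually_ge_atTop 1000,
    tendsto_lamZ.eventually_ge_atTop ((6 * C + 40) * (2 / c) + 2)]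
    with Z hZ h50 hlam hL hlam2
  obtain ⟨hlo, hhi, hl1⟩ := scale hZ
  set L := LL Z with hLdef
  set lam := lamZ Z with hlamdef
  have hLr : (1000 : ℝ) ≤ L := by exact_mod_cast hL
  have hexp : Real.exp lam = (L : ℝ) := by
    rw [hlamdef, lamZ, ← hLdef, Real.exp_log (by linarith)]
  rw [hexp] at h50
  have hlam1 : (30 : ℝ) ≤ lam := by linarith
  have h5le : lam ^ 5 ≤ lam ^ 50 := pow_le_pow_right₀ (by linarith) (by norm_num)
  have hlam5 : C + 30 ≤ lam ^ 5 := hlam.trans (le_self_pow₀ (by linarith) (by norm_num))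
  have hlL : Real.log ((L : ℝ) + 1) ≤ lam + 1 := by
    have : Real.log ((L : ℝ) + 1) ≤ Real.log (2 * L) := Real.log_le_log (by linarith) (by linarith)
    rw [Real.log_mul two_ne_zero (by linarith)] at this
    have e : Real.log (L : ℝ) = lam := by rw [hlamdef, lamZ]
    linarith [Real.log_two_lt_d9]
  have hlam50 : lam ≤ lam ^ 50 := le_self_pow₀ (by linarith) (by norm_num)
  have hllZ : Real.log (Real.log Z) ≤ (L : ℝ) + 1 := by
    rw [← Real.log_exp ((L : ℝ) + 1)]; exact Real.log_le_log (by linarith) hhi.le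
  have hLexp : ∀ k : ℕ, k ≤ 3 → ((L : ℝ) + 1) ^ k ≤ Real.exp (L : ℝ) := by
    intro k hk
    have h4 : (L : ℝ) ^ 4 / 24 ≤ Real.exp (L : ℝ) := by
      have := Real.pow_div_factorial_le_exp (x := (L : ℝ)) (by linarith) 4
      norm_num [Nat.factorial] at this
      linarith
    calc ((L : ℝ) + 1) ^ k ≤ ((L : ℝ) + 1) ^ 3 := pow_le_pow_right₀ (by linarith) hk
      _ ≤ (2 * (L : ℝ)) ^ 3 := pow_le_pow_left₀ (by linarith) (by linarith) 3
      _ ≤ (L : ℝ) ^ 4 / 24 := by nlinarith [pow_pos (show (0 : ℝ) < L by linarith) 3]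
      _ ≤ _ := h4
  have hT : (pT Z : ℝ) ≤ lam ^ 50 ∧ lam ^ 50 ≤ (pT Z : ℝ) + 1 :=
    ⟨Nat.floor_le (by positivity), (Nat.lt_floor_add_one _).le⟩
  refine ⟨hZ, ?_, ?_, ?_, ?_, ?_, ?_⟩
  · intro p hp hlp
    have hy0 : 0 < Real.log Z / (30 * ((L : ℝ) + 1)) := by positivity
    have h := Real.log_le_log hy0 hlp
    rw [Real.log_div (by linarith) (by positivity), Real.log_mul (by norm_num) (by positivity)] at h
    have h30 : Real.log 30 ≤ 29 := by
      linarith [Real.log_le_sub_one_of_pos (show (0 : ℝ) < 30 by norm_num)]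
    have hlogZ : (L : ℝ) - Real.log 2 ≤ Real.log (Real.log Z) := by
      have := Real.log_le_log (by positivity) hlo
      rwa [Real.log_div (Real.exp_pos _).ne' two_ne_zero, Real.log_exp] at this
    have hkey : ((pT Z + 1 : ℕ) : ℝ) ≤ Real.log (Real.log p) := by
      push_cast
      linarith [hT.1, Real.log_two_lt_d9]
    exact Nat.le_floor hkey
  · rw [div_le_div_iff₀ (by positivity) (by positivity)]
    have h3 := hLexp 2 (by norm_num)
    have : 12 * ((L : ℝ) + 1) ≤ Real.log Z := by nlinarith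
    nlinarith
  · rw [Real.exp_neg, ← div_eq_mul_inv, le_div_iff₀ (Real.exp_pos _)]
    have h1 : Real.exp (lam ^ 5) ≤ Real.exp ((L : ℝ) / 20) :=
      Real.exp_le_exp.2 (by linarith)
    have h2 : 16 * Real.exp ((L : ℝ) / 20) ≤ Real.exp (L : ℝ) := by
      have : (16 : ℝ) ≤ Real.exp (19 * (L : ℝ) / 20) := by
        linarith [Real.add_one_le_exp (19 * (L : ℝ) / 20)]
      calc 16 * Real.exp ((L : ℝ) / 20) ≤ Real.exp (19 * (L : ℝ) / 20) * Real.exp ((L : ℝ) / 20) :=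
            mul_le_mul_of_nonneg_right this (Real.exp_pos _).le
        _ = _ := by rw [← Real.exp_add]; ring_nf
    linarith
  · have h4 : Real.log 4 ≤ 3 := by
      linarith [Real.log_le_sub_one_of_pos (show (0 : ℝ) < 4 by norm_num)]
    linarith
  · have h1 : Real.log Z ≤ Real.exp ((L : ℝ) + 1) := hhi.le
    have h2 : (L : ℝ) + 1 + lam ^ 5 + 4 ≤ Real.exp (pT Z : ℝ) := by
      have hTl : 3 * lam ≤ (pT Z : ℝ) := by
        have : lam * 30 ≤ lam ^ 50 := by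
          calc lam * 30 ≤ lam * lam := by nlinarith
            _ = lam ^ 2 := by ring
            _ ≤ lam ^ 50 := pow_le_pow_right₀ (by linarith) (by norm_num)
        linarith [hT.2]
      calc (L : ℝ) + 1 + lam ^ 5 + 4 ≤ (L : ℝ) * (L : ℝ) := by nlinarith
        _ = Real.exp (2 * lam) := by rw [← hexp, ← Real.exp_add]; ring_nf
        _ ≤ _ := Real.exp_le_exp.2 (by linarith)
    calc 4 * Real.log Z * Real.exp (-Real.exp (pT Z : ℝ))
        ≤ 4 * Real.exp ((L : ℝ) + 1) * Real.exp (-((L : ℝ) + 1 + lam ^ 5 + 4)) := by gcongr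
      _ = 4 * Real.exp (-4) * Real.exp (-(lam ^ 5)) := by
          rw [mul_assoc, mul_assoc, ← Real.exp_add, ← Real.exp_add]; ring_nf
      _ ≤ _ := by
          have : 16 * Real.exp (-4) ≤ 1 := by
            rw [Real.exp_neg, ← div_eq_mul_inv, div_le_one (Real.exp_pos _)]
            have := Real.quadratic_le_exp_of_nonneg (show (0 : ℝ) ≤ 4 by norm_num)
            have e : Real.exp 4 = Real.exp 2 * Real.exp 2 := by rw [← Real.exp_add]; norm_num
            have := Real.quadratic_le_exp_of_nonneg (show (0 : ℝ) ≤ 2 by norm_num)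
            nlinarith
          nlinarith [Real.exp_pos (-(lam ^ 5))]
  · have hA : lam ^ 20 ≤ (pA Z : ℝ) + 1 := (Nat.lt_floor_add_one _).le
    have hsq : lam ^ 10 / 2 ≤ Real.sqrt (pA Z) := by
      refine (Real.le_sqrt (by positivity) (Nat.cast_nonneg _)).2 ?_
      have : (4 : ℝ) / 3 ≤ lam ^ 20 :=
        le_trans (by linarith) (le_self_pow₀ (by linarith) (by norm_num))
      have e : (lam ^ 10 / 2) ^ 2 = lam ^ 20 / 4 := by ring
      linarith
    exact abn_size hc hC hlam1 (by linarith) hlL (by linarith) hsq hlam2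

theorem regA (hM : MertensStmt) (hA : AbnormalCountStmt) (hS : AbnormalSumStmt)
    (hG : CrudeStmt) : RegAStmt := by
  obtain ⟨CΩ, hΩ⟩ := omega_tail hM
  obtain ⟨c, Ca, hc, hCa, hab⟩ := abnormal_total hA hS hG
  obtain ⟨y₁, hy₁⟩ := eventually_atTop.1 hab
  have hy : ∀ᶠ Z : ℝ in atTop, y₁ ≤ Real.log Z / (30 * ((LL Z : ℝ) + 1)) := by
    filter_upwards [eventually_ge_atTop (16 : ℝ), tendsto_LL.eventually_ge_atTop 100,
      tendsto_LL.eventually_ge_atTop ⌈y₁⌉₊] with Z hZ hL hL2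
    obtain ⟨hlo, -, -⟩ := scale hZ
    rw [le_div_iff₀ (by positivity)]
    have hL' : (100 : ℝ) ≤ LL Z := by exact_mod_cast hL
    have hy' : y₁ ≤ LL Z := (Nat.le_ceil y₁).trans (by exact_mod_cast hL2)
    have h := Real.pow_div_factorial_le_exp (x := (LL Z : ℝ)) (Nat.cast_nonneg _) 4
    norm_num [Nat.factorial] at h
    nlinarith [mul_le_mul_of_nonneg_right hy' (show (0 : ℝ) ≤ 30 * ((LL Z : ℝ) + 1) by positivity),
      mul_le_mul_of_nonneg_left (mul_le_mul hL' hL' (by norm_num) (by linarith))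
        (show (0 : ℝ) ≤ (LL Z : ℝ) * LL Z by positivity)]
  unfold RegAStmt
  filter_upwards [eventually_sizes hc (max CΩ Ca) (hCa.trans (le_max_right _ _)), hy]
    with Z ⟨hZ, hlvl, hlog, h8, hom, hsq, habn⟩ hy
  obtain ⟨-, -, hl1⟩ := scale hZ
  set y := Real.log Z / (30 * ((LL Z : ℝ) + 1)) with hydef
  set N := ⌊Z⌋₊ with hN
  have hNZ : (N : ℝ) ≤ Z := Nat.floor_le (by linarith)
  set S₀ := (Icc 1 N).filter fun v : ℕ => (v : ℝ) ≤ Z / Real.log Z ^ 2 with hS₀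
  set S₁ := (Icc 1 N).filter fun v => 10 * (LL Z + 1) < bigOm v with hS₁
  set S₂ := (Icc 1 N).filter fun v => ∃ r : ℕ, r.Prime ∧ pT Z < kap r ∧
    (r * r ∣ v ∨ r * (r - 1) ∣ v) with hS₂
  set S₃ := (Icc 1 N).filter fun v => ∃ p m : ℕ, p.Prime ∧ y ≤ Real.log p ∧ v = (p - 1) * m ∧
      ((pA Z < kap p ∧ kap p ≤ LL Z ∧ ¬ Normal p ∧ IsTotUpTo (LL Z) m ∧ (m : ℝ) ≤ Z) ∨
        ∃ q e w : ℕ, q ∈ band (pA Z) (LL Z) ∧ ¬ Normal q ∧ (e = q - 1 ∨ e = q) ∧ m = e * w ∧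
          IsTotUpTo (LL Z) w ∧ (w : ℝ) ≤ Z) with hS₃
  have hsub : (valueSet Z).filter (fun v => ∀ n : ℕ, n.totient = v → ¬ BaseReg Z n)
      ⊆ S₀ ∪ (S₁ ∪ (S₂ ∪ S₃)) := by
    intro v hv
    obtain ⟨hvV, hb⟩ := mem_filter.1 hv
    have hvI : v ∈ Icc 1 N := (mem_filter.1 hvV).1
    simp only [mem_union, hS₀, hS₁, hS₂, hS₃, mem_filter]
    rcases cases_of_not_base hZ hlvl hlog hvV hb with h | h | h | ⟨p, m, hp, hpy, hv', h⟩
    · exact Or.inl ⟨hvI, h⟩
    · exact Or.inr (Or.inl ⟨hvI, h⟩)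
    · exact Or.inr (Or.inr (Or.inl ⟨hvI, h⟩))
    · refine Or.inr (Or.inr (Or.inr ⟨hvI, p, m, hp, hpy, hv', ?_⟩))
      rcases h with ⟨h1, h2, h3, h4⟩ | h
      · refine Or.inl ⟨h1, kap_le_LL hp ?_, h2, h3, h4⟩
        have hm0 : 0 < m := Nat.pos_of_mul_pos_left (hv' ▸ (mem_Icc.1 hvI).1)
        have h5 : p ≤ N + 1 := by
          have := (Nat.le_mul_of_pos_right (p - 1) hm0).trans (hv' ▸ (mem_Icc.1 hvI).2)
          omega
        have : (p : ℝ) ≤ N + 1 := by exact_mod_cast h5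
        linarith
      · exact Or.inr h
  have b0 : (S₀.card : ℝ) ≤ tiny Z / 4 := by
    have : S₀ ⊆ Icc 1 ⌊Z / Real.log Z ^ 2⌋₊ := fun v hv =>
      mem_Icc.2 ⟨(mem_Icc.1 (mem_filter.1 hv).1).1, Nat.le_floor (mem_filter.1 hv).2⟩
    have h := card_le_card this
    rw [Nat.card_Icc, Nat.add_sub_cancel] at h
    refine ((Nat.cast_le.2 h).trans (Nat.floor_le (by positivity))).trans ?_
    unfold tiny
    rw [sq, ← div_div, mul_div_assoc, div_le_iff₀ (by linarith)]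
    have : 0 ≤ Z / Real.log Z := by positivity
    nlinarith
  have b1 : (S₁.card : ℝ) ≤ tiny Z / 4 := by
    refine (hΩ Z hZ).trans ?_
    unfold tiny
    rw [mul_div_assoc]
    refine mul_le_mul_of_nonneg_left ?_ (by positivity)
    rw [show Real.exp (-(lamZ Z ^ 5)) / 4 = Real.exp (-(lamZ Z ^ 5) - Real.log 4) by
      rw [Real.exp_sub, Real.exp_log (show (0 : ℝ) < 4 by norm_num)], Real.exp_le_exp]
    linarith [le_max_left CΩ Ca]
  have b2 : (S₂.card : ℝ) ≤ tiny Z / 4 := by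
    refine (square_count N (pT Z)).trans ?_
    unfold tiny
    rw [mul_div_assoc, div_mul_eq_mul_div, le_div_iff₀ (by linarith)]
    calc 4 * (N : ℝ) * Real.exp (-Real.exp (pT Z : ℝ)) * Real.log Z
        = N * (4 * Real.log Z * Real.exp (-Real.exp (pT Z : ℝ))) := by ring
      _ ≤ Z * (Real.exp (-(lamZ Z ^ 5)) / 4) := mul_le_mul hNZ hsq (by positivity) (by linarith)
  have b3 : (S₃.card : ℝ) ≤ tiny Z / 4 := by
    refine (hy₁ y hy Z hZ (pA Z) (LL Z) S₃ fun v hv => ?_).trans ?_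
    · obtain ⟨hvI, h⟩ := mem_filter.1 hv
      exact ⟨le_trans (by exact_mod_cast (mem_Icc.1 hvI).2) hNZ, (mem_Icc.1 hvI).1, h⟩
    have e : Ca * Z / y * ((LL Z : ℝ) + 1) = Z / Real.log Z * (Ca * 30 * ((LL Z : ℝ) + 1) ^ 2) := by
      rw [hydef]; field_simp
    rw [e]
    unfold tiny
    rw [mul_assoc (Z / Real.log Z), mul_div_assoc]
    refine mul_le_mul_of_nonneg_left (le_trans ?_ habn) (by positivity)
    have h1 : Ca ≤ max CΩ Ca := le_max_right _ _
    gcongr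
  calc _ ≤ ((S₀ ∪ (S₁ ∪ (S₂ ∪ S₃))).card : ℝ) := by exact_mod_cast card_le_card hsub
    _ ≤ (S₀.card : ℝ) + (S₁.card + (S₂.card + S₃.card)) := by
        exact_mod_cast (card_union_le _ _).trans (Nat.add_le_add_left
          ((card_union_le _ _).trans (Nat.add_le_add_left (card_union_le _ _) _)) _)
    _ ≤ tiny Z := by linarith

end Vale.Agent.P031.RegA
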