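import Vale.Agent.P031.Asm.Iface
import Vale.Agent.P031.CrudeParts

/-!
# Shape of the head: elementary parts

Splitting a number by a set of primes, sets of primes whose levels decay geometrically, and the
count of values `(p - 1) a m` with `p` a large prime.
-/

open Finset
open scoped Classical

namespace Vale.Agent.P031.RegB

lemma split_part {n : ℕ} (hn : 0 < n) (P : ℕ → Prop) :
    ∃ a b, 0 < a ∧ 0 < b ∧ n = a * b ∧ n.totient = a.totient * b.totient ∧
      (∀ r, r ∈ a.primeFactors ↔ r ∈ n.primeFactors ∧ P r) ∧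
      (∀ r, r ∈ b.primeFactors ↔ r ∈ n.primeFactors ∧ ¬ P r) := by
  have key : ∀ (R : ℕ → Prop) [DecidablePred R], (∏ p ∈ n.primeFactors.filter R, p ^ n.factorization p).primeFactors =
      n.primeFactors.filter R ∧ 0 < ∏ p ∈ n.primeFactors.filter R, p ^ n.factorization p := by
    intro R _
    have hpos : 0 < ∏ p ∈ n.primeFactors.filter R, p ^ n.factorization p :=
      prod_pos fun p hp => pow_pos (Nat.prime_of_mem_primeFactors (mem_filter.1 hp).1).pos _
    refine ⟨?_, hpos⟩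
    ext r
    rw [Nat.mem_primeFactors]
    constructor
    · rintro ⟨hr, hd, -⟩
      obtain ⟨p, hp, hd'⟩ := (Nat.prime_iff.1 hr).exists_mem_finset_dvd hd
      rwa [(Nat.prime_dvd_prime_iff_eq hr (Nat.prime_of_mem_primeFactors (mem_filter.1 hp).1)).1
        (hr.dvd_of_dvd_pow hd')]
    · intro hr
      have hr' := Nat.mem_primeFactors.1 (mem_filter.1 hr).1
      exact ⟨hr'.1, (dvd_pow_self r (hr'.1.factorization_pos_of_dvd hn.ne' hr'.2.1).ne').trans
        (dvd_prod_of_mem (fun p => p ^ n.factorization p) hr), hpos.ne'⟩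
  have he : n = (∏ p ∈ n.primeFactors.filter P, p ^ n.factorization p) *
      ∏ p ∈ n.primeFactors.filter (fun p => ¬ P p), p ^ n.factorization p := by
    rw [prod_filter_mul_prod_filter_not]
    conv_lhs => rw [← Nat.prod_factorization_pow_eq_self hn.ne']
    rw [Finsupp.prod, Nat.support_factorization]
  set a := ∏ p ∈ n.primeFactors.filter P, p ^ n.factorization p
  set b := ∏ p ∈ n.primeFactors.filter (fun p => ¬ P p), p ^ n.factorization p
  obtain ⟨ha1, ha⟩ := key P
  obtain ⟨hb1, hb⟩ := key (fun p => ¬ P p)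
  refine ⟨a, b, ha, by convert hb using 2, he, ?_, fun r => by rw [ha1, mem_filter],
    fun r => by rw [show b.primeFactors = _ from (by convert hb1 using 2), mem_filter]⟩
  rw [← Nat.totient_mul, ← he]
  rw [← Nat.disjoint_primeFactors ha.ne' (by convert hb.ne' using 2), ha1]
  refine Finset.disjoint_left.2 fun r hr1 hr2 => ?_
  have hr2' : r ∈ n.primeFactors.filter (fun p => ¬ P p) := by convert hr2 using 2; convert hb1.symm using 2
  exact (mem_filter.1 hr2').2 (mem_filter.1 hr1).2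

/-- Levels in `S` decay: few elements below a given one have nearly the same level. -/
def Decays (S : Finset ℕ) : Prop :=
  ∀ q ∈ S, (S.filter (fun r => r ≤ q ∧ (4 : ℝ) / 5 * kap q < kap r)).card ≤ 2

lemma Decays.mono {S S' : Finset ℕ} (h : Decays S) (hs : S' ⊆ S) : Decays S' :=
  fun q hq => (card_le_card (filter_subset_filter _ hs)).trans (h q (hs hq))

lemma decay_count {S : Finset ℕ} (hd : Decays S) {k : ℕ} (hk : ∀ r ∈ S, kap r ≤ k) :
    ∀ j : ℕ, (S.filter (fun r => ((4 : ℝ) / 5) ^ j * k < kap r)).card ≤ 2 * j := by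
  intro j
  induction j with
  | zero =>
    rw [Nat.le_zero, card_eq_zero, filter_eq_empty_iff]
    intro r hr h
    simp only [pow_zero, one_mul, Nat.cast_lt] at h
    exact absurd (hk r hr) (by omega)
  | succ j ih =>
    set A := S.filter (fun r => ((4 : ℝ) / 5) ^ j * k < kap r)
    set B := S.filter (fun r => ((4 : ℝ) / 5) ^ (j + 1) * k < kap r ∧
      (kap r : ℝ) ≤ ((4 : ℝ) / 5) ^ j * k)
    have hB : B.card ≤ 2 := by
      rcases B.eq_empty_or_nonempty with h | h
      · simp [h]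
      obtain ⟨hq, -, hq2⟩ := mem_filter.1 (B.max'_mem h)
      refine (card_le_card fun r hr => ?_).trans (hd _ hq)
      refine mem_filter.2 ⟨(mem_filter.1 hr).1, le_max' B r hr, lt_of_le_of_lt ?_ (mem_filter.1 hr).2.1⟩
      rw [pow_succ', mul_assoc]
      exact mul_le_mul_of_nonneg_left hq2 (by norm_num)
    calc _ ≤ (A ∪ B).card := card_le_card fun r hr => by
          obtain ⟨hr1, hr2⟩ := mem_filter.1 hr
          simp only [A, B, mem_union, mem_filter]
          rcases lt_or_ge (((4 : ℝ) / 5) ^ j * k) (kap r) with h | h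
          exacts [Or.inl ⟨hr1, h⟩, Or.inr ⟨hr1, hr2, h⟩]
      _ ≤ A.card + B.card := card_union_le _ _
      _ ≤ 2 * (j + 1) := by omega

lemma decay_card {S : Finset ℕ} (hd : Decays S) {k j : ℕ} (hk : ∀ r ∈ S, kap r ≤ k)
    (hpos : ∀ r ∈ S, 1 ≤ kap r) (hj : ((4 : ℝ) / 5) ^ j * k < 1) : S.card ≤ 2 * j := by
  have h := decay_count hd hk j
  rwa [filter_true_of_mem fun r hr => lt_of_lt_of_le hj (by exact_mod_cast hpos r hr)] at h

lemma geom_series (J : ℕ) :
    ∑ t ∈ range (2 * J), (2 + (t : ℝ) / 5) * ((4 : ℝ) / 5) ^ (t / 2) =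
      37 - (4 * J + 37) * ((4 : ℝ) / 5) ^ J := by
  induction J with
  | zero => simp
  | succ J ih =>
    rw [show 2 * (J + 1) = (2 * J + 1) + 1 by ring, sum_range_succ, sum_range_succ, ih,
      show 2 * J / 2 = J by omega, show (2 * J + 1) / 2 = J by omega]
    push_cast
    ring

lemma Qf_succ_le (t : ℕ) : Qf (t + 1) ≤ ∑ i ∈ range t, (2 + (i : ℝ) / 5) := by
  have hs : ∀ t : ℕ, ∑ i ∈ range t, (2 + (i : ℝ) / 5) = 19 / 10 * t + (t : ℝ) ^ 2 / 10 := by
    intro t
    induction t with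
    | zero => simp
    | succ t ih => rw [sum_range_succ, ih]; push_cast; ring
  rw [hs, Qf]
  push_cast
  set x : ℝ := (t : ℝ) + 1
  have hx : 0 < x := by positivity
  have h1 := Real.log_le_sub_one_of_pos (show 0 < x / 10 by positivity)
  rw [Real.log_div hx.ne' (by norm_num)] at h1
  have h2 : Real.log 10 ≤ 2.34 := by
    rw [show (10 : ℝ) = 2 ^ 3 * (5 / 4) by norm_num, Real.log_mul (by norm_num) (by norm_num),
      Real.log_pow]
    have := Real.log_le_sub_one_of_pos (show (0 : ℝ) < 5 / 4 by norm_num)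
    push_cast
    linarith [Real.log_two_lt_d9]
  have h3 : Real.log x ≤ x - 1 := Real.log_le_sub_one_of_pos hx
  have ht : (0 : ℝ) ≤ t := Nat.cast_nonneg t
  have h4 : Real.log x ≤ 1.5 + (t : ℝ) / 10 := by
    simp only [x] at h1 ⊢
    linarith
  have h5 := mul_le_mul_of_nonneg_left h4 ht
  simp only [x] at h3 h5 ⊢
  nlinarith

/-- The budget above a decaying set is at most fifty times its top level. -/
lemma decay_budget {E : Finset ℕ} (hd : Decays E) {k : ℕ} (hk : ∀ r ∈ E, kap r ≤ k) (T k₀ : ℕ) :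
    ∑ s ∈ Ioc T k₀, Qf (lamS E s + 1) ≤ 50 * (k : ℝ) := by
  set N := 2 * E.card
  have hQ : ∀ s, Qf (lamS E s + 1) ≤ ∑ t ∈ range N, if t < lamS E s then 2 + (t : ℝ) / 5 else 0 := by
    intro s
    refine (Qf_succ_le _).trans (le_of_eq ?_)
    rw [← sum_filter]
    refine sum_congr ?_ fun _ _ => rfl
    ext t
    have : lamS E s ≤ E.card := card_filter_le _ _
    simp only [N, mem_range, mem_filter]
    omega
  have hcount : ∀ t : ℕ, ((((Ioc T k₀).filter (fun s => t < lamS E s)).card : ℕ) : ℝ) ≤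
      ((4 : ℝ) / 5) ^ (t / 2) * k := by
    intro t
    have hnn : (0 : ℝ) ≤ ((4 : ℝ) / 5) ^ (t / 2) * k := by positivity
    refine le_trans ?_ (Nat.floor_le hnn)
    refine Nat.cast_le.2 (le_trans (card_le_card (t := Icc 1 ⌊((4 : ℝ) / 5) ^ (t / 2) * k⌋₊)
      fun s hs => ?_) (by simp))
    obtain ⟨hs1, hs2⟩ := mem_filter.1 hs
    refine mem_Icc.2 ⟨by have := (mem_Ioc.1 hs1).1; omega, Nat.le_floor ?_⟩
    by_contra hcon
    push Not at hcon
    have : lamS E s ≤ 2 * (t / 2) := (card_le_card fun r hr => mem_filter.2 ⟨(mem_filter.1 hr).1,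
      hcon.trans_le (by exact_mod_cast (mem_filter.1 hr).2)⟩).trans (decay_count hd hk (t / 2))
    omega
  refine le_trans (sum_le_sum fun s _ => hQ s) ?_
  rw [sum_comm]
  calc ∑ t ∈ range N, ∑ s ∈ Ioc T k₀, (if t < lamS E s then 2 + (t : ℝ) / 5 else 0)
      ≤ ∑ t ∈ range N, (2 + (t : ℝ) / 5) * (((4 : ℝ) / 5) ^ (t / 2) * k) := by
        refine sum_le_sum fun t _ => ?_
        rw [← sum_filter, sum_const, nsmul_eq_mul, mul_comm]
        exact mul_le_mul_of_nonneg_left (hcount t) (by positivity)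
    _ = (37 - (4 * (E.card : ℝ) + 37) * ((4 : ℝ) / 5) ^ E.card) * k := by
        rw [← geom_series, sum_mul]
        exact sum_congr rfl fun t _ => by ring
    _ ≤ 50 * (k : ℝ) := by
        have : (0 : ℝ) ≤ (4 * (E.card : ℝ) + 37) * ((4 : ℝ) / 5) ^ E.card := by positivity
        exact mul_le_mul_of_nonneg_right (by linarith) (Nat.cast_nonneg k)

lemma primes_le {P₀ Y : ℝ} (hP : 0 < P₀) (hY : 1 ≤ Y) (A : Finset ℕ)
    (hA : ∀ p ∈ A, p.Prime ∧ P₀ ≤ Real.log p ∧ ((p - 1 : ℕ) : ℝ) ≤ Y) :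
    (A.card : ℝ) ≤ 3 * Y / P₀ := by
  rw [le_div_iff₀ hP]
  have h1 : (A.card : ℝ) * P₀ ≤ ∑ p ∈ A, Real.log p := by
    rw [← nsmul_eq_mul]
    exact card_nsmul_le_sum A _ _ fun p hp => (hA p hp).2.1
  have h2 : ∑ p ∈ A, Real.log p ≤ Chebyshev.theta (Y + 1) := by
    rw [Chebyshev.theta]
    refine sum_le_sum_of_subset_of_nonneg (fun p hp => ?_) fun p _ _ => Real.log_natCast_nonneg p
    obtain ⟨hp1, -, hp2⟩ := hA p hp
    refine mem_filter.2 ⟨mem_Ioc.2 ⟨hp1.pos, Nat.le_floor ?_⟩, hp1⟩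
    rw [Nat.cast_sub hp1.one_le] at hp2
    push_cast at hp2
    linarith
  have h3 := Chebyshev.theta_le_log4_mul_x (show (0 : ℝ) ≤ Y + 1 by linarith)
  have hl4 : Real.log 4 ≤ 1.4 := by
    rw [show (4 : ℝ) = 2 ^ 2 by norm_num, Real.log_pow]
    push_cast
    linarith [Real.log_two_lt_d9]
  have h4 := mul_le_mul_of_nonneg_right hl4 (show (0 : ℝ) ≤ Y + 1 by linarith)
  linarith

/-- Values `(p - 1) a m` with a large prime `p`. -/
lemma count_middle {X P₀ B₁ B₂ : ℝ} (hP : 0 < P₀) (hX : 0 ≤ X) {Q₁ Q₂ : ℕ → Prop}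
    (h₁ : Crude.Bd Q₁ B₁) (h₂ : Crude.Bd Q₂ B₂) (V : Finset ℕ)
    (hV : ∀ v ∈ V, (v : ℝ) ≤ X ∧ ∃ p a m : ℕ, p.Prime ∧ P₀ ≤ Real.log p ∧ 0 < a ∧ 0 < m ∧
      Q₁ a ∧ Q₂ m ∧ v = (p - 1) * a * m) :
    (V.card : ℝ) ≤ 3 * X / P₀ * (B₁ * B₂) := by
  choose! hle p a m hp hlog ha0 hm0 hQ1 hQ2 he using hV
  calc (V.card : ℝ)
      = ∑ b ∈ V.image (fun v => (a v, m v)), ((V.filter (fun v => (a v, m v) = b)).card : ℝ) := by
        rw [← Nat.cast_sum, ← card_eq_sum_card_fiberwise fun v hv => mem_image_of_mem _ hv]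
    _ ≤ ∑ b ∈ V.image (fun v => (a v, m v)), 3 * X / P₀ * (1 / (b.1 : ℝ) * (1 / (b.2 : ℝ))) := by
        refine sum_le_sum fun b hb => ?_
        set Vb := V.filter (fun v => (a v, m v) = b)
        have hmem : ∀ v ∈ Vb, v ∈ V ∧ a v = b.1 ∧ m v = b.2 := fun v hv =>
          ⟨(mem_filter.1 hv).1, congrArg Prod.fst (mem_filter.1 hv).2,
            congrArg Prod.snd (mem_filter.1 hv).2⟩
        have hinj : Set.InjOn p Vb := by
          intro x hx y hy h
          obtain ⟨hx1, hxa, hxm⟩ := hmem x hx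
          obtain ⟨hy1, hya, hym⟩ := hmem y hy
          rw [he x hx1, he y hy1, h, hxa, hxm, hya, hym]
        rw [← card_image_of_injOn hinj]
        obtain ⟨v₀, hv₀, rfl⟩ := mem_image.1 hb
        have ha : (0 : ℝ) < a v₀ := by exact_mod_cast ha0 v₀ hv₀
        have hm : (0 : ℝ) < m v₀ := by exact_mod_cast hm0 v₀ hv₀
        have h1 : (1 : ℝ) ≤ ((p v₀ - 1 : ℕ) : ℝ) := by
          have := (hp v₀ hv₀).two_le
          exact_mod_cast (show 1 ≤ p v₀ - 1 by omega)
        have hXv := hle v₀ hv₀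
        conv at hXv => lhs; rw [he v₀ hv₀]
        push_cast at hXv
        refine (primes_le hP (Y := X / (a v₀ * m v₀)) ?_ _ fun q hq => ?_).trans (le_of_eq ?_)
        · rw [le_div_iff₀ (mul_pos ha hm), one_mul]
          nlinarith [mul_pos ha hm]
        · obtain ⟨v, hv, rfl⟩ := mem_image.1 hq
          obtain ⟨hv1, hva, hvm⟩ := hmem v hv
          refine ⟨hp v hv1, hlog v hv1, ?_⟩
          have hXv' := hle v hv1
          conv at hXv' => lhs; rw [he v hv1]
          simp only at hva hvm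
          push_cast at hXv'
          rw [hva, hvm] at hXv'
          rw [le_div_iff₀ (mul_pos ha hm)]
          linarith
        · field_simp
    _ ≤ ∑ b ∈ V.image a ×ˢ V.image m, 3 * X / P₀ * (1 / (b.1 : ℝ) * (1 / (b.2 : ℝ))) :=
        sum_le_sum_of_subset_of_nonneg (fun b hb => by
          obtain ⟨v, hv, rfl⟩ := mem_image.1 hb
          exact mem_product.2 ⟨mem_image_of_mem _ hv, mem_image_of_mem _ hv⟩)
          fun b _ _ => by positivity
    _ = 3 * X / P₀ * ((∑ x ∈ V.image a, (1 : ℝ) / x) * ∑ y ∈ V.image m, (1 : ℝ) / y) := by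
        rw [sum_mul_sum, mul_sum, sum_product]
        exact sum_congr rfl fun x _ => by rw [mul_sum]
    _ ≤ 3 * X / P₀ * (B₁ * B₂) := by
        refine mul_le_mul_of_nonneg_left (mul_le_mul (h₁ _ fun x hx => ?_) (h₂ _ fun x hx => ?_)
          (sum_nonneg fun _ _ => by positivity) h₁.nonneg) (by positivity)
        · obtain ⟨v, hv, rfl⟩ := mem_image.1 hx
          exact hQ1 v hv
        · obtain ⟨v, hv, rfl⟩ := mem_image.1 hx
          exact hQ2 v hv

/-- A prime factor of a positive number has `log r ≤ exp (kap r + 1)`. -/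
lemma log_le_exp_kap {r : ℕ} (hr : 2 ≤ r) : Real.log r ≤ Real.exp ((kap r : ℝ) + 1) := by
  have h0 : 0 < Real.log (r : ℝ) := Real.log_pos (by exact_mod_cast hr)
  rw [← Real.log_le_iff_le_exp h0]
  exact (Nat.lt_floor_add_one _).le

/-- A smooth number is bounded through its number of prime factors. -/
lemma log_smooth_le {T m : ℕ} (h : Smooth T m) :
    Real.log m ≤ (bigOm m : ℝ) * Real.exp ((T : ℝ) + 1) := by
  rcases Nat.eq_zero_or_pos m with rfl | hm
  · simp only [Nat.cast_zero, Real.log_zero]; positivity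
  have hl : ∀ l : List ℕ, (∀ r ∈ l, r.Prime ∧ kap r ≤ T) →
      Real.log (l.prod : ℕ) ≤ (l.length : ℝ) * Real.exp ((T : ℝ) + 1) := by
    intro l
    induction l with
    | nil => simp
    | cons r l ih =>
      intro hl
      obtain ⟨hr, hrT⟩ := hl r (List.mem_cons_self ..)
      have hp : (0 : ℝ) < (l.prod : ℕ) := by
        exact_mod_cast List.prod_pos fun x hx => (hl x (List.mem_cons_of_mem _ hx)).1.pos
      rw [List.prod_cons, Nat.cast_mul, Real.log_mul (by exact_mod_cast hr.ne_zero) hp.ne',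
        List.length_cons, Nat.cast_succ, add_mul, one_mul, add_comm]
      refine add_le_add (ih fun x hx => hl x (List.mem_cons_of_mem _ hx))
        ((log_le_exp_kap hr.two_le).trans (Real.exp_le_exp.2 ?_))
      simpa using hrT
  have := hl m.primeFactorsList fun r hr =>
    ⟨Nat.prime_of_mem_primeFactorsList hr, h r (List.mem_toFinset.2 hr)⟩
  rwa [Nat.prod_primeFactorsList hm.ne'] at this

lemma bigOm_le_of_dvd {a b : ℕ} (h : a ∣ b) (hb : 0 < b) : bigOm a ≤ bigOm b := by
  obtain ⟨c, rfl⟩ := h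
  unfold bigOm
  rw [(Nat.perm_primeFactorsList_mul (left_ne_zero_of_mul hb.ne')
    (right_ne_zero_of_mul hb.ne')).length_eq, List.length_append]
  omega

end Vale.Agent.P031.RegB
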